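import Vale.Agent.P262.H967.Nbhd
import Vale.Agent.P262.H274.D9b
import Vale.Agent.P262.H174.Soft6

/-!
# Lossy gain lemma for sick labels, one scale

`[a,b)` not `1`-slow implies `Gam ≥ N s q / 1000`, where `s` is any polynomially small scale and `q`
the measure of the body at the end time `b`; only the field and the body at the end time enter.
-/

set_option linter.unusedSectionVars false

namespace Vale.Agent.P262.H967

open MeasureTheory ProbabilityTheory Set Filter Topology Module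
open scoped RealInnerProductSpace
open Vale.Agent.P262.H847 hiding gn
open Vale.Agent.P262.H912
open Vale.Agent.P262.H941
open Vale.Agent.P262.H274
open Vale.Agent.P262.H174 (Soft scaleBds_of_soft)

variable {E : Type*} [NormedAddCommGroup E] [InnerProductSpace ℝ E] [FiniteDimensional ℝ E]
  [MeasurableSpace E] [BorelSpace E]

lemma exp_half_two : Real.exp (1 / 2) ≤ 2 := by
  have h1 : Real.exp (1 / 2) ^ 2 = Real.exp 1 := by
    rw [← Real.exp_nat_mul]; norm_num
  have h2 := Real.exp_one_lt_d9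
  have h3 := Real.exp_pos (1 / 2 : ℝ)
  nlinarith

lemma scale_le {s d : ℝ} (hs : 0 < s) (hd : 1 ≤ d) (h : 360 * (s * d ^ 2) ≤ 1) : s ≤ 1 / 360 := by
  have h1 : 1 ≤ d ^ 2 := one_le_pow₀ hd
  have h2 : s * 1 ≤ s * d ^ 2 := mul_le_mul_of_nonneg_left h1 hs.le
  linarith

lemma dim_pos_of_measure {K : Set E} (hq0 : 0 < (stdGaussian E).real K)
    (hq1 : (stdGaussian E).real K < 1) : 1 ≤ finrank ℝ E := by
  have hne : K.Nonempty := by
    rw [nonempty_iff_ne_empty]
    intro h0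
    rw [h0, measureReal_empty] at hq0
    exact lt_irrefl _ hq0
  by_contra h0
  have h1 : finrank ℝ E = 0 := by omega
  have hsub : Subsingleton E := finrank_zero_iff.mp h1
  obtain ⟨x, hx⟩ := hne
  have h4 : K = univ := by
    ext y
    simp only [mem_univ, iff_true]
    rwa [Subsingleton.elim y x]
  rw [h4, probReal_univ] at hq1
  exact lt_irrefl _ hq1

/-- **Lower bound for the first moments** of a field close to the indicator of a convex body. -/
theorem mom_lower {f : E → ℝ} (hf : UI f) {K : Set E} (hK : Convex ℝ K) (hKm : MeasurableSet K)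
    (hq0 : 0 < (stdGaussian E).real K) (hq1 : (stdGaussian E).real K ≤ 7 / 8)
    (hfK : ∫ x, |f x - K.indicator (fun _ => (1:ℝ)) x| ∂(stdGaussian E)
      ≤ (stdGaussian E).real K / 128) {s : ℝ} (hs : 0 < s)
    (hs1 : 360 * (s * (finrank ℝ E : ℝ) ^ 2) ≤ 1) :
    s * (stdGaussian E).real K / 34 ≤ ∫ y, ‖mom f s (√(1 - s ^ 2) • y)‖ ∂(stdGaussian E) := by
  have hd := dim_pos_of_measure hq0 (by linarith)
  have hd' : (1:ℝ) ≤ finrank ℝ E := by exact_mod_cast hd
  have hsl : s ≤ 1 / 360 := scale_le hs hd' hs1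
  have hcs := sqrt_scale hs.le (by linarith : s ≤ 1)
  have hc0 : 0 < √(1 - s ^ 2) := Real.sqrt_pos.mpr (by nlinarith)
  set c := √(1 - s ^ 2) with hc
  set q := (stdGaussian E).real K with hq
  have hKU : UI (K.indicator (fun _ => (1:ℝ))) := UI.indicator hKm
  have h1 := osc_lower hK hKm hq0 hq1 hcs hc0 hs hs1
  rw [← hq] at h1
  have h2 := l1_poincare hf hcs hs hc0.le
  have h3 := avg_sub_le hKU hf hs.le (by linarith : s ≤ 1)
  rw [← hc] at h3
  have hsymm : ∫ x, |K.indicator (fun _ => (1:ℝ)) x - f x| ∂(stdGaussian E)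
      = ∫ x, |f x - K.indicator (fun _ => (1:ℝ)) x| ∂(stdGaussian E) := by
    congr 1; funext x; exact abs_sub_comm _ _
  rw [hsymm] at h3
  have hmean : |∫ z, f z ∂(stdGaussian E) - q| ≤ q / 128 := by
    have h4 : ∫ z, f z ∂(stdGaussian E) - q
        = ∫ z, (f z - K.indicator (fun _ => (1:ℝ)) z) ∂(stdGaussian E) := by
      rw [integral_sub (hf.integrable _) (hKU.integrable _), integral_ind hKm]
    rw [h4]
    exact abs_integral_le_integral_abs.trans hfK
  have hA1 := UI.comp (UI.avg hKU s) (T := fun y : E => c • y) (by fun_prop)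
  have hA2 := UI.comp (UI.avg hf s) (T := fun y : E => c • y) (by fun_prop)
  have i1 := (hA1.integrable (stdGaussian E))
  have i2 := (hA2.integrable (stdGaussian E))
  have j1 : Integrable (fun y => |avg (K.indicator (fun _ => (1:ℝ))) s (c • y)
      - avg f s (c • y)|) (stdGaussian E) := (i1.sub i2).abs
  have j2 : Integrable (fun y => |avg f s (c • y) - ∫ z, f z ∂(stdGaussian E)|)
      (stdGaussian E) := (i2.sub (integrable_const _)).abs
  have h5 : ∫ y, |avg (K.indicator (fun _ => (1:ℝ))) s (c • y) - q| ∂(stdGaussian E)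
      ≤ ∫ y, ((|avg (K.indicator (fun _ => (1:ℝ))) s (c • y) - avg f s (c • y)|
        + |avg f s (c • y) - ∫ z, f z ∂(stdGaussian E)|) + q / 128) ∂(stdGaussian E) := by
    refine integral_mono (i1.sub (integrable_const _)).abs
      ((j1.add j2).add (integrable_const _)) fun y => ?_
    show |avg (K.indicator (fun _ => (1:ℝ))) s (c • y) - q|
      ≤ (|avg (K.indicator (fun _ => (1:ℝ))) s (c • y) - avg f s (c • y)|
        + |avg f s (c • y) - ∫ z, f z ∂(stdGaussian E)|) + q / 128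
    have h6 := abs_sub_le (avg (K.indicator (fun _ => (1:ℝ))) s (c • y)) (avg f s (c • y)) q
    have h7 := abs_sub_le (avg f s (c • y)) (∫ z, f z ∂(stdGaussian E)) q
    linarith
  have j12 : Integrable (fun y => |avg (K.indicator (fun _ => (1:ℝ))) s (c • y)
      - avg f s (c • y)| + |avg f s (c • y) - ∫ z, f z ∂(stdGaussian E)|)
      (stdGaussian E) := j1.add j2
  rw [integral_add j12 (integrable_const _), integral_add j1 j2, integral_const, probReal_univ,
    one_smul] at h5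
  -- numbers
  set M := ∫ y, ‖mom f s (c • y)‖ ∂(stdGaussian E) with hM
  have hM0 : 0 ≤ M := integral_nonneg fun _ => norm_nonneg _
  have h8 : 3 * q / 64 ≤ Real.pi / 2 / s * M := by linarith
  have hpi := Real.pi_lt_d2
  have h9 : Real.pi / 2 / s * M ≤ 1.575 / s * M := by
    apply mul_le_mul_of_nonneg_right _ hM0
    apply div_le_div_of_nonneg_right _ hs.le
    linarith
  have h10 : 3 * q / 64 ≤ 1.575 * M / s := by
    have : 1.575 / s * M = 1.575 * M / s := by ring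
    linarith
  rw [le_div_iff₀ hs] at h10
  have : s * q / 34 ≤ 3 * q / 64 * s / 1.575 := by
    have hsq : 0 < s * q := by positivity
    have e1 : 3 * q / 64 * s / 1.575 = (3 / 64 / 1.575) * (s * q) := by ring
    have e2 : s * q / 34 = (1 / 34) * (s * q) := by ring
    rw [e1, e2]
    apply mul_le_mul_of_nonneg_right _ hsq.le
    norm_num
  have h11 : 3 * q / 64 * s / 1.575 ≤ M := by
    rw [div_le_iff₀ (by norm_num)]
    linarith
  linarith

/-- **Lossy gain lemma for sick labels**, abstract form: `B` bounds the total flux at the scale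
`s`. -/
theorem gain_lossy_u_abs {v : ℕ → E} {N : ℝ} (hN0 : 0 < N) (hN1 : N ≤ 1) {a b : ℕ} (hab : a ≤ b)
    (hS : ¬ Slow v N 1 a b) {f : E → ℝ} (hf : UI f) {K : Set E} (hK : Convex ℝ K)
    (hKm : MeasurableSet K) (hq0 : 0 < (stdGaussian E).real K)
    (hq1 : (stdGaussian E).real K ≤ 7 / 8)
    (hfK : ∫ x, |f x - K.indicator (fun _ => (1:ℝ)) x| ∂(stdGaussian E)
      ≤ (stdGaussian E).real K / 128) {s : ℝ} (hs : 0 < s)
    (hs1 : 360 * (s * (finrank ℝ E : ℝ) ^ 2) ≤ 1) {T : ℝ} (hT1 : 1 ≤ T)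
    (hTq : Real.exp (-(T ^ 2 / 2)) ≤ (stdGaussian E).real K)
    (hNT : 10 ^ 5 * (N ^ 2 * T ^ 3) ≤ s) {B : ℝ}
    (hflux : ∀ lam : ℝ,
      (∀ m : E, ∀ δ : ℝ, 0 < δ → ∃ κ, Adm (fun t => v (a + t)) (b - a) N κ ∧
        lam * ‖m‖ ≤ ⟪∑ r ∈ Finset.range (b - a), κ r • v (a + r), m⟫ + δ) →
      ∀ ε T : ℝ, 0 < ε → ε ≤ 1 → 1 ≤ T →
      ε * (lam * ∫ y, ‖mom f s (√(1 - s ^ 2) • y)‖ ∂(stdGaussian E))
        ≤ Real.exp (1 / 2) * B + Real.exp (1 / 2) * (ε ^ 3 / 6 * (N ^ 3 *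
          (8 * T ^ 3 * ∫ x, f x ∂(stdGaussian E) + 96 * Real.exp (-(T ^ 2 / 2)))))) :
    N * s * (stdGaussian E).real K / 1000 ≤ B := by
  set q := (stdGaussian E).real K with hq
  obtain ⟨V, hV1, hV2⟩ := pivot_adm v hN0 hN1 le_rfl hab (fun hs => hS ⟨1, le_rfl, hs⟩)
  have hV0 : V = ⊥ := Submodule.finrank_eq_zero.1 (by omega)
  have hadm : ∀ m : E, ∀ δ : ℝ, 0 < δ → ∃ κ, Adm (fun t => v (a + t)) (b - a) N κ ∧
        N / 9 * ‖m‖ ≤ ⟪∑ r ∈ Finset.range (b - a), κ r • v (a + r), m⟫ + δ := by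
    intro m δ hδ
    obtain ⟨κ, h1, h2⟩ := hV2 m δ hδ
    refine ⟨κ, h1, ?_⟩
    rw [hV0] at h2
    simpa using h2
  have h1 := hflux (N / 9) hadm 1 T one_pos le_rfl hT1
  have h2 := mom_lower hf hK hKm hq0 hq1 hfK hs hs1
  rw [← hq] at h2
  set M := ∫ y, ‖mom f s (√(1 - s ^ 2) • y)‖ ∂(stdGaussian E) with hM
  have hKU : UI (K.indicator (fun _ => (1:ℝ))) := UI.indicator hKm
  have hI : ∫ x, f x ∂(stdGaussian E) ≤ 2 * q := by
    have h4 : ∫ z, f z ∂(stdGaussian E) - q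
        = ∫ z, (f z - K.indicator (fun _ => (1:ℝ)) z) ∂(stdGaussian E) := by
      rw [integral_sub (hf.integrable _) (hKU.integrable _), integral_ind hKm]
    have h5 : ∫ z, (f z - K.indicator (fun _ => (1:ℝ)) z) ∂(stdGaussian E)
        ≤ ∫ z, |f z - K.indicator (fun _ => (1:ℝ)) z| ∂(stdGaussian E) :=
      (le_abs_self _).trans abs_integral_le_integral_abs
    linarith
  have hT3 : 1 ≤ T ^ 3 := one_le_pow₀ hT1
  have h3 : 8 * T ^ 3 * ∫ x, f x ∂(stdGaussian E) + 96 * Real.exp (-(T ^ 2 / 2))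
      ≤ 112 * (T ^ 3 * q) := by
    have a1 : 8 * T ^ 3 * ∫ x, f x ∂(stdGaussian E) ≤ 8 * T ^ 3 * (2 * q) :=
      mul_le_mul_of_nonneg_left hI (by positivity)
    have a2 : 1 * q ≤ T ^ 3 * q := mul_le_mul_of_nonneg_right hT3 hq0.le
    linarith
  have h4 : (1:ℝ) ^ 3 / 6 * (N ^ 3 * (8 * T ^ 3 * ∫ x, f x ∂(stdGaussian E)
      + 96 * Real.exp (-(T ^ 2 / 2)))) ≤ 19 * (N * q * (N ^ 2 * T ^ 3)) := by
    have a1 : N ^ 3 * (8 * T ^ 3 * ∫ x, f x ∂(stdGaussian E) + 96 * Real.exp (-(T ^ 2 / 2)))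
        ≤ N ^ 3 * (112 * (T ^ 3 * q)) := mul_le_mul_of_nonneg_left h3 (by positivity)
    have a2 : N ^ 3 * (112 * (T ^ 3 * q)) = 112 * (N * q * (N ^ 2 * T ^ 3)) := by ring
    have a3 : 0 ≤ N * q * (N ^ 2 * T ^ 3) := by positivity
    rw [a2] at a1
    linarith
  have h5 : 19 * (N * q * (N ^ 2 * T ^ 3)) ≤ 19 * (N * q * (s / 10 ^ 5)) := by
    apply mul_le_mul_of_nonneg_left _ (by norm_num)
    apply mul_le_mul_of_nonneg_left _ (by positivity)
    rw [le_div_iff₀ (by norm_num)]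
    linarith
  have hexp := exp_half_two
  have hexp0 := Real.exp_pos (1 / 2 : ℝ)
  have hNsq : 0 < N * s * q := by positivity
  have h6 : Real.exp (1 / 2) * ((1:ℝ) ^ 3 / 6 * (N ^ 3 * (8 * T ^ 3 * ∫ x, f x ∂(stdGaussian E)
      + 96 * Real.exp (-(T ^ 2 / 2))))) ≤ 38 / 10 ^ 5 * (N * s * q) := by
    have a1 := mul_le_mul_of_nonneg_left (h4.trans h5) hexp0.le
    have a2 : 0 ≤ 19 * (N * q * (s / 10 ^ 5)) := by positivity
    have a3 := mul_le_mul_of_nonneg_right hexp a2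
    have a4 : 2 * (19 * (N * q * (s / 10 ^ 5))) = 38 / 10 ^ 5 * (N * s * q) := by ring
    linarith
  have h7 : N * s * q / 306 ≤ 1 * (N / 9 * M) := by
    have a1 : N / 9 * (s * q / 34) ≤ N / 9 * M := mul_le_mul_of_nonneg_left h2 (by positivity)
    have a2 : N / 9 * (s * q / 34) = N * s * q / 306 := by ring
    linarith
  have h8 : 2 * (N * s * q / 1000) ≤ Real.exp (1 / 2) * B := by linarith
  have hB0 : 0 < B := by
    by_contra hneg
    rw [not_lt] at hneg
    have := mul_nonpos_of_nonneg_of_nonpos hexp0.le hneg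
    linarith
  have h9 : Real.exp (1 / 2) * B ≤ 2 * B := mul_le_mul_of_nonneg_right hexp hB0.le
  linarith

/-- **Lossy gain lemma for sick labels**, for scale bounds. -/
theorem gain_lossy_u_sb {v : ℕ → E} {N : ℝ} (hN0 : 0 < N) (hN1 : N ≤ 1) {a b : ℕ} (hab : a ≤ b)
    (hS : ¬ Slow v N 1 a b) {f : ℕ → E → ℝ} (hf : ∀ t, UI (f t)) {g : ℕ → ℝ}
    (hB : ScaleBds f v g N a b) {K : Set E} (hK : Convex ℝ K)
    (hKm : MeasurableSet K) (hq0 : 0 < (stdGaussian E).real K)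
    (hq1 : (stdGaussian E).real K ≤ 7 / 8)
    (hfK : ∫ x, |f b x - K.indicator (fun _ => (1:ℝ)) x| ∂(stdGaussian E)
      ≤ (stdGaussian E).real K / 128) {s : ℝ} (hs : 0 < s)
    (hs1 : 360 * (s * (finrank ℝ E : ℝ) ^ 2) ≤ 1) {T : ℝ} (hT1 : 1 ≤ T)
    (hTq : Real.exp (-(T ^ 2 / 2)) ≤ (stdGaussian E).real K)
    (hNT : 10 ^ 5 * (N ^ 2 * T ^ 3) ≤ s) :
    N * s ^ 2 * (stdGaussian E).real K / 4000 ≤ Gam g a b := by
  have hd := dim_pos_of_measure hq0 (by linarith)
  have hd' : (1:ℝ) ≤ finrank ℝ E := by exact_mod_cast hd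
  have hsl : s ≤ 1 := by have := scale_le hs hd' hs1; linarith
  have h1 := gain_lossy_u_abs hN0 hN1 hab hS (hf b) hK hKm hq0 hq1 hfK hs hs1 hT1 hTq hNT
    (B := 4 / s * Gam g a b) (fun lam hadm ε T hε hε1 hT =>
      hB.flux a b le_rfl hab le_rfl s hs hsl (ContinuousLinearMap.id ℝ E) lam hadm ε T hε hε1 hT)
  have h2 : 4 / s * Gam g a b = 4 * Gam g a b / s := by ring
  rw [h2, le_div_iff₀ hs] at h1
  have h3 : N * s * (stdGaussian E).real K / 1000 * s
      = 4 * (N * s ^ 2 * (stdGaussian E).real K / 4000) := by ring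
  rw [h3] at h1
  linarith

/-- **Lossy gain lemma for sick labels**, fields with flux bounds. -/
theorem gain_lossy_u {v : ℕ → E} {N : ℝ} (hN0 : 0 < N) (hN1 : N ≤ 1) {a b : ℕ} (hab : a ≤ b)
    (hS : ¬ Slow v N 1 a b) {f : ℕ → E → ℝ} (hf : ∀ t, UI (f t)) {F : ℕ → ℝ}
    (hF : ∀ t, a ≤ t → t < b → FluxLe (f t) (v t) (F t)) {K : Set E} (hK : Convex ℝ K)
    (hKm : MeasurableSet K) (hq0 : 0 < (stdGaussian E).real K)
    (hq1 : (stdGaussian E).real K ≤ 7 / 8)
    (hfK : ∫ x, |f b x - K.indicator (fun _ => (1:ℝ)) x| ∂(stdGaussian E)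
      ≤ (stdGaussian E).real K / 128) {s : ℝ} (hs : 0 < s)
    (hs1 : 360 * (s * (finrank ℝ E : ℝ) ^ 2) ≤ 1) {T : ℝ} (hT1 : 1 ≤ T)
    (hTq : Real.exp (-(T ^ 2 / 2)) ≤ (stdGaussian E).real K)
    (hNT : 10 ^ 5 * (N ^ 2 * T ^ 3) ≤ s) :
    N * s * (stdGaussian E).real K / 1000 ≤ Gam (gn f F) a b := by
  have hd := dim_pos_of_measure hq0 (by linarith)
  have hd' : (1:ℝ) ≤ finrank ℝ E := by exact_mod_cast hd
  have hsl : s ≤ 1 := by have := scale_le hs hd' hs1; linarith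
  refine gain_lossy_u_abs hN0 hN1 hab hS (hf b) hK hKm hq0 hq1 hfK hs hs1 hT1 hTq hNT
    (fun lam hadm ε T hε hε1 hT => ?_)
  have hcs := sqrt_scale hs.le hsl
  have hlu : a + (b - a) = b := by omega
  have h2 := supp_bound (e := fun t => f (a + t)) (fun t => hf (a + t))
    (v := fun t => v (a + t)) (F := fun t => F (a + t)) hcs hs hsl (b - a)
    (fun t ht => hF (a + t) (by omega) (by omega)) hN0.le
    (P := ContinuousLinearMap.id ℝ E) (lam := lam) hadm hε hε1 hT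
  have hsum : ∑ t ∈ Finset.range (b - a),
      (F (a + t) + ∫ x, |f (a + (t + 1)) x - f (a + t) x| ∂(stdGaussian E))
        = Gam (gn f F) a b := by
    unfold Gam gn
    rw [Finset.sum_Ico_eq_sum_range]
    rfl
  rw [hsum, hlu] at h2
  exact h2

/-! ### Visible fields -/

lemma FluxLe.compl' {f : E → ℝ} {v : E} {F : ℝ} (h : FluxLe f v F) :
    FluxLe (fun x => 1 - f x) v F := by
  intro ε hε
  refine (h ε hε).mono fun t ht => ?_
  refine le_trans (le_of_eq ?_) ht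
  congr 1; funext x
  rw [← abs_neg]
  congr 1; ring

lemma Soft.compl' {e e' : E → ℝ} {α β : ℝ} (h : Soft e e' α β) :
    Soft (fun x => 1 - e x) (fun x => 1 - e' x) α β := by
  intro Ψ L hL hΨ
  have h1 := h Ψ L hL hΨ
  have h2 : ∫ x, ((1 - e' x) - (1 - e x)) * Ψ x ∂(stdGaussian E)
      = -∫ x, (e' x - e x) * Ψ x ∂(stdGaussian E) := by
    rw [← integral_neg]
    congr 1; funext x; ring
  rw [h2, abs_neg]
  exact h1

/-- **Lossy gain lemma for sick labels, visible fields with intermediate fields**: `f t` visible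
fields, `fh t` the field at which the flux of step `t` is taken, `f b + h = 1_{Kᶜ}` with a hidden
field `h` of mass at most `q / 128`. -/
theorem gain_lossy_sick {v : ℕ → E} {N : ℝ} (hN0 : 0 < N) (hN1 : N ≤ 1) {a b : ℕ} (hab : a ≤ b)
    (hS : ¬ Slow v N 1 a b) {f fh : ℕ → E → ℝ} (hf : ∀ t, UI (f t)) (hfh' : ∀ t, UI (fh t))
    {F : ℕ → ℝ} (hF : ∀ t, a ≤ t → t < b → FluxLe (fh t) (v t) (F t)) {h : E → ℝ} (hh : UI h)
    {K : Set E} (hK : Convex ℝ K) (hKm : MeasurableSet K)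
    (hfh : ∀ x, f b x + h x = Kᶜ.indicator (fun _ => (1:ℝ)) x)
    (hq0 : 0 < (stdGaussian E).real K) (hq1 : (stdGaussian E).real K ≤ 7 / 8)
    (hhid : ∫ x, h x ∂(stdGaussian E) ≤ (stdGaussian E).real K / 128) {s : ℝ} (hs : 0 < s)
    (hs1 : 360 * (s * (finrank ℝ E : ℝ) ^ 2) ≤ 1) {T : ℝ} (hT1 : 1 ≤ T)
    (hTq : Real.exp (-(T ^ 2 / 2)) ≤ (stdGaussian E).real K)
    (hNT : 10 ^ 5 * (N ^ 2 * T ^ 3) ≤ s) :
    N * s * (stdGaussian E).real K / 1000 ≤ Gam (gh f fh F) a b := by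
  have hcl : ∀ x, |1 - f b x - K.indicator (fun _ => (1:ℝ)) x| = h x := by
    intro x
    have h1 := hfh x
    by_cases hx : x ∈ K
    · rw [indicator_of_notMem (show x ∉ Kᶜ from fun h => h hx)] at h1
      rw [indicator_of_mem hx]
      have h2 : 1 - f b x - 1 = h x := by linarith
      rw [h2, abs_of_nonneg (hh.nonneg x)]
    · rw [indicator_of_mem (show x ∈ Kᶜ from hx)] at h1
      rw [indicator_of_notMem hx]
      have h2 : 1 - f b x - 0 = h x := by linarith
      rw [h2, abs_of_nonneg (hh.nonneg x)]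
  have hgh : Gam (gh (fun t x => 1 - f t x) (fun t x => 1 - fh t x) F) a b
      = Gam (gh f fh F) a b := by
    unfold Gam gh
    refine Finset.sum_congr rfl fun t _ => ?_
    congr 2
    · congr 1; funext x; rw [← abs_neg]; congr 1; ring
    · congr 1; funext x; rw [← abs_neg]; congr 1; ring
  rw [← hgh, ← gam_mix hab]
  refine gain_lossy_u hN0 hN1 (by omega) (not_slow_double hS)
    (mix_UI (fun t => UI.compl' (hf t)) (fun t => UI.compl' (hfh' t)))
    (fluxLe_dbl fun t h1 h2 => FluxLe.compl' (hF t h1 h2)) hK hKm hq0 hq1 ?_ hs hs1 hT1 hTq hNT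
  rw [mix_even]
  simp_rw [hcl]
  exact hhid

end Vale.Agent.P262.H967
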