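import Vale.Agent.P262.H967.Hm5

/-!
# P262, milestone 2, block HMOM: numbers

All constants of `HMOM_Hd` in the form `CT ≥ 184 cCons / b0`.
-/

set_option linter.all false

namespace Vale.Agent.P262.H967

open Vale.Agent.P262.M2
open Vale.Agent.P262.M2.Sys
open Vale.Agent.P262.H431 (ThrC)
open Vale.Agent.P262.Cons493 (cCons)

variable {E : Type*} [NormedAddCommGroup E] [InnerProductSpace ℝ E] [FiniteDimensional ℝ E]
  [MeasurableSpace E] [BorelSpace E] {S : Sys E}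

lemma Kc_le (hth : S.th ≤ 1 / 2) : Kc S ≤ 2 / S.b0 := by
  have hb0 := S.b0_pos_f
  have hM := S.hM
  have hMb := S.hMb
  have hb1 : S.b0 ≤ 1 := by nlinarith
  have h1 : S.b0 ^ (-S.th) ≤ 1 / S.b0 := by
    have h2 : S.b0 ^ (-S.th) ≤ S.b0 ^ (-1 : ℝ) :=
      Real.rpow_le_rpow_of_exponent_ge hb0 hb1 (by linarith)
    rwa [Real.rpow_neg_one, inv_eq_one_div] at h2
  have h3 : Real.sqrt (S.M + 1) ≤ S.M + 1 := by
    rw [Real.sqrt_le_left (by linarith)]
    nlinarith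
  have h4 : S.M + 1 ≤ 1 / 32 / S.b0 := by
    rw [le_div_iff₀ hb0]
    linarith
  have h5 : (1 : ℝ) ≤ 1 / 64 / S.b0 := by
    rw [le_div_iff₀ hb0]
    nlinarith
  unfold Kc
  have e : 2 / S.b0 = 1 / S.b0 + 1 / S.b0 := by ring
  have e2 : 1 / 32 / S.b0 = 1 / 32 * (1 / S.b0) := by ring
  have e3 : 1 / 64 / S.b0 = 1 / 64 * (1 / S.b0) := by ring
  have h6 : 0 < 1 / S.b0 := by positivity
  rw [e2] at h4
  rw [e3] at h5
  rw [e]
  linarith

/-- **(HMOM), all parents, constant `184 cCons / b0`** -/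
theorem HMOM_Hd' (H : ThrC S) (hk : S.kp 1 ≤ 1 / 2) (hA : 16 * (S.M + 1) * S.kp 1 ≤ 1)
    (hkt : S.kap ^ S.th ≤ 1 / 2) (hroot : ∀ m, m < S.mT → ∀ x, S.kl [] m x ≠ 0) {CT lam : ℝ}
    (hCT : 184 * cCons / S.b0 ≤ CT) (hlam : S.kap ^ S.th ≤ lam)
    (hlam' : Real.sqrt S.kap ≤ lam) : S.HMOM S.Hd CT lam := by
  have hb0 := S.b0_pos_f
  have hc : 4 ≤ cCons := by
    unfold cCons
    have := Real.one_le_exp (x := (2 : ℝ) ^ 11) (by positivity)
    linarith
  have h1 := Kc_le (S := S) H.th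
  refine HMOM_Hd H hk hA hkt hroot ?_ ?_ hlam hlam'
  · refine le_trans ?_ hCT
    have h2 : 0 ≤ 4 * (23 * cCons) := by positivity
    calc 4 * (Kc S * (23 * cCons)) = 4 * (23 * cCons) * Kc S := by ring
      _ ≤ 4 * (23 * cCons) * (2 / S.b0) := mul_le_mul_of_nonneg_left h1 h2
      _ = 184 * cCons / S.b0 := by ring
  · refine le_trans ?_ hCT
    exact div_le_div_of_nonneg_right (by linarith) hb0.le

end Vale.Agent.P262.H967
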