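import Vale.Agent.P262.H967.Energy2

/-!
# First moments of a convex body in one direction, relative to a scale
-/

set_option linter.unusedSectionVars false

namespace Vale.Agent.P262.H967

open MeasureTheory ProbabilityTheory Set Filter Topology
open scoped RealInnerProductSpace
open Vale.Agent.P262.H847 Vale.Agent.P262.H912 Vale.Agent.P262.H941

lemma Phi_lip {x y : ℝ} (h : x ≤ y) : Phi y - Phi x ≤ (y - x) / 2 := by
  rcases h.eq_or_lt with rfl | hxy
  · simp
  obtain ⟨c, hc, hc2⟩ := exists_hasDerivAt_eq_slope Phi phi hxy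
      (fun x _ => (hasDerivAt_Phi x).continuousAt.continuousWithinAt)
      (fun x _ => hasDerivAt_Phi x)
  have h1 := phi_le_half c
  rw [hc2, div_le_iff₀ (by linarith)] at h1
  linarith

/-- `phi / Phi` is decreasing -/
lemma ratio_anti : Antitone (fun x => phi x / Phi x) := by
  have hd : ∀ x, HasDerivAt (fun x => phi x / Phi x)
      ((-x * phi x * Phi x - phi x * phi x) / Phi x ^ 2) x := fun x =>
    (hasDerivAt_phi x).div (hasDerivAt_Phi x) (Phi_pos x).ne'
  apply antitone_of_deriv_nonpos (fun x => (hd x).differentiableAt)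
  intro x
  rw [(hd x).deriv]
  apply div_nonpos_of_nonpos_of_nonneg _ (by positivity)
  have h1 := mills x
  have h2 := phi_pos x
  nlinarith [mul_nonneg h2.le h1]

lemma log_four_le : Real.log 4 ≤ 3 / 2 := by
  have h1 : (4:ℝ) = 2 ^ 2 := by norm_num
  rw [h1, Real.log_pow]
  have := Real.log_two_lt_d9
  push_cast
  linarith

/-- log-concavity of `Phi`, in the form used below -/
lemma slope_bound {s t : ℝ} (hts : t ≤ s) (h : Phi s ≤ 4 * Phi t) :
    (s - t) * phi s ≤ 3 / 2 * Phi s := by
  rcases hts.eq_or_lt with rfl | hts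
  · simp [(Phi_pos t).le]
  have hd : ∀ x, HasDerivAt (fun x => Real.log (Phi x)) (phi x / Phi x) x := fun x =>
    (hasDerivAt_Phi x).log (Phi_pos x).ne'
  obtain ⟨c, hc, hc2⟩ := exists_hasDerivAt_eq_slope (fun x => Real.log (Phi x))
      (fun x => phi x / Phi x) hts
      (fun x _ => (hd x).continuousAt.continuousWithinAt) (fun x _ => hd x)
  have h1 : phi s / Phi s ≤ phi c / Phi c := ratio_anti hc.2.le
  rw [hc2, le_div_iff₀ (by linarith)] at h1
  have h2 : Real.log (Phi s) - Real.log (Phi t) ≤ 3 / 2 := by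
    have h3 : Real.log (Phi s) ≤ Real.log (4 * Phi t) := Real.log_le_log (Phi_pos s) h
    rw [Real.log_mul (by norm_num) (Phi_pos t).ne'] at h3
    linarith [log_four_le]
  have h4 : phi s / Phi s * (s - t) ≤ 3 / 2 := h1.trans h2
  rw [div_mul_eq_mul_div, div_le_iff₀ (Phi_pos s)] at h4
  linarith

variable {E : Type*} [NormedAddCommGroup E] [InnerProductSpace ℝ E] [FiniteDimensional ℝ E]
  [MeasurableSpace E] [BorelSpace E]

lemma measurable_shift {K : Set E} (hKm : MeasurableSet K) (w : E) :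
    MeasurableSet {x | x ∈ K ∧ x + w ∈ K} :=
  hKm.inter (hKm.preimage (measurable_id.add_const w))

/-- The loss of measure of a convex body under a small shift. -/
lemma shift_loss {K : Set E} (hK : Convex ℝ K) (hKm : MeasurableSet K)
    (hq0 : 0 < (stdGaussian E).real K) (hq1 : (stdGaussian E).real K < 1) {w : E}
    (hw : (stdGaussian E).real K ≤ 4 * (stdGaussian E).real {x | x ∈ K ∧ x + w ∈ K})
    {ε : ℝ} (hε : 0 < ε) :
    ∀ᶠ τ : ℝ in 𝓝[>] 0, (stdGaussian E).real K
        - (stdGaussian E).real {x | x ∈ K ∧ x + τ • w ∈ K}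
      ≤ τ * (3 / 2 * (stdGaussian E).real K + ε) := by
  set q := (stdGaussian E).real K with hq
  set m := (stdGaussian E).real {x | x ∈ K ∧ x + w ∈ K} with hm
  have hmq : m ≤ q := measureReal_mono (fun x hx => hx.1)
  obtain ⟨s, hs⟩ := exists_Phi_eq hq0 hq1
  obtain ⟨t, ht⟩ := exists_Phi_eq (show 0 < m by linarith) (by linarith)
  have hts : t ≤ s := by
    rw [← strictMono_Phi.le_iff_le, hs, ht]; exact hmq
  have hsl := slope_bound hts (by rw [hs, ht]; exact hw)
  have hd : HasDerivAt (fun τ : ℝ => Phi (s - τ * (s - t))) (-((s - t) * phi s)) 0 := by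
    have h1 : HasDerivAt (fun τ : ℝ => s - τ * (s - t)) (-(s - t)) 0 := by
      have := ((hasDerivAt_id (0:ℝ)).mul_const (s - t)).const_sub s
      simpa using this
    have h2 := (hasDerivAt_Phi (s - 0 * (s - t))).comp (0:ℝ) h1
    refine h2.congr_deriv ?_
    simp only [zero_mul, sub_zero]
    ring
  have hlim := hd.tendsto_slope_zero_right
  have hev := hlim.eventually_const_lt (show -((s - t) * phi s) - ε < -((s - t) * phi s) by
    linarith)
  filter_upwards [hev, Ioo_mem_nhdsGT (show (0:ℝ) < 1 by norm_num)] with τ hτ hτ1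
  have hτ0 : 0 < τ := hτ1.1
  have hE := (Ehr.stdGaussian E).sets (a := 1 - τ) (b := τ) (by linarith [hτ1.2]) hτ0 (by ring)
    (A := K) (B := {x | x ∈ K ∧ x + w ∈ K}) (C := {x | x ∈ K ∧ x + τ • w ∈ K})
    hKm (measurable_shift hKm w) (measurable_shift hKm _) (fun x hx y hy => ⟨
      hK hx hy.1 (by linarith [hτ1.2]) hτ0.le (by ring), by
      have h1 := hK hx hy.2 (a := 1 - τ) (b := τ) (by linarith [hτ1.2]) hτ0.le (by ring)
      rw [smul_add, ← add_assoc] at h1
      exact h1⟩) (s := s) (t := t) (by rw [hs]) (by rw [ht])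
  have e1 : (1 - τ) * s + τ * t = s - τ * (s - t) := by ring
  rw [e1] at hE
  simp only [zero_add, zero_mul, sub_zero, smul_eq_mul] at hτ
  have h2 : -((s - t) * phi s) - ε < τ⁻¹ * (Phi (s - τ * (s - t)) - Phi s) := hτ
  rw [lt_inv_mul_iff₀ hτ0] at h2
  rw [hs] at h2 hsl
  have h3 : τ * ((s - t) * phi s) ≤ τ * (3 / 2 * q) := mul_le_mul_of_nonneg_left hsl hτ0.le
  nlinarith

lemma ind_UI {K : Set E} (hKm : MeasurableSet K) : UI (K.indicator (fun _ => (1:ℝ))) :=
  UI.indicator hKm

/-- The flux of a convex body in one direction. -/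
theorem flux_convex {K : Set E} (hK : Convex ℝ K) (hKm : MeasurableSet K)
    (hq0 : 0 < (stdGaussian E).real K) (hq1 : (stdGaussian E).real K < 1) {b : E} (hb : ‖b‖ = 1)
    {l : ℝ} (hl : 0 < l)
    (hp : (stdGaussian E).real K ≤ 4 * (stdGaussian E).real {x | x ∈ K ∧ x + l • b ∈ K})
    (hn : (stdGaussian E).real K ≤ 4 * (stdGaussian E).real {x | x ∈ K ∧ x + (-l) • b ∈ K}) :
    FluxLe (K.indicator (fun _ => (1:ℝ))) b (9 / 2 * (stdGaussian E).real K / l) := by
  set q := (stdGaussian E).real K with hq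
  set f : E → ℝ := K.indicator (fun _ => (1:ℝ)) with hf
  have hfU : UI f := ind_UI hKm
  intro ε hε
  apply Eventually.frequently
  have h1 := shift_loss hK hKm hq0 hq1 hp (ε := ε * l / 6) (by positivity)
  have h2 := shift_loss hK hKm hq0 hq1 hn (ε := ε * l / 6) (by positivity)
  rw [← hq] at h1 h2
  -- substitute `τ = t / l`
  have hsub : Tendsto (fun t : ℝ => t / l) (𝓝[>] 0) (𝓝[>] 0) := by
    apply tendsto_nhdsWithin_iff.mpr
    constructor
    · have : Continuous (fun t : ℝ => t / l) := by fun_prop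
      have h3 := this.tendsto 0
      rw [zero_div] at h3
      exact h3.mono_left nhdsWithin_le_nhds
    · filter_upwards [self_mem_nhdsWithin] with t ht
      exact div_pos ht hl
  filter_upwards [hsub.eventually h1, hsub.eventually h2,
    Ioo_mem_nhdsGT (show (0:ℝ) < ε / 2 by positivity)] with t ht1 ht2 htε
  have ht0 : 0 < t := htε.1
  have e1 : (t / l) • l • b = t • b := by rw [smul_smul, div_mul_cancel₀ _ hl.ne']
  have e2 : (t / l) • (-l) • b = (-t) • b := by
    rw [smul_smul, mul_neg, div_mul_cancel₀ _ hl.ne']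
  rw [e1] at ht1
  rw [e2] at ht2
  set P := (stdGaussian E).real {x | x ∈ K ∧ x + t • b ∈ K} with hP
  set R := (stdGaussian E).real {x | x ∈ K ∧ x + (-t) • b ∈ K} with hR
  -- identities
  have hfs : ∀ r : ℝ, UI (fun x => f (x + r • b)) := fun r => UI.comp hfU (by fun_prop)
  have hfq : ∫ x, f x ∂(stdGaussian E) = q := integral_ind hKm _
  have hprod : ∀ r : ℝ, ∫ x, f x * f (x + r • b) ∂(stdGaussian E)
      = (stdGaussian E).real {x | x ∈ K ∧ x + r • b ∈ K} := by
    intro r
    rw [← integral_ind (measurable_shift hKm (r • b))]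
    congr 1; funext x
    simp only [hf]
    by_cases h3 : x ∈ K
    · by_cases h4 : x + r • b ∈ K
      · rw [indicator_of_mem h3, indicator_of_mem h4,
          indicator_of_mem (show x ∈ {x | x ∈ K ∧ x + r • b ∈ K} from ⟨h3, h4⟩), one_mul]
      · rw [indicator_of_mem h3, indicator_of_notMem h4,
          indicator_of_notMem (show x ∉ {x | x ∈ K ∧ x + r • b ∈ K} from fun h => h4 h.2),
          mul_zero]
    · rw [indicator_of_notMem h3,
          indicator_of_notMem (show x ∉ {x | x ∈ K ∧ x + r • b ∈ K} from fun h => h3 h.1),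
          zero_mul]
  have hprodi : ∀ r : ℝ, Integrable (fun x => f x * f (x + r • b)) (stdGaussian E) := by
    intro r
    refine Integrable.of_bound (hfU.meas.mul (hfs r).meas).aestronglyMeasurable 1
      (Eventually.of_forall fun x => ?_)
    rw [norm_mul, Real.norm_eq_abs, Real.norm_eq_abs, abs_of_nonneg (hfU.nonneg x),
      abs_of_nonneg ((hfs r).nonneg x)]
    exact mul_le_one₀ (hfU.le_one x) ((hfs r).nonneg x) ((hfs r).le_one x)
  have hpt : ∀ x, |f (x + t • b) - f x| = 2 * f x - 2 * (f x * f (x + t • b))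
      + (f (x + t • b) - f x) := by
    intro x
    simp only [hf]
    by_cases h3 : x ∈ K
    · by_cases h4 : x + t • b ∈ K
      · rw [indicator_of_mem h3, indicator_of_mem h4]; norm_num
      · rw [indicator_of_mem h3, indicator_of_notMem h4]; norm_num
    · by_cases h4 : x + t • b ∈ K
      · rw [indicator_of_notMem h3, indicator_of_mem h4]; norm_num
      · rw [indicator_of_notMem h3, indicator_of_notMem h4]; norm_num
  have hfi := hfU.integrable (stdGaussian E)
  have hfti := (hfs t).integrable (stdGaussian E)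
  have hL1 : ∫ x, |f (x + t • b) - f x| ∂(stdGaussian E)
      = 2 * q - 2 * P + (∫ x, f (x + t • b) ∂(stdGaussian E) - q) := by
    simp_rw [hpt]
    have i1 : Integrable (fun x => 2 * f x - 2 * (f x * f (x + t • b))) (stdGaussian E) :=
      (hfi.const_mul 2).sub ((hprodi t).const_mul 2)
    have i2 : Integrable (fun x => f (x + t • b) - f x) (stdGaussian E) := hfti.sub hfi
    rw [integral_add i1 i2, integral_sub (hfi.const_mul 2) ((hprodi t).const_mul 2),
      integral_const_mul, integral_const_mul, hprod, hfq, integral_sub hfti hfi, hfq]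
  have hs1 := shift_upper hfU (t • b)
  have hs2 := shift_upper hfU ((-t) • b)
  rw [hfq, norm_smul, hb, real_inner_smul_left, Real.norm_eq_abs] at hs1 hs2
  have hR2 : R ≤ ∫ x, f (x + (-t) • b) ∂(stdGaussian E) := by
    rw [hR, ← hprod]
    apply integral_mono (hprodi (-t)) ((hfs (-t)).integrable _)
    intro x
    exact mul_le_of_le_one_left ((hfs (-t)).nonneg x) (hfU.le_one x)
  rw [abs_of_pos ht0] at hs1
  rw [abs_neg, abs_of_pos ht0] at hs2
  rw [hL1]
  have e3 : t / l * (3 / 2 * q + ε * l / 6) = t * (3 / 2 * q / l) + ε * t / 6 := by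
    field_simp
  rw [e3] at ht1 ht2
  have e4 : (9 / 2 * q / l + ε) * t = 3 * (t * (3 / 2 * q / l)) + ε * t := by
    field_simp
    ring
  rw [e4]
  have h5 : t * t ≤ t * (ε / 2) := mul_le_mul_of_nonneg_left htε.2.le ht0.le
  nlinarith

/-! ### First moments from the flux -/

lemma dir_moment {e : E → ℝ} (he : UI e) {b : E} {F : ℝ} (hF : FluxLe e b F) {c s : ℝ}
    (hcs : c ^ 2 + s ^ 2 = 1) (hs : 0 < s) :
    ∫ y, |⟪b, mom e s (c • y)⟫| ∂(stdGaussian E) ≤ s * F := by
  have hMm : Measurable (fun y : E => mom e s (c • y)) := (measurable_mom he s).comp (by fun_prop)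
  set σ : E → ℝ := fun y => if 0 ≤ ⟪b, mom e s (c • y)⟫ then 1 else -1 with hσ
  have hσm : Measurable σ := by
    refine Measurable.ite ?_ measurable_const measurable_const
    exact measurableSet_le measurable_const (hMm.const_inner)
  have hσ1 : ∀ y, |σ y| ≤ 1 := by
    intro y; simp only [hσ]; split_ifs <;> norm_num
  have h := flux_pair he hF hcs hs (Ψ := fun y _ => σ y) (Ψ' := fun _ _ => 0)
    (hσm.comp measurable_fst) measurable_const (B := 1) (B' := 0) (fun y _ => hσ1 y)
    (fun _ _ => by simp) (fun y g τ => by simpa using hasDerivAt_const τ (σ y))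
  simp only [sub_zero, mul_one] at h
  have hi : Integrable (fun p : E × E => e (c • p.1 + s • p.2) * (⟪b, p.2⟫ * σ p.1)) (gg E) := by
    refine ((integrable_inner b).norm.comp_snd (stdGaussian E)).mono'
      ((he.meas.comp (by fun_prop : Measurable fun p : E × E => c • p.1 + s • p.2)).mul
        ((by fun_prop : Measurable fun p : E × E => ⟪b, p.2⟫).mul
          (hσm.comp measurable_fst))).aestronglyMeasurable
      (Eventually.of_forall fun p => ?_)
    rw [norm_mul, norm_mul, Real.norm_eq_abs, abs_of_nonneg (he.nonneg _)]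
    have h1 := hσ1 p.1
    have h2 : ‖⟪b, p.2⟫‖ * ‖σ p.1‖ ≤ ‖⟪b, p.2⟫‖ := mul_le_of_le_one_right (norm_nonneg _) h1
    exact (mul_le_of_le_one_left (by positivity) (he.le_one _)).trans h2
  rw [integral_prod _ hi] at h
  have e1 : ∀ y : E, ∫ g : E, e (c • y + s • g) * (⟪b, g⟫ * σ y) ∂(stdGaussian E)
      = |⟪b, mom e s (c • y)⟫| := by
    intro y
    have h1 := (innerSL ℝ b).integral_comp_comm (UI.integrable_smul
      (UI.comp he (T := fun g => c • y + s • g) (by fun_prop)))
    simp only [innerSL_apply_apply] at h1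
    have h2 : ⟪b, mom e s (c • y)⟫ = ∫ g : E, e (c • y + s • g) * ⟪b, g⟫ ∂(stdGaussian E) := by
      rw [mom, ← h1]
      congr 1; funext g
      rw [real_inner_smul_right]
    have h3 : ∫ g : E, e (c • y + s • g) * (⟪b, g⟫ * σ y) ∂(stdGaussian E)
        = ⟪b, mom e s (c • y)⟫ * σ y := by
      rw [h2, ← integral_mul_const]
      congr 1; funext g; ring
    rw [h3]
    simp only [hσ]
    split_ifs with h4
    · rw [mul_one, abs_of_nonneg h4]
    · rw [abs_of_neg (not_le.mp h4)]; ring
  simp only [e1] at h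
  exact (le_abs_self _).trans h

/-! ### From a scale to a shift -/

/-- the balance of the averages at scale `s` -/
noncomputable def Qf (f : E → ℝ) (s : ℝ) : ℝ :=
  ∫ y, min (avg f s (Real.sqrt (1 - s ^ 2) • y)) (1 - avg f s (Real.sqrt (1 - s ^ 2) • y))
    ∂(stdGaussian E)

lemma line_shift {J : Set ℝ} (hJ : Convex ℝ J) :
    g1.real {t | t ∈ J ∧ t + (1 / 2) ∉ J} ≤ 1 / 4 := by
  set S : Set ℝ := {t | t ∈ J ∧ t + (1 / 2) ∉ J} with hS
  rcases S.eq_empty_or_nonempty with h | ⟨t0, ht0⟩
  · rw [h]; simp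
  have hle : ∀ t ∈ S, ∀ t' ∈ S, t' ≤ t + 1 / 2 := by
    intro t ht t' ht'
    by_contra hcon
    push Not at hcon
    apply ht.2
    exact hJ.ordConnected.out ht.1 ht'.1 ⟨by linarith, hcon.le⟩
  have hbdd : BddAbove S := ⟨t0 + 1 / 2, fun t' ht' => hle t0 ht0 t' ht'⟩
  set a := sSup S with ha
  have hsub : S ⊆ Icc (a - 1 / 2) a := by
    intro t ht
    refine ⟨?_, le_csSup hbdd ht⟩
    have : a ≤ t + 1 / 2 := csSup_le ⟨t0, ht0⟩ (fun t' ht' => hle t ht t' ht')
    linarith
  have h1 : g1.real S ≤ g1.real (Icc (a - 1 / 2) a) := measureReal_mono hsub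
  have h2 : g1.real (Icc (a - 1 / 2) a) = Phi a - Phi (a - 1 / 2) := by
    have : NullSingletonClass g1 := nullSingletonClass_gaussianReal (by norm_num)
    have e1 : g1.real (Icc (a - 1 / 2) a) = g1.real (Ioc (a - 1 / 2) a) :=
      measureReal_congr Ioc_ae_eq_Icc.symm
    have e2 : Iic a = Iic (a - 1 / 2) ∪ Ioc (a - 1 / 2) a :=
      (Iic_union_Ioc_eq_Iic (by linarith)).symm
    have e3 : g1.real (Iic a) = g1.real (Iic (a - 1 / 2)) + g1.real (Ioc (a - 1 / 2) a) := by
      rw [e2]
      exact measureReal_union (Set.disjoint_left.mpr fun x hx hx' =>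
        absurd hx (not_le.mpr hx'.1)) measurableSet_Ioc
    rw [e1]
    have e4 : g1.real (Iic a) = Phi a := rfl
    have e5 : g1.real (Iic (a - 1 / 2)) = Phi (a - 1 / 2) := rfl
    linarith
  have h3 := Phi_lip (show a - 1 / 2 ≤ a by linarith)
  linarith

end Vale.Agent.P262.H967
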