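import Vale.Agent.P262.H967.Dir

/-!
# First moments of a convex body relative to the scale where it is balanced
-/

set_option linter.unusedSectionVars false

namespace Vale.Agent.P262.H967

open MeasureTheory ProbabilityTheory Set Filter Topology Module
open scoped RealInnerProductSpace
open Vale.Agent.P262.H847 Vale.Agent.P262.H912 Vale.Agent.P262.H941

variable {E : Type*} [NormedAddCommGroup E] [InnerProductSpace ℝ E] [FiniteDimensional ℝ E]
  [MeasurableSpace E] [BorelSpace E]

lemma shift_avg {K : Set E} (hK : Convex ℝ K) (hKm : MeasurableSet K) {b : E} (hb : ‖b‖ = 1)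
    {σ : ℝ} (p : E) :
    avg (K.indicator (fun _ => (1:ℝ))) σ p - 1 / 4
      ≤ avg ({x | x ∈ K ∧ x + (σ / 2) • b ∈ K}.indicator (fun _ => (1:ℝ))) σ p := by
  set S : Set E := {x | x ∈ K ∧ x + (σ / 2) • b ∈ K} with hS
  have hSm : MeasurableSet S := measurable_shift hKm _
  set D : Set E := {g | p + σ • g ∈ K ∧ p + σ • g + (σ / 2) • b ∉ K} with hD
  have hDm : MeasurableSet D := by
    apply MeasurableSet.inter
    · exact hKm.preimage (by fun_prop : Measurable fun g : E => p + σ • g)
    · exact (hKm.preimage (by fun_prop : Measurable fun g : E => p + σ • g + (σ / 2) • b)).compl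
  have hDU : UI (D.indicator (fun _ => (1:ℝ))) := UI.indicator hDm
  have h1 : ∫ g, D.indicator (fun _ => (1:ℝ)) g ∂(stdGaussian E) ≤ 1 / 4 := by
    rw [integral_split hb hDU.meas (hDU.integrable _)]
    have h2 : ∀ y, ∫ t, D.indicator (fun _ => (1:ℝ)) (t • b + orth b y) ∂g1 ≤ 1 / 4 := by
      intro y
      set J : Set ℝ := {t | p + σ • (t • b + orth b y) ∈ K} with hJ
      have hJc : Convex ℝ J := by
        intro r1 h1 r2 h2 a1 a2 ha1 ha2 ha
        have h3 := hK h1 h2 ha1 ha2 ha
        show p + σ • ((a1 • r1 + a2 • r2) • b + orth b y) ∈ K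
        have e3 : a1 • (p + σ • (r1 • b + orth b y)) + a2 • (p + σ • (r2 • b + orth b y))
            = p + σ • ((a1 • r1 + a2 • r2) • b + orth b y) := by
          have e4 : a1 = 1 - a2 := by linarith
          subst e4
          simp only [smul_eq_mul]
          module
        rwa [e3] at h3
      have hJm : MeasurableSet J :=
        hKm.preimage (by fun_prop : Measurable fun t : ℝ => p + σ • (t • b + orth b y))
      have e1 : ∀ t, D.indicator (fun _ => (1:ℝ)) (t • b + orth b y)
          = {t | t ∈ J ∧ t + (1 / 2) ∉ J}.indicator (fun _ => (1:ℝ)) t := by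
        intro t
        have e2 : p + σ • (t • b + orth b y) + (σ / 2) • b
            = p + σ • ((t + 1 / 2) • b + orth b y) := by module
        have e3 : t • b + orth b y ∈ D ↔ t ∈ {t | t ∈ J ∧ t + (1 / 2) ∉ J} := by
          simp only [hD, hJ, mem_ofPred_eq, e2]
        by_cases h : t • b + orth b y ∈ D
        · rw [indicator_of_mem h, indicator_of_mem (e3.mp h)]
        · rw [indicator_of_notMem h, indicator_of_notMem (fun h' => h (e3.mpr h'))]
      simp_rw [e1]
      rw [integral_ind]
      · exact line_shift hJc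
      · exact hJm.inter (hJm.preimage (measurable_id.add_const (1 / 2 : ℝ))).compl
    have h3 : Integrable (fun y => ∫ t, D.indicator (fun _ => (1:ℝ)) (t • b + orth b y) ∂g1)
        (stdGaussian E) :=
      (UI.integral (E := E) (F := ℝ)
        (f := fun q : E × ℝ => D.indicator (fun _ => (1:ℝ)) (q.2 • b + orth b q.1))
        (UI.comp hDU (T := fun q : E × ℝ => q.2 • b + orth b q.1) (by fun_prop)) g1).integrable _
    calc ∫ y, ∫ t, D.indicator (fun _ => (1:ℝ)) (t • b + orth b y) ∂g1 ∂(stdGaussian E)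
        ≤ ∫ _y : E, (1 / 4 : ℝ) ∂(stdGaussian E) := integral_mono h3 (integrable_const _) h2
      _ = 1 / 4 := by simp
  have hKU : UI (K.indicator (fun _ => (1:ℝ))) := UI.indicator hKm
  have hSU : UI (S.indicator (fun _ => (1:ℝ))) := UI.indicator hSm
  have i1 : Integrable (fun g => K.indicator (fun _ => (1:ℝ)) (p + σ • g)) (stdGaussian E) :=
    (UI.comp hKU (T := fun g => p + σ • g) (by fun_prop)).integrable _
  have i2 : Integrable (fun g => S.indicator (fun _ => (1:ℝ)) (p + σ • g)) (stdGaussian E) :=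
    (UI.comp hSU (T := fun g => p + σ • g) (by fun_prop)).integrable _
  have h4 : avg (K.indicator (fun _ => (1:ℝ))) σ p - avg (S.indicator (fun _ => (1:ℝ))) σ p
      = ∫ g, D.indicator (fun _ => (1:ℝ)) g ∂(stdGaussian E) := by
    unfold avg
    rw [← integral_sub i1 i2]
    congr 1; funext g
    by_cases h5 : p + σ • g ∈ K
    · by_cases h6 : p + σ • g + (σ / 2) • b ∈ K
      · rw [indicator_of_mem h5, indicator_of_mem (show p + σ • g ∈ S from ⟨h5, h6⟩),
          indicator_of_notMem (show g ∉ D from fun h => h.2 h6), sub_self]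
      · rw [indicator_of_mem h5, indicator_of_notMem (show p + σ • g ∉ S from fun h => h6 h.2),
          indicator_of_mem (show g ∈ D from ⟨h5, h6⟩), sub_zero]
    · rw [indicator_of_notMem h5, indicator_of_notMem (show p + σ • g ∉ S from fun h => h5 h.1),
          indicator_of_notMem (show g ∉ D from fun h => h5 h.1), sub_self]
  linarith

lemma Qf_UI {f : E → ℝ} (hf : UI f) (s : ℝ) :
    UI (fun y => min (avg f s (Real.sqrt (1 - s ^ 2) • y))
      (1 - avg f s (Real.sqrt (1 - s ^ 2) • y))) := by
  have hA := UI.comp (UI.avg hf s) (T := fun y : E => Real.sqrt (1 - s ^ 2) • y) (by fun_prop)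
  refine ⟨hA.meas.min (measurable_const.sub hA.meas), fun x => ?_, fun x => ?_⟩
  · exact le_min (hA.nonneg x) (by have := hA.le_one x; linarith)
  · exact (min_le_left _ _).trans (hA.le_one x)

lemma shift_mass {K : Set E} (hK : Convex ℝ K) (hKm : MeasurableSet K) {b : E} (hb : ‖b‖ = 1)
    {σ : ℝ} (hσ : 0 < σ) (hσ1 : σ ≤ 1)
    (hQ : Qf (K.indicator (fun _ => (1:ℝ))) σ ≤ (stdGaussian E).real K / 2) :
    (stdGaussian E).real K ≤ 4 * (stdGaussian E).real {x | x ∈ K ∧ x + (σ / 2) • b ∈ K} := by
  set S : Set E := {x | x ∈ K ∧ x + (σ / 2) • b ∈ K} with hS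
  have hSm : MeasurableSet S := measurable_shift hKm _
  have hKU : UI (K.indicator (fun _ => (1:ℝ))) := UI.indicator hKm
  have hSU : UI (S.indicator (fun _ => (1:ℝ))) := UI.indicator hSm
  have hcs := sqrt_scale hσ.le hσ1
  have e1 := avg_mean hKU hcs
  have e2 := avg_mean hSU hcs
  rw [integral_ind hKm] at e1
  rw [integral_ind hSm] at e2
  set c := Real.sqrt (1 - σ ^ 2) with hc
  have hAK := (UI.comp (UI.avg hKU σ) (T := fun y : E => c • y) (by fun_prop)).integrable
    (stdGaussian E)
  have hAS := (UI.comp (UI.avg hSU σ) (T := fun y : E => c • y) (by fun_prop)).integrable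
    (stdGaussian E)
  have hQi := (Qf_UI hKU σ).integrable (stdGaussian E)
  have h1 : ∫ y, (avg (K.indicator (fun _ => (1:ℝ))) σ (c • y) / 2
      - min (avg (K.indicator (fun _ => (1:ℝ))) σ (c • y))
        (1 - avg (K.indicator (fun _ => (1:ℝ))) σ (c • y)) / 2) ∂(stdGaussian E)
      ≤ ∫ y, avg (S.indicator (fun _ => (1:ℝ))) σ (c • y) ∂(stdGaussian E) := by
    refine integral_mono ((hAK.div_const 2).sub (hQi.div_const 2)) hAS fun y => ?_
    have h2 := shift_avg hK hKm hb (σ := σ) (c • y)
    have h3 := (UI.avg hSU σ).nonneg (c • y)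
    simp only
    rcases le_total (avg (K.indicator (fun _ => (1:ℝ))) σ (c • y)) (1 / 2) with h4 | h4
    · rw [min_eq_left (by linarith)]; linarith
    · rw [min_eq_right (by linarith)]; linarith
  rw [integral_sub (hAK.div_const 2) (hQi.div_const 2), integral_div, integral_div, e1, e2] at h1
  unfold Qf at hQ
  linarith

/-- flux of a convex body below a balanced scale -/
theorem flux_scale {K : Set E} (hK : Convex ℝ K) (hKm : MeasurableSet K)
    (hq0 : 0 < (stdGaussian E).real K) (hq1 : (stdGaussian E).real K < 1) {b : E} (hb : ‖b‖ = 1)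
    {σ : ℝ} (hσ : 0 < σ) (hσ1 : σ ≤ 1)
    (hQ : Qf (K.indicator (fun _ => (1:ℝ))) σ ≤ (stdGaussian E).real K / 2) :
    FluxLe (K.indicator (fun _ => (1:ℝ))) b (9 * (stdGaussian E).real K / σ) := by
  have h1 := shift_mass hK hKm hb hσ hσ1 hQ
  have h2 := shift_mass hK hKm (b := -b) (by rw [norm_neg, hb]) hσ hσ1 hQ
  have e1 : (σ / 2) • (-b) = (-(σ / 2)) • b := by module
  rw [e1] at h2
  have h3 := flux_convex hK hKm hq0 hq1 hb (l := σ / 2) (by positivity) h1 h2
  have e2 : 9 / 2 * (stdGaussian E).real K / (σ / 2) = 9 * (stdGaussian E).real K / σ := by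
    field_simp
  rwa [e2] at h3

lemma sum_basis {V : Submodule ℝ E} (m : E) :
    ‖V.starProjection m‖ ^ 2
      = ∑ i, ⟪((stdOrthonormalBasis ℝ V) i : E), m⟫ ^ 2 := by
  have h1 := (stdOrthonormalBasis ℝ V).sum_sq_norm_inner_right (V.orthogonalProjectionOnto m)
  rw [Submodule.starProjection_apply, ← Submodule.coe_norm, ← h1]
  refine Finset.sum_congr rfl fun i _ => ?_
  rw [Real.norm_eq_abs, sq_abs, Submodule.inner_orthogonalProjectionOnto_eq_of_mem_left]

/-- second moments of the projections, from a bound in every direction -/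
theorem proj_sq_le {f : E → ℝ} (hf : UI f) {c s β : ℝ} (hβ : ∀ b : E, ‖b‖ = 1 →
    ∫ y, |⟪b, mom f s (c • y)⟫| ∂(stdGaussian E) ≤ β) (V : Submodule ℝ E) :
    ∫ y, ‖V.starProjection (mom f s (c • y))‖ ^ 2 ∂(stdGaussian E) ≤ finrank ℝ V * β := by
  have hMm : Measurable (fun y : E => mom f s (c • y)) := (measurable_mom hf s).comp (by fun_prop)
  have hn : ∀ i, ‖((stdOrthonormalBasis ℝ V) i : E)‖ = 1 := fun i => by
    rw [← Submodule.coe_norm]; exact (stdOrthonormalBasis ℝ V).orthonormal.1 i
  have habs : ∀ i (y : E), |⟪((stdOrthonormalBasis ℝ V) i : E), mom f s (c • y)⟫| ≤ 1 := by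
    intro i y
    refine (abs_real_inner_le_norm _ _).trans ?_
    rw [hn i, one_mul]
    exact norm_mom_le_one hf s _
  have hmeas : ∀ i, Measurable
      (fun y : E => ⟪((stdOrthonormalBasis ℝ V) i : E), mom f s (c • y)⟫) := fun i =>
    hMm.const_inner
  have i1 : ∀ i, Integrable
      (fun y : E => ⟪((stdOrthonormalBasis ℝ V) i : E), mom f s (c • y)⟫ ^ 2)
      (stdGaussian E) := fun i =>
    Integrable.of_bound ((hmeas i).pow_const 2).aestronglyMeasurable 1
      (Eventually.of_forall fun y => by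
        rw [Real.norm_eq_abs, abs_pow]
        exact pow_le_one₀ (abs_nonneg _) (habs i y))
  have i2 : ∀ i, Integrable
      (fun y : E => |⟪((stdOrthonormalBasis ℝ V) i : E), mom f s (c • y)⟫|)
      (stdGaussian E) := fun i =>
    Integrable.of_bound (hmeas i).abs.aestronglyMeasurable 1
      (Eventually.of_forall fun y => by
        rw [Real.norm_eq_abs, abs_abs]
        exact habs i y)
  simp_rw [sum_basis]
  rw [integral_finset_sum _ fun i _ => i1 i]
  have h2 : ∀ i, ∫ y, ⟪((stdOrthonormalBasis ℝ V) i : E), mom f s (c • y)⟫ ^ 2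
      ∂(stdGaussian E) ≤ β := by
    intro i
    refine (integral_mono (i1 i) (i2 i) fun y => ?_).trans (hβ _ (hn i))
    simp only
    rw [← sq_abs]
    have := habs i y
    have h0 := abs_nonneg ⟪((stdOrthonormalBasis ℝ V) i : E), mom f s (c • y)⟫
    nlinarith
  refine (Finset.sum_le_sum fun i _ => h2 i).trans ?_
  rw [Finset.sum_const, Finset.card_univ, Fintype.card_fin, nsmul_eq_mul]

end Vale.Agent.P262.H967
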