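import Vale.Agent.P262.H967.Poin

/-!
# The energy of the averages at dyadic scales
-/

set_option linter.unusedSectionVars false

namespace Vale.Agent.P262.H967

open MeasureTheory ProbabilityTheory Set Filter Topology
open scoped RealInnerProductSpace
open Vale.Agent.P262.H847 Vale.Agent.P262.H912 Vale.Agent.P262.H941

variable {E : Type*} [NormedAddCommGroup E] [InnerProductSpace ℝ E] [FiniteDimensional ℝ E]
  [MeasurableSpace E] [BorelSpace E]

/-- rotation invariance of the product of two standard Gaussian measures -/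
lemma rot_prod {a b : ℝ} (hab : a ^ 2 + b ^ 2 = 1) :
    ((stdGaussian E).prod (stdGaussian E)).map
        (fun p : E × E => (a • p.1 + b • p.2, b • p.1 - a • p.2))
      = (stdGaussian E).prod (stdGaussian E) := by
  let T : E × E →L[ℝ] E × E :=
    (a • ContinuousLinearMap.fst ℝ E E + b • ContinuousLinearMap.snd ℝ E E).prod
      (b • ContinuousLinearMap.fst ℝ E E - a • ContinuousLinearMap.snd ℝ E E)
  have hT : (fun p : E × E => (a • p.1 + b • p.2, b • p.1 - a • p.2)) = T := by
    funext p; rfl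
  rw [hT]
  have : IsProbabilityMeasure (((stdGaussian E).prod (stdGaussian E)).map T) :=
    Measure.isProbabilityMeasure_map T.continuous.measurable.aemeasurable
  apply Measure.ext_of_charFunDual
  ext L
  rw [charFunDual_map, charFunDual_prod, charFunDual_prod]
  simp only [charFunDual_stdGaussian]
  rw [← Complex.exp_add, ← Complex.exp_add]
  congr 1
  set L1 : StrongDual ℝ E := L.comp (.inl ℝ E E) with hL1
  set L2 : StrongDual ℝ E := L.comp (.inr ℝ E E) with hL2
  have e1 : (L.comp T).comp (.inl ℝ E E) = a • L1 + b • L2 := by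
    ext x
    simp only [hL1, hL2, T, ContinuousLinearMap.comp_apply, ContinuousLinearMap.inl_apply,
      ContinuousLinearMap.inr_apply, ContinuousLinearMap.prod_apply, add_apply,
      sub_apply, smul_apply, ContinuousLinearMap.coe_fst',
      ContinuousLinearMap.coe_snd', smul_zero, add_zero, sub_zero]
    rw [← map_smul, ← map_smul, ← map_add]
    congr 1
    ext <;> simp
  have e2 : (L.comp T).comp (.inr ℝ E E) = b • L1 - a • L2 := by
    ext x
    simp only [hL1, hL2, T, ContinuousLinearMap.comp_apply, ContinuousLinearMap.inl_apply,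
      ContinuousLinearMap.inr_apply, ContinuousLinearMap.prod_apply, add_apply,
      sub_apply, smul_apply, ContinuousLinearMap.coe_fst',
      ContinuousLinearMap.coe_snd', smul_zero, zero_add, zero_sub]
    rw [← map_smul, ← map_smul, ← map_sub]
    congr 1
    ext <;> simp
  rw [e1, e2]
  set x1 := (InnerProductSpace.toDual ℝ E).symm L1 with hx1
  set x2 := (InnerProductSpace.toDual ℝ E).symm L2 with hx2
  have n1 : ‖L1‖ = ‖x1‖ := by rw [hx1, LinearIsometryEquiv.norm_map]
  have n2 : ‖L2‖ = ‖x2‖ := by rw [hx2, LinearIsometryEquiv.norm_map]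
  have n3 : ‖a • L1 + b • L2‖ = ‖a • x1 + b • x2‖ := by
    have : a • x1 + b • x2 = (InnerProductSpace.toDual ℝ E).symm (a • L1 + b • L2) := by
      rw [map_add, map_smulₛₗ, map_smulₛₗ]; simp [hx1, hx2]
    rw [this, LinearIsometryEquiv.norm_map]
  have n4 : ‖b • L1 - a • L2‖ = ‖b • x1 - a • x2‖ := by
    have : b • x1 - a • x2 = (InnerProductSpace.toDual ℝ E).symm (b • L1 - a • L2) := by
      rw [map_sub, map_smulₛₗ, map_smulₛₗ]; simp [hx1, hx2]
    rw [this, LinearIsometryEquiv.norm_map]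
  rw [n1, n2, n3, n4]
  have key : ‖a • x1 + b • x2‖ ^ 2 + ‖b • x1 - a • x2‖ ^ 2 = ‖x1‖ ^ 2 + ‖x2‖ ^ 2 := by
    rw [norm_add_sq_real, norm_sub_sq_real]
    simp only [norm_smul, Real.norm_eq_abs, mul_pow, sq_abs, real_inner_smul_left,
      real_inner_smul_right]
    linear_combination (‖x1‖ ^ 2 + ‖x2‖ ^ 2) * hab
  have key' : ((‖a • x1 + b • x2‖ : ℂ)) ^ 2 + ((‖b • x1 - a • x2‖ : ℂ)) ^ 2
      = (‖x1‖ : ℂ) ^ 2 + (‖x2‖ : ℂ) ^ 2 := by exact_mod_cast key
  linear_combination (-1 / 2 : ℂ) * key'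

/-- Taylor bound for the averages -/
lemma avg_taylor {f : E → ℝ} (hf : UI f) {s : ℝ} (hs : 0 < s) (p z : E) :
    avg f s (p + z) ≤ avg f s p + (1 / s) * ‖mom f s p‖ * ‖z‖ + (1 / s) ^ 2 / 2 * ‖z‖ ^ 2 := by
  have hfy : UI (fun g => f (p + s • g)) := UI.comp hf (by fun_prop)
  have h1 := shift_upper hfy ((1 / s) • z)
  have e1 : ∀ g, f (p + s • (g + (1 / s) • z)) = f (p + z + s • g) := by
    intro g
    congr 1
    rw [smul_add, smul_smul, mul_one_div_cancel hs.ne', one_smul]
    abel
  simp only [e1] at h1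
  have h2 : ⟪(1 / s) • z, mom f s p⟫ ≤ (1 / s) * ‖mom f s p‖ * ‖z‖ := by
    refine (real_inner_le_norm _ _).trans ?_
    rw [norm_smul, Real.norm_eq_abs, abs_of_pos (by positivity)]
    exact le_of_eq (by ring)
  have h3 : ‖(1 / s) • z‖ ^ 2 / 2 = (1 / s) ^ 2 / 2 * ‖z‖ ^ 2 := by
    rw [norm_smul, Real.norm_eq_abs, abs_of_pos (by positivity)]; ring
  rw [h3] at h1
  have h4 : avg f s (p + z) ≤ avg f s p + ⟪(1 / s) • z, mom f s p⟫
    + (1 / s) ^ 2 / 2 * ‖z‖ ^ 2 := h1
  linarith

lemma avg_split {f : E → ℝ} (hf : UI f) {s : ℝ} (p : E) :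
    ∫ y, avg f (s / 2) (p + (Real.sqrt 3 / 2 * s) • y) ∂(stdGaussian E) = avg f s p := by
  have h3 : Real.sqrt 3 ^ 2 = 3 := Real.sq_sqrt (by norm_num)
  exact integral_add_smul (c := s) (by rw [mul_pow, div_pow, h3]; ring) hf p

/-- the increment of the energy, from above, at a fixed location -/
lemma inc_local_up {f : E → ℝ} (hf : UI f) {s : ℝ} (hs : 0 < s) (p : E) :
    ∫ y, avg f (s / 2) (p + (Real.sqrt 3 / 2 * s) • y) ^ 2 ∂(stdGaussian E)
      ≤ avg f s p ^ 2
        + 9 * ∫ y, ‖mom f (s / 2) (p + (Real.sqrt 3 / 2 * s) • y)‖ ^ 2 ∂(stdGaussian E) := by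
  have h3 : Real.sqrt 3 ^ 2 = 3 := Real.sq_sqrt (by norm_num)
  have h30 : 0 ≤ Real.sqrt 3 := Real.sqrt_nonneg _
  have hm : Measurable (fun y : E => mom f (s / 2) (p + (Real.sqrt 3 / 2 * s) • y)) :=
    (measurable_mom hf (s / 2)).comp (by fun_prop)
  have h := poincare (u := fun y => avg f (s / 2) (p + (Real.sqrt 3 / 2 * s) • y))
    (D := fun y => Real.sqrt 3 * ‖mom f (s / 2) (p + (Real.sqrt 3 / 2 * s) • y)‖)
    (B := Real.sqrt 3) (L := 3 / 2)
    (UI.comp (UI.avg hf (s / 2)) (by fun_prop)) (hm.norm.const_mul _)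
    (fun y => by positivity)
    (fun y => mul_le_of_le_one_right h30 (norm_mom_le_one hf _ _)) (by norm_num)
    (fun y z => by
      have h1 := avg_taylor hf (s := s / 2) (by positivity) (p + (Real.sqrt 3 / 2 * s) • y)
        ((Real.sqrt 3 / 2 * s) • z)
      have e1 : p + (Real.sqrt 3 / 2 * s) • y + (Real.sqrt 3 / 2 * s) • z
          = p + (Real.sqrt 3 / 2 * s) • (y + z) := by rw [smul_add]; abel
      have e2 : ‖(Real.sqrt 3 / 2 * s) • z‖ = Real.sqrt 3 / 2 * s * ‖z‖ := by
        rw [norm_smul, Real.norm_eq_abs, abs_of_nonneg (by positivity)]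
      rw [e1, e2] at h1
      refine h1.trans (le_of_eq ?_)
      have e3 : (1 / (s / 2)) ^ 2 / 2 * (Real.sqrt 3 / 2 * s * ‖z‖) ^ 2 = 3 / 2 * ‖z‖ ^ 2 := by
        rw [mul_pow, mul_pow, div_pow (Real.sqrt 3), h3]
        field_simp
        try ring
      rw [e3]
      field_simp)
  rw [avg_split hf p] at h
  simp only [mul_pow, h3] at h
  rw [integral_const_mul] at h
  linarith

lemma integrable_pair {f : E × E → ℝ} (hf : Measurable f) {B : ℝ} (hB : ∀ p, |f p| ≤ B) :
    Integrable f ((stdGaussian E).prod (stdGaussian E)) :=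
  Integrable.of_bound hf.aestronglyMeasurable B (Eventually.of_forall fun p => hB p)

/-- the increment of the energy, from below, at a fixed location -/
lemma inc_local_low {f : E → ℝ} (hf : UI f) {s : ℝ} (p : E) :
    avg f s p ^ 2 + 3 / 4 * ‖mom f s p‖ ^ 2
      ≤ ∫ y, avg f (s / 2) (p + (Real.sqrt 3 / 2 * s) • y) ^ 2 ∂(stdGaussian E) := by
  have h3 : Real.sqrt 3 ^ 2 = 3 := Real.sq_sqrt (by norm_num)
  set α := Real.sqrt 3 / 2 with hα
  have hαβ : α ^ 2 + (1 / 2 : ℝ) ^ 2 = 1 := by rw [hα, div_pow, h3]; norm_num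
  set u : E → ℝ := fun y => avg f (s / 2) (p + (α * s) • y) with hu
  have huU : UI u := UI.comp (UI.avg hf (s / 2)) (by fun_prop)
  set M := mom f s p with hM
  set w := α • M with hw
  have hfG : UI (fun g => f (p + s • g)) := UI.comp hf (by fun_prop)
  have hwi : Integrable (fun y : E => ⟪w, y⟫) (stdGaussian E) := integrable_inner w
  have hwi2 : Integrable (fun y : E => ⟪w, y⟫ ^ 2) (stdGaussian E) := by
    refine ((integrable_one_add_sq (E := E)).const_mul (‖w‖ ^ 2)).mono' (by fun_prop)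
      (Eventually.of_forall fun x => ?_)
    rw [Real.norm_eq_abs, abs_of_nonneg (by positivity)]
    have h1 := abs_real_inner_le_norm w x
    calc ⟪w, x⟫ ^ 2 = |⟪w, x⟫| ^ 2 := (sq_abs _).symm
      _ ≤ (‖w‖ * ‖x‖) ^ 2 := pow_le_pow_left₀ (abs_nonneg _) h1 2
      _ = ‖w‖ ^ 2 * ‖x‖ ^ 2 := by ring
      _ ≤ _ := mul_le_mul_of_nonneg_left (by nlinarith [norm_nonneg x]) (by positivity)
  have hw2 : ∫ y : E, ⟪w, y⟫ ^ 2 ∂(stdGaussian E) = ‖w‖ ^ 2 := by
    have h1 := variance_dual_stdGaussian (innerSL ℝ w)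
    rw [variance_eq_integral (by fun_prop), integral_strongDual_stdGaussian] at h1
    simpa using h1
  -- the covariance of `u` with a linear function
  have hcov : ∫ y, u y * ⟪w, y⟫ ∂(stdGaussian E) = α * ⟪w, M⟫ := by
    have hF : Measurable (fun q : E × E => f (p + s • (α • q.1 + (1 / 2 : ℝ) • q.2))) :=
      hf.meas.comp (by fun_prop)
    have hi : Integrable (fun q : E × E => f (p + s • (α • q.1 + (1 / 2 : ℝ) • q.2)) * ⟪w, q.1⟫)
        ((stdGaussian E).prod (stdGaussian E)) := by
      refine (hwi.comp_fst (stdGaussian E)).norm.mono' (hF.mul (by fun_prop)).aestronglyMeasurable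
        (Eventually.of_forall fun q => ?_)
      rw [norm_mul, Real.norm_eq_abs, abs_of_nonneg (hf.nonneg _)]
      exact mul_le_of_le_one_left (norm_nonneg _) (hf.le_one _)
    have e1 : ∫ y, u y * ⟪w, y⟫ ∂(stdGaussian E)
        = ∫ q : E × E, f (p + s • (α • q.1 + (1 / 2 : ℝ) • q.2)) * ⟪w, q.1⟫
          ∂((stdGaussian E).prod (stdGaussian E)) := by
      rw [integral_prod _ hi]
      congr 1; funext y
      rw [hu]
      simp only [avg]
      rw [← integral_mul_const]
      congr 1; funext g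
      congr 2
      rw [smul_add, smul_smul, smul_smul, mul_comm s α, add_assoc]
      congr 3
      ring
    -- rotate
    have hg : Measurable (fun q : E × E => f (p + s • q.1) * (α * ⟪w, q.1⟫ + 1 / 2 * ⟪w, q.2⟫)) :=
      (hf.meas.comp (by fun_prop)).mul (by fun_prop)
    have e2 : ∫ q : E × E, f (p + s • (α • q.1 + (1 / 2 : ℝ) • q.2)) * ⟪w, q.1⟫
          ∂((stdGaussian E).prod (stdGaussian E))
        = ∫ q : E × E, f (p + s • q.1) * (α * ⟪w, q.1⟫ + 1 / 2 * ⟪w, q.2⟫)
          ∂((stdGaussian E).prod (stdGaussian E)) := by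
      conv_rhs => rw [← rot_prod hαβ]
      rw [integral_map (by fun_prop) hg.aestronglyMeasurable]
      congr 1; funext q
      congr 1
      simp only [inner_add_right, inner_sub_right, real_inner_smul_right]
      linear_combination (-⟪w, q.1⟫) * hαβ
    have hi1 : Integrable (fun q : E × E => f (p + s • q.1) * ⟪w, q.1⟫)
        ((stdGaussian E).prod (stdGaussian E)) := by
      have : Integrable (fun g : E => f (p + s • g) * ⟪w, g⟫) (stdGaussian E) := by
        refine hwi.norm.mono' (hfG.meas.mul (by fun_prop)).aestronglyMeasurable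
          (Eventually.of_forall fun g => ?_)
        rw [norm_mul, Real.norm_eq_abs, abs_of_nonneg (hf.nonneg _)]
        exact mul_le_of_le_one_left (norm_nonneg _) (hf.le_one _)
      exact this.comp_fst _
    have hi2 : Integrable (fun q : E × E => f (p + s • q.1) * ⟪w, q.2⟫)
        ((stdGaussian E).prod (stdGaussian E)) := by
      refine (hwi.comp_snd (stdGaussian E)).norm.mono' ((hf.meas.comp
        (by fun_prop : Measurable fun q : E × E => p + s • q.1)).mul
        (by fun_prop)).aestronglyMeasurable (Eventually.of_forall fun q => ?_)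
      rw [norm_mul, Real.norm_eq_abs, abs_of_nonneg (hf.nonneg _)]
      exact mul_le_of_le_one_left (norm_nonneg _) (hf.le_one _)
    have e3 : ∫ q : E × E, f (p + s • q.1) * (α * ⟪w, q.1⟫ + 1 / 2 * ⟪w, q.2⟫)
          ∂((stdGaussian E).prod (stdGaussian E))
        = α * ∫ g, f (p + s • g) * ⟪w, g⟫ ∂(stdGaussian E) := by
      have e4 : ∀ q : E × E, f (p + s • q.1) * (α * ⟪w, q.1⟫ + 1 / 2 * ⟪w, q.2⟫)
          = α * (f (p + s • q.1) * ⟪w, q.1⟫) + 1 / 2 * (f (p + s • q.1) * ⟪w, q.2⟫) := by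
        intro q; ring
      simp_rw [e4]
      rw [integral_add (hi1.const_mul _) (hi2.const_mul _), integral_const_mul,
        integral_const_mul, integral_prod _ hi1, integral_prod _ hi2]
      have e5 : ∀ x : E, ∫ y : E, f (p + s • x) * ⟪w, y⟫ ∂(stdGaussian E) = 0 := by
        intro x
        rw [integral_const_mul, H941.integral_inner, mul_zero]
      simp only [e5, integral_zero, mul_zero, add_zero, integral_const, probReal_univ, one_smul]
    rw [e1, e2, e3]
    congr 1
    have h1 := (innerSL ℝ w).integral_comp_comm (UI.integrable_smul hfG)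
    simp only [innerSL_apply_apply] at h1
    rw [hM, mom, ← h1]
    congr 1; funext g
    rw [real_inner_smul_right]
  -- expand the square
  set a := avg f s p with ha
  have hua : ∫ y, u y ∂(stdGaussian E) = a := avg_split hf p
  have hui := huU.integrable (stdGaussian E)
  have hu2 : Integrable (fun x => u x ^ 2) (stdGaussian E) := by
    refine Integrable.of_bound (huU.meas.pow_const 2).aestronglyMeasurable 1
      (Eventually.of_forall fun x => ?_)
    rw [Real.norm_eq_abs, abs_of_nonneg (by positivity)]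
    exact pow_le_one₀ (huU.nonneg x) (huU.le_one x)
  have huw : Integrable (fun y => u y * ⟪w, y⟫) (stdGaussian E) := by
    refine hwi.norm.mono' (huU.meas.mul (by fun_prop)).aestronglyMeasurable
      (Eventually.of_forall fun g => ?_)
    rw [norm_mul, Real.norm_eq_abs, abs_of_nonneg (huU.nonneg _)]
    exact mul_le_of_le_one_left (norm_nonneg _) (huU.le_one _)
  have hsq : 0 ≤ ∫ y, (u y - a - ⟪w, y⟫) ^ 2 ∂(stdGaussian E) :=
    integral_nonneg fun y => sq_nonneg _
  have hexp : ∫ y, (u y - a - ⟪w, y⟫) ^ 2 ∂(stdGaussian E)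
      = ∫ y, u y ^ 2 ∂(stdGaussian E) - a ^ 2 - 2 * (α * ⟪w, M⟫) + ‖w‖ ^ 2 := by
    have e1 : ∀ y, (u y - a - ⟪w, y⟫) ^ 2
        = (((u y ^ 2 - (2 * a) * u y) + a ^ 2) - 2 * (u y * ⟪w, y⟫)) + ((2 * a) * ⟪w, y⟫
          + ⟪w, y⟫ ^ 2) := by intro y; ring
    simp_rw [e1]
    have i1 : Integrable (fun y => u y ^ 2 - (2 * a) * u y) (stdGaussian E) :=
      hu2.sub (hui.const_mul _)
    have i2 : Integrable (fun y => (u y ^ 2 - (2 * a) * u y) + a ^ 2) (stdGaussian E) :=
      i1.add (integrable_const _)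
    have i3 : Integrable (fun y => ((u y ^ 2 - (2 * a) * u y) + a ^ 2) - 2 * (u y * ⟪w, y⟫))
        (stdGaussian E) := i2.sub (huw.const_mul 2)
    have i4 : Integrable (fun y => (2 * a) * ⟪w, y⟫ + ⟪w, y⟫ ^ 2) (stdGaussian E) :=
      (hwi.const_mul _).add hwi2
    rw [integral_add i3 i4, integral_sub i2 (huw.const_mul 2), integral_add i1
      (integrable_const _), integral_sub hu2 (hui.const_mul _), integral_add (hwi.const_mul _)
      hwi2, integral_const_mul, integral_const_mul, integral_const_mul, H941.integral_inner, hw2, hua,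
      hcov]
    simp only [integral_const, probReal_univ, smul_eq_mul, one_mul]
    ring
  have e5 : ⟪w, M⟫ = α * ‖M‖ ^ 2 := by
    rw [hw, real_inner_smul_left, real_inner_self_eq_norm_sq]
  have e6 : ‖w‖ ^ 2 = α ^ 2 * ‖M‖ ^ 2 := by
    rw [hw, norm_smul, mul_pow, Real.norm_eq_abs, sq_abs]
  have e7 : α ^ 2 = 3 / 4 := by rw [hα, div_pow, h3]; norm_num
  rw [hexp, e5, e6] at hsq
  have e8 : α * (α * ‖M‖ ^ 2) = α ^ 2 * ‖M‖ ^ 2 := by ring
  rw [e8, e7] at hsq
  linarith

end Vale.Agent.P262.H967
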