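import Vale.Agent.P262.H967.Energy

/-!
# The energy of the averages: telescoping sums and the limit
-/

set_option linter.unusedSectionVars false

namespace Vale.Agent.P262.H967

open MeasureTheory ProbabilityTheory Set Filter Topology
open scoped RealInnerProductSpace
open Vale.Agent.P262.H847 Vale.Agent.P262.H912 Vale.Agent.P262.H941

variable {E : Type*} [NormedAddCommGroup E] [InnerProductSpace ℝ E] [FiniteDimensional ℝ E]
  [MeasurableSpace E] [BorelSpace E]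

/-- the energy of the averages at scale `s` -/
noncomputable def A2 (f : E → ℝ) (s : ℝ) : ℝ :=
  ∫ y, avg f s (Real.sqrt (1 - s ^ 2) • y) ^ 2 ∂(stdGaussian E)

/-- the energy of the first moments at scale `s` -/
noncomputable def M2 (f : E → ℝ) (s : ℝ) : ℝ :=
  ∫ y, ‖mom f s (Real.sqrt (1 - s ^ 2) • y)‖ ^ 2 ∂(stdGaussian E)

lemma sq_UI {Ω : Type*} [MeasurableSpace Ω] {f : Ω → ℝ} (hf : UI f) : UI (fun x => f x ^ 2) :=
  ⟨hf.meas.pow_const 2, fun x => sq_nonneg _, fun x => pow_le_one₀ (hf.nonneg x) (hf.le_one x)⟩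

lemma norm_mom_sq_le_one {f : E → ℝ} (hf : UI f) (s : ℝ) (p : E) : ‖mom f s p‖ ^ 2 ≤ 1 :=
  pow_le_one₀ (norm_nonneg _) (norm_mom_le_one hf s p)

lemma mom_sq_UI {f : E → ℝ} (hf : UI f) (s : ℝ) : UI (fun p => ‖mom f s p‖ ^ 2) :=
  ⟨(measurable_mom hf s).norm.pow_const 2, fun _ => sq_nonneg _,
    fun p => norm_mom_sq_le_one hf s p⟩

lemma scale_id {s : ℝ} (h0 : 0 ≤ s) (h1 : s ≤ 1) :
    Real.sqrt (1 - s ^ 2) ^ 2 + (Real.sqrt 3 / 2 * s) ^ 2 = Real.sqrt (1 - (s / 2) ^ 2) ^ 2 := by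
  have h3 : Real.sqrt 3 ^ 2 = 3 := Real.sq_sqrt (by norm_num)
  have hsq1 : Real.sqrt (1 - s ^ 2) ^ 2 = 1 - s ^ 2 := Real.sq_sqrt (by nlinarith)
  have hsq2 : Real.sqrt (1 - (s / 2) ^ 2) ^ 2 = 1 - (s / 2) ^ 2 := Real.sq_sqrt (by nlinarith)
  rw [hsq1, hsq2, mul_pow, div_pow, h3]; ring

lemma sub_step {F : E → ℝ} (hF : UI F) {s : ℝ} (h0 : 0 ≤ s) (h1 : s ≤ 1) :
    ∫ x, ∫ y, F (Real.sqrt (1 - s ^ 2) • x + (Real.sqrt 3 / 2 * s) • y) ∂(stdGaussian E)
      ∂(stdGaussian E) = ∫ x, F (Real.sqrt (1 - (s / 2) ^ 2) • x) ∂(stdGaussian E) :=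
  integral_add_smul' (scale_id h0 h1) hF.meas (B := 1) (fun x => by
    rw [abs_of_nonneg (hF.nonneg x)]; exact hF.le_one x)

lemma sub_step_int {F : E → ℝ} (hF : UI F) (c d : ℝ) :
    Integrable (fun x => ∫ y, F (c • x + d • y) ∂(stdGaussian E)) (stdGaussian E) :=
  (UI.integral (E := E) (F := E) (f := fun p : E × E => F (c • p.1 + d • p.2))
    (UI.comp hF (T := fun p : E × E => c • p.1 + d • p.2) (by fun_prop)) (stdGaussian E)).integrable
    _

theorem inc_up {f : E → ℝ} (hf : UI f) {s : ℝ} (hs : 0 < s) (hs1 : s ≤ 1) :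
    A2 f (s / 2) ≤ A2 f s + 9 * M2 f (s / 2) := by
  unfold A2 M2
  have hA := sq_UI (UI.avg hf (s / 2))
  have hM := mom_sq_UI hf (s / 2)
  rw [← sub_step hA hs.le hs1, ← sub_step hM hs.le hs1]
  have hi0 : Integrable (fun y => avg f s (Real.sqrt (1 - s ^ 2) • y) ^ 2) (stdGaussian E) :=
    (sq_UI (UI.comp (UI.avg hf s) (T := fun y : E => Real.sqrt (1 - s ^ 2) • y)
      (by fun_prop))).integrable _
  have hi1 := sub_step_int hA (Real.sqrt (1 - s ^ 2)) (Real.sqrt 3 / 2 * s)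
  have hi2 := sub_step_int hM (Real.sqrt (1 - s ^ 2)) (Real.sqrt 3 / 2 * s)
  rw [← integral_const_mul, ← integral_add hi0 (hi2.const_mul 9)]
  exact integral_mono hi1 (hi0.add (hi2.const_mul 9)) (fun x => inc_local_up hf hs _)

theorem inc_low {f : E → ℝ} (hf : UI f) {s : ℝ} (hs : 0 ≤ s) (hs1 : s ≤ 1) :
    A2 f s + 3 / 4 * M2 f s ≤ A2 f (s / 2) := by
  unfold A2 M2
  have hA := sq_UI (UI.avg hf (s / 2))
  rw [← sub_step hA hs hs1]
  have hi0 : Integrable (fun y => avg f s (Real.sqrt (1 - s ^ 2) • y) ^ 2) (stdGaussian E) :=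
    (sq_UI (UI.comp (UI.avg hf s) (T := fun y : E => Real.sqrt (1 - s ^ 2) • y)
      (by fun_prop))).integrable _
  have hi2 : Integrable (fun y => ‖mom f s (Real.sqrt (1 - s ^ 2) • y)‖ ^ 2) (stdGaussian E) :=
    (UI.comp (mom_sq_UI hf s) (T := fun y : E => Real.sqrt (1 - s ^ 2) • y)
      (by fun_prop)).integrable _
  have hi1 := sub_step_int hA (Real.sqrt (1 - s ^ 2)) (Real.sqrt 3 / 2 * s)
  rw [← integral_const_mul, ← integral_add hi0 (hi2.const_mul _)]
  exact integral_mono (hi0.add (hi2.const_mul _)) hi1 (fun x => inc_local_low hf _)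

lemma avg_mean {f : E → ℝ} (hf : UI f) {c s : ℝ} (hcs : c ^ 2 + s ^ 2 = 1) :
    ∫ y, avg f s (c • y) ∂(stdGaussian E) = ∫ x, f x ∂(stdGaussian E) := by
  have := integral_add_smul' (a := c) (b := s) (c := 1) (by rw [hcs]; norm_num) hf.meas
    (B := 1) (fun x => by rw [abs_of_nonneg (hf.nonneg x)]; exact hf.le_one x)
  simpa [avg] using this

lemma sqrt_scale {s : ℝ} (h0 : 0 ≤ s) (h1 : s ≤ 1) : Real.sqrt (1 - s ^ 2) ^ 2 + s ^ 2 = 1 := by
  rw [Real.sq_sqrt (by nlinarith)]; ring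

lemma A2_le {f : E → ℝ} (hf : UI f) {s : ℝ} (hs : 0 ≤ s) (hs1 : s ≤ 1) :
    A2 f s ≤ ∫ x, f x ∂(stdGaussian E) := by
  rw [← avg_mean hf (sqrt_scale hs hs1), A2]
  have hU : UI (fun y => avg f s (Real.sqrt (1 - s ^ 2) • y)) :=
    UI.comp (UI.avg hf s) (T := fun y : E => Real.sqrt (1 - s ^ 2) • y) (by fun_prop)
  refine integral_mono ((sq_UI hU).integrable _) (hU.integrable _) (fun y => ?_)
  have h0 := hU.nonneg y
  have h1 := hU.le_one y
  simp only at h0 h1 ⊢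
  nlinarith

lemma A2_nonneg (f : E → ℝ) (s : ℝ) : 0 ≤ A2 f s := integral_nonneg fun _ => sq_nonneg _

lemma M2_nonneg (f : E → ℝ) (s : ℝ) : 0 ≤ M2 f s := integral_nonneg fun _ => sq_nonneg _

lemma half_pow_pos (n : ℕ) : (0:ℝ) < (1 / 2 : ℝ) ^ n := by positivity

lemma half_pow_le (n : ℕ) : (1 / 2 : ℝ) ^ n ≤ 1 := pow_le_one₀ (by norm_num) (by norm_num)

lemma half_pow_half (n : ℕ) : (1 / 2 : ℝ) ^ n / 2 = (1 / 2 : ℝ) ^ (n + 1) := by
  rw [pow_succ]; ring

theorem sum_M2_le {f : E → ℝ} (hf : UI f) (m : ℕ) :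
    ∑ n ∈ Finset.range m, M2 f ((1 / 2 : ℝ) ^ n) ≤ 4 / 3 * ∫ x, f x ∂(stdGaussian E) := by
  have key : ∑ n ∈ Finset.range m, M2 f ((1 / 2 : ℝ) ^ n)
      ≤ 4 / 3 * (A2 f ((1 / 2 : ℝ) ^ m) - A2 f ((1 / 2 : ℝ) ^ 0)) := by
    induction m with
    | zero => simp
    | succ m ih =>
      rw [Finset.sum_range_succ]
      have h := inc_low hf (half_pow_pos m).le (half_pow_le m)
      rw [half_pow_half] at h
      linarith
  have h1 := A2_le hf (half_pow_pos m).le (half_pow_le m)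
  have h2 := A2_nonneg f ((1 / 2 : ℝ) ^ 0)
  linarith

/-- differences of two fields -/
theorem sum_diff_le {f g : E → ℝ} (hf : UI f) (hg : UI g) (m : ℕ) :
    ∑ n ∈ Finset.range m, ∫ y, ‖mom f ((1 / 2 : ℝ) ^ n)
        (Real.sqrt (1 - ((1 / 2 : ℝ) ^ n) ^ 2) • y)
        - mom g ((1 / 2 : ℝ) ^ n) (Real.sqrt (1 - ((1 / 2 : ℝ) ^ n) ^ 2) • y)‖ ^ 2
        ∂(stdGaussian E)
      ≤ 8 / 3 * ∫ x, |f x - g x| ∂(stdGaussian E) := by
  set u : E → ℝ := fun x => max (f x - g x) 0 with hu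
  set w : E → ℝ := fun x => max (g x - f x) 0 with hw
  have huU : UI u := ⟨(hf.meas.sub hg.meas).max measurable_const, fun x => le_max_right _ _,
    fun x => max_le (by have := hf.le_one x; have := hg.nonneg x; linarith) zero_le_one⟩
  have hwU : UI w := ⟨(hg.meas.sub hf.meas).max measurable_const, fun x => le_max_right _ _,
    fun x => max_le (by have := hg.le_one x; have := hf.nonneg x; linarith) zero_le_one⟩
  have huw : ∀ x, f x - g x = u x - w x := by
    intro x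
    simp only [hu, hw]
    rcases le_total (f x) (g x) with h | h
    · rw [max_eq_right (by linarith), max_eq_left (by linarith)]; ring
    · rw [max_eq_left (by linarith), max_eq_right (by linarith)]; ring
  have habs : ∀ x, |f x - g x| = u x + w x := by
    intro x
    simp only [hu, hw]
    rcases le_total (f x) (g x) with h | h
    · rw [max_eq_right (by linarith), max_eq_left (by linarith), abs_of_nonpos (by linarith)]; ring
    · rw [max_eq_left (by linarith), max_eq_right (by linarith), abs_of_nonneg (by linarith)]; ring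
  have hmom : ∀ (s : ℝ) (p : E), mom f s p - mom g s p = mom u s p - mom w s p := by
    intro s p
    simp only [mom]
    rw [← integral_sub (UI.integrable_smul (UI.comp hf (by fun_prop)))
      (UI.integrable_smul (UI.comp hg (by fun_prop))),
      ← integral_sub (UI.integrable_smul (UI.comp huU (by fun_prop)))
      (UI.integrable_smul (UI.comp hwU (by fun_prop)))]
    congr 1; funext g'
    rw [← sub_smul, ← sub_smul, huw]
  have hpt : ∀ (s : ℝ) (p : E), ‖mom f s p - mom g s p‖ ^ 2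
      ≤ 2 * ‖mom u s p‖ ^ 2 + 2 * ‖mom w s p‖ ^ 2 := by
    intro s p
    rw [hmom]
    have h1 := norm_sub_le (mom u s p) (mom w s p)
    have h2 := norm_nonneg (mom u s p - mom w s p)
    nlinarith [sq_nonneg (‖mom u s p‖ - ‖mom w s p‖)]
  have hstep : ∀ n : ℕ, ∫ y, ‖mom f ((1 / 2 : ℝ) ^ n)
        (Real.sqrt (1 - ((1 / 2 : ℝ) ^ n) ^ 2) • y)
        - mom g ((1 / 2 : ℝ) ^ n) (Real.sqrt (1 - ((1 / 2 : ℝ) ^ n) ^ 2) • y)‖ ^ 2
        ∂(stdGaussian E) ≤ 2 * M2 u ((1 / 2 : ℝ) ^ n) + 2 * M2 w ((1 / 2 : ℝ) ^ n) := by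
    intro n
    have i1 : Integrable (fun y => ‖mom u ((1 / 2 : ℝ) ^ n)
        (Real.sqrt (1 - ((1 / 2 : ℝ) ^ n) ^ 2) • y)‖ ^ 2) (stdGaussian E) :=
      (UI.comp (mom_sq_UI huU _) (by fun_prop)).integrable _
    have i2 : Integrable (fun y => ‖mom w ((1 / 2 : ℝ) ^ n)
        (Real.sqrt (1 - ((1 / 2 : ℝ) ^ n) ^ 2) • y)‖ ^ 2) (stdGaussian E) :=
      (UI.comp (mom_sq_UI hwU _) (by fun_prop)).integrable _
    rw [M2, M2, ← integral_const_mul, ← integral_const_mul,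
      ← integral_add (i1.const_mul 2) (i2.const_mul 2)]
    exact integral_mono_of_nonneg (Eventually.of_forall fun y => sq_nonneg _)
      ((i1.const_mul 2).add (i2.const_mul 2)) (Eventually.of_forall fun y => hpt _ _)
  have hI : ∫ x, |f x - g x| ∂(stdGaussian E)
      = ∫ x, u x ∂(stdGaussian E) + ∫ x, w x ∂(stdGaussian E) := by
    rw [← integral_add (huU.integrable _) (hwU.integrable _)]
    congr 1; funext x; exact habs x
  calc _ ≤ ∑ n ∈ Finset.range m, (2 * M2 u ((1 / 2 : ℝ) ^ n) + 2 * M2 w ((1 / 2 : ℝ) ^ n)) :=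
        Finset.sum_le_sum fun n _ => hstep n
    _ = 2 * ∑ n ∈ Finset.range m, M2 u ((1 / 2 : ℝ) ^ n)
        + 2 * ∑ n ∈ Finset.range m, M2 w ((1 / 2 : ℝ) ^ n) := by
        rw [Finset.sum_add_distrib, Finset.mul_sum, Finset.mul_sum]
    _ ≤ _ := by
        have := sum_M2_le huU m
        have := sum_M2_le hwU m
        rw [hI]
        linarith

/-! ### The limit -/

theorem avg_L1 {f : E → ℝ} (hf : UI f) {ε : ℝ} (hε : 0 < ε) :
    ∀ᶠ n : ℕ in atTop, ∫ y, |avg f ((1 / 2 : ℝ) ^ n)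
      (Real.sqrt (1 - ((1 / 2 : ℝ) ^ n) ^ 2) • y) - f y| ∂(stdGaussian E) ≤ ε := by
  set δ := ε / 3 with hδ
  have hδ0 : 0 < δ := by positivity
  obtain ⟨g0, hg0, hg0i⟩ := (hf.integrable (stdGaussian E)).exists_boundedContinuous_integral_sub_le
    hδ0
  set g : E → ℝ := fun x => max 0 (min 1 (g0 x)) with hg
  have hgc : Continuous g := continuous_const.max (continuous_const.min g0.continuous)
  have hgU : UI g := ⟨hgc.measurable, fun x => le_max_left _ _,
    fun x => max_le zero_le_one (min_le_left _ _)⟩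
  have hfg : ∫ x, |f x - g x| ∂(stdGaussian E) ≤ δ := by
    refine le_trans (integral_mono ?_ ?_ ?_) hg0
    · exact ((hf.integrable _).sub (hgU.integrable _)).abs
    · exact ((hf.integrable _).sub hg0i).norm
    · intro x
      simp only [Real.norm_eq_abs, hg]
      have h0 := hf.nonneg x
      have h1 := hf.le_one x
      rcases le_total (g0 x) 1 with ha | ha
      · rw [min_eq_right ha]
        rcases le_total 0 (g0 x) with hb | hb
        · rw [max_eq_right hb]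
        · rw [max_eq_left hb, abs_of_nonneg (by linarith), abs_of_nonneg (by linarith)]
          linarith
      · rw [min_eq_left ha, max_eq_right zero_le_one, abs_of_nonpos (by linarith),
          abs_of_nonpos (by linarith)]
        linarith
  have hlim0 : Tendsto (fun s : ℝ => ∫ y, |avg g s (Real.sqrt (1 - s ^ 2) • y) - g y|
      ∂(stdGaussian E)) (𝓝 0) (𝓝 (∫ _y : E, (0:ℝ) ∂(stdGaussian E))) := by
    apply tendsto_integral_filter_of_dominated_convergence (fun _ => (1:ℝ))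
    · exact Eventually.of_forall fun s =>
        (((UI.avg hgU s).meas.comp (by fun_prop)).sub hgU.meas).abs.aestronglyMeasurable
    · refine Eventually.of_forall fun s => Eventually.of_forall fun y => ?_
      rw [Real.norm_eq_abs, abs_abs, abs_le]
      have := (UI.avg hgU s).nonneg (Real.sqrt (1 - s ^ 2) • y)
      have := (UI.avg hgU s).le_one (Real.sqrt (1 - s ^ 2) • y)
      have := hgU.nonneg y
      have := hgU.le_one y
      constructor <;> linarith
    · exact integrable_const _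
    · refine Eventually.of_forall fun y => ?_
      have h1 := (avg_tendsto hgU hgc y).sub_const (g y)
      rw [sub_self] at h1
      have h2 := h1.abs
      rwa [abs_zero] at h2
  rw [integral_zero] at hlim0
  have hlim := hlim0.comp
      (tendsto_pow_atTop_nhds_zero_of_lt_one (r := (1 / 2 : ℝ)) (by norm_num) (by norm_num))
  filter_upwards [hlim.eventually_lt_const hδ0] with n hn
  have hs1 := half_pow_le n
  have h3 := avg_sub_le hf hgU (s := (1 / 2 : ℝ) ^ n) (half_pow_pos n).le hs1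
  have hU1 : UI (fun y => avg f ((1 / 2 : ℝ) ^ n) (Real.sqrt (1 - ((1 / 2 : ℝ) ^ n) ^ 2) • y)) :=
    UI.comp (UI.avg hf _) (by fun_prop)
  have hU2 : UI (fun y => avg g ((1 / 2 : ℝ) ^ n) (Real.sqrt (1 - ((1 / 2 : ℝ) ^ n) ^ 2) • y)) :=
    UI.comp (UI.avg hgU _) (by fun_prop)
  have i1 : Integrable (fun y => |avg f ((1 / 2 : ℝ) ^ n)
      (Real.sqrt (1 - ((1 / 2 : ℝ) ^ n) ^ 2) • y) - avg g ((1 / 2 : ℝ) ^ n)
      (Real.sqrt (1 - ((1 / 2 : ℝ) ^ n) ^ 2) • y)|) (stdGaussian E) :=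
    ((hU1.integrable _).sub (hU2.integrable _)).abs
  have i2 : Integrable (fun y => |avg g ((1 / 2 : ℝ) ^ n)
      (Real.sqrt (1 - ((1 / 2 : ℝ) ^ n) ^ 2) • y) - g y|) (stdGaussian E) :=
    ((hU2.integrable _).sub (hgU.integrable _)).abs
  have i3 : Integrable (fun y => |g y - f y|) (stdGaussian E) :=
    ((hgU.integrable _).sub (hf.integrable _)).abs
  have i12 : Integrable (fun y => |avg f ((1 / 2 : ℝ) ^ n)
      (Real.sqrt (1 - ((1 / 2 : ℝ) ^ n) ^ 2) • y) - avg g ((1 / 2 : ℝ) ^ n)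
      (Real.sqrt (1 - ((1 / 2 : ℝ) ^ n) ^ 2) • y)| + |avg g ((1 / 2 : ℝ) ^ n)
      (Real.sqrt (1 - ((1 / 2 : ℝ) ^ n) ^ 2) • y) - g y|) (stdGaussian E) := i1.add i2
  have e3 : ∫ y, |g y - f y| ∂(stdGaussian E) = ∫ y, |f y - g y| ∂(stdGaussian E) := by
    congr 1; funext y; exact abs_sub_comm _ _
  calc _ ≤ ∫ y, (|avg f ((1 / 2 : ℝ) ^ n)
      (Real.sqrt (1 - ((1 / 2 : ℝ) ^ n) ^ 2) • y) - avg g ((1 / 2 : ℝ) ^ n)
      (Real.sqrt (1 - ((1 / 2 : ℝ) ^ n) ^ 2) • y)| + |avg g ((1 / 2 : ℝ) ^ n)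
      (Real.sqrt (1 - ((1 / 2 : ℝ) ^ n) ^ 2) • y) - g y| + |g y - f y|) ∂(stdGaussian E) := by
        refine integral_mono ((hU1.integrable _).sub (hf.integrable _)).abs (i12.add i3)
          (fun y => ?_)
        simp only
        set A := avg f ((1 / 2 : ℝ) ^ n) (Real.sqrt (1 - ((1 / 2 : ℝ) ^ n) ^ 2) • y)
        set B := avg g ((1 / 2 : ℝ) ^ n) (Real.sqrt (1 - ((1 / 2 : ℝ) ^ n) ^ 2) • y)
        calc |A - f y| = |(A - B) + (B - g y) + (g y - f y)| := by congr 1; ring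
          _ ≤ _ := (abs_add_le _ _).trans (add_le_add (abs_add_le _ _) le_rfl)
    _ ≤ ε := by
        rw [integral_add i12 i3, integral_add i1 i2, e3]
        have hn' : ∫ y, |avg g ((1 / 2 : ℝ) ^ n)
          (Real.sqrt (1 - ((1 / 2 : ℝ) ^ n) ^ 2) • y) - g y| ∂(stdGaussian E) < δ := hn
        linarith [h3, hfg]

end Vale.Agent.P262.H967
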