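import Vale.Agent.P262.H431.Thr6
import Vale.Agent.P262.H493.ConvA

/-!
# P262, milestone 2, block HMOM0, part 1: the tip inequality on the class 0 chain with a linear weight

`cons0s`: single time, chain of fixed label spaces, weight `1 + |<b, x>|`, `b` orthogonal to the
label space of the parent.  `cons_zero_s`: the same on class paths, integrated over all labels, for
any descendant `z ++ p`.
-/

set_option linter.all false

open MeasureTheory Set Filter ProbabilityTheory
open scoped ENNReal NNReal Topology RealInnerProductSpace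

namespace Vale.Agent.P262.H967

open Vale.Agent.P262.H395
open Vale.Agent.P262.H44 (InvS ec Weight weight_dw STree)
open Vale.Agent.P262.H606 (dw continuous_dw FlatD infDist_add)
open Vale.Agent.P262.H962
open Vale.Agent.P262.Cons493
open Vale.Agent.P262.H439 (qq qtip_unit HKQ QH Under measurable_qq qq_le_one inv_qq)
open Vale.Agent.P262.H633 (slab one_add_le_slab)
open Vale.Agent.P262.H431 (ws tip_slab unit_conv one_add_ofReal continuous_ws)
open Vale.Agent.P262.H395.CW (pl chf chn nk unk SI OMp OMc Lab pl_append map_chn chf_pairwise chf_gt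
  mem_chf mem_chn mem_chn_of mem_pl_or exists_chain isClosed_unk convex_unk measurableSet_nk inv_nk
  nk_append nk_cons nk_nil nk_anti cap_le_of_nk capS_nil health_unk int_fib_le inv_ind OMp_anti
  unk_cons)

variable {E : Type*} [NormedAddCommGroup E] [InnerProductSpace ℝ E] [FiniteDimensional ℝ E]
  [MeasurableSpace E] [BorelSpace E]

/-- the linear weight -/
noncomputable def gw (b x : E) : ℝ≥0∞ := ENNReal.ofReal (1 + |⟪b, x⟫|)

lemma measurable_gw (b : E) : Measurable (gw b) := by
  unfold gw; fun_prop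

lemma gw_ne_top (b x : E) : gw b x ≠ ⊤ := ENNReal.ofReal_ne_top

/-- **the tip inequality with a linear weight, single time** -/
theorem cons0s {K Kl : Set E} (hK : IsClosed K) (hKc : Convex ℝ K) {R : ℝ}
    (hKR : K ⊆ Metric.closedBall 0 R) (hKl : IsClosed Kl) (hKlc : Convex ℝ Kl) (hKK : K ⊆ Kl)
    {q : ℝ} (hq : 0 ≤ q) (hε : 2 * (Real.sqrt 2 * Real.exp (-(q / 4))) ≤ 1 / 41)
    {s : ℝ} (hs : 0 ≤ s) (hs1 : s ≤ 1 / 2) {A0 kap : ℝ} (hA : 0 < A0) (hk : 0 < kap)
    {l0 l' : List (Submodule ℝ E)} {W0 V W' : Submodule ℝ E} {L : List (Submodule ℝ E × Set E)}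
    (h1 : ∀ V ∈ l0, V ≤ W0) (hW0 : W0 ∈ l0 ∨ W0 = ⊥)
    (hL : (L.map Prod.fst ++ l').Pairwise (· < ·)) (hL0 : ∀ V ∈ L.map Prod.fst ++ l', W0 < V)
    (hV0 : W0 ≤ V) (hVL : ∀ p ∈ L, p.1 ≤ V) (hVW : V ≤ W')
    (hVin : InvS V (avoid L))
    (hD : ∀ p ∈ L, MeasurableSet p.2 ∧ InvS p.1 p.2)
    (hgood : ∀ p ∈ L, ∀ x ∈ p.2, ENNReal.ofReal (4 / 5) ≤ fib p.1 (K.indicator 1) x)
    {b : E} (hb1 : ‖b‖ ≤ 1) (hb : b ∈ Vᗮ)
    (x0 : E) (hroot : ENNReal.ofReal (2 / 3) ≤ fib W0 (K.indicator 1) x0) :
    fib W0 ((avoid L).indicator (K.indicator fun x =>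
        capS A0 kap q s ((l0 ++ L.map Prod.fst) ++ l') W' x * gw b x)) x0 ≤
      ENNReal.ofReal (23 * cCons * (kap ^ (Module.finrank ℝ W' - Module.finrank ℝ V)) ^ s) *
        fib W0 ((avoid L).indicator ({x | ENNReal.ofReal (Real.exp (-1418)) ≤ qq V Kl x}.indicator
          (capS A0 kap q s (l0 ++ L.map Prod.fst) V))) x0 := by
  set l := l0 ++ L.map Prod.fst with hl
  have hLp : (L.map Prod.fst).Pairwise (· < ·) := (List.pairwise_append.mp hL).1
  have hLp0 : ∀ V ∈ L.map Prod.fst, W0 < V := fun V hV => hL0 V (by simp [hV])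
  have hchn : Chn L W0 := Chn.of_list hLp hLp0 hD
  have hε10 : 2 * (Real.sqrt 2 * Real.exp (-(q / 4))) ≤ 1 / 10 := hε.trans (by norm_num)
  have hregm : MeasurableSet (avoid L) := by
    rw [← reg_sT]
    exact STree.measurableSet_reg _ (valid_sT hchn)
  have hwm : Measurable (dw (s / 8) (PB l q)) := (continuous_dw _ _).measurable
  have s1 := tip_slab (K := K) (R := R) (q := q) (a := s / 8) (c := 1 / 16) (l0 := l0) (l' := l')
    (W0 := W0) (V := V) (L := L) (b := b) hK hKc hKR hq hε10 (by positivity) (by norm_num)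
    (by linarith) h1 hW0 hL hL0 hV0 hVL hD hgood hb1 hb x0 hroot
  have s2 := unit_conv (K := K) (Kl := Kl) (q := q) (s := s) (l0 := l0) (W0 := W0) (V := V)
    (L := L) hKl hKlc hKK hK hq hε hs (by linarith) h1 hW0 hLp hLp0 hV0 hVL hVin hD hgood x0 hroot
  rw [← hl] at s1 s2
  set G : Set E := {x | ENNReal.ofReal (Real.exp (-1418)) ≤ qq V Kl x} with hG
  have hGm : MeasurableSet G := measurableSet_le measurable_const (measurable_qq hKl.measurableSet)
  have hwsm : Measurable (ws (s / 8) (1 / 16) q (l ++ l') b) := (continuous_ws _ _ _ _ _).measurable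
  set c1 : ℝ≥0∞ := ENNReal.ofReal ((A0 * kap ^ Module.finrank ℝ W') ^ s) with hc1
  have eL : fib W0 ((avoid L).indicator (K.indicator fun x =>
        capS A0 kap q s (l ++ l') W' x * gw b x)) x0 ≤
      c1 * 23 * fib W0 ((avoid L).indicator (K.indicator (ws (s / 8) (1 / 16) q (l ++ l') b))) x0 := by
    rw [← fib_mul (inv_const W0 _) ((hwsm.indicator hK.measurableSet).indicator hregm)]
    refine fib_mono (fun y => ?_) x0
    by_cases h : y ∈ avoid L
    · rw [indicator_of_mem h, indicator_of_mem h]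
      by_cases h' : y ∈ K
      · rw [indicator_of_mem h', indicator_of_mem h']
        have h2 := one_add_ofReal hb1 y
        have h3 : capS A0 kap q s (l ++ l') W' y = c1 * dw (s / 8) (PB (l ++ l') q) y := rfl
        rw [h3]
        unfold gw ws
        calc c1 * dw (s / 8) (PB (l ++ l') q) y * ENNReal.ofReal (1 + |⟪b, y⟫|)
            ≤ c1 * dw (s / 8) (PB (l ++ l') q) y * (23 * dw (1 / 16) (slab b 5) y) := by gcongr
          _ = _ := by ring
      · rw [indicator_of_notMem h', indicator_of_notMem h', mul_zero]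
    · rw [indicator_of_notMem h, indicator_of_notMem h, mul_zero]
  have eR : fib W0 ((avoid L).indicator (G.indicator (capS A0 kap q s l V))) x0 =
      ENNReal.ofReal ((A0 * kap ^ Module.finrank ℝ V) ^ s) *
        fib W0 ((avoid L).indicator (G.indicator (dw (s / 8) (PB l q)))) x0 := by
    rw [← fib_mul (inv_const W0 _) ((hwm.indicator hGm).indicator hregm)]
    congr 1
    funext y
    by_cases h : y ∈ avoid L
    · rw [indicator_of_mem h, indicator_of_mem h]
      by_cases h' : y ∈ G
      · rw [indicator_of_mem h', indicator_of_mem h']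
        rfl
      · rw [indicator_of_notMem h', indicator_of_notMem h', mul_zero]
    · rw [indicator_of_notMem h, indicator_of_notMem h, mul_zero]
  have h4 : A0 * kap ^ Module.finrank ℝ W' =
      kap ^ (Module.finrank ℝ W' - Module.finrank ℝ V) * (A0 * kap ^ Module.finrank ℝ V) := by
    have : kap ^ Module.finrank ℝ W' =
        kap ^ (Module.finrank ℝ W' - Module.finrank ℝ V) * kap ^ Module.finrank ℝ V := by
      rw [← pow_add, Nat.sub_add_cancel (Submodule.finrank_mono hVW)]
    rw [this]; ring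
  rw [eR]
  refine eL.trans ?_
  have e5 : ENNReal.ofReal (23 * cCons * (kap ^ (Module.finrank ℝ W' - Module.finrank ℝ V)) ^ s) =
      ENNReal.ofReal ((kap ^ (Module.finrank ℝ W' - Module.finrank ℝ V)) ^ s) *
        (23 * (ENNReal.ofReal (2 * Real.exp (2 ^ 11)) * 2)) := by
    rw [show (2 : ℝ≥0∞) = ENNReal.ofReal 2 by norm_num,
      show (23 : ℝ≥0∞) = ENNReal.ofReal 23 by norm_num, ← ENNReal.ofReal_mul (by positivity),
      ← ENNReal.ofReal_mul (by positivity), ← ENNReal.ofReal_mul (by positivity)]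
    congr 1
    unfold cCons
    ring
  have e6 : c1 = ENNReal.ofReal ((kap ^ (Module.finrank ℝ W' - Module.finrank ℝ V)) ^ s) *
      ENNReal.ofReal ((A0 * kap ^ Module.finrank ℝ V) ^ s) := by
    rw [hc1, h4, Real.mul_rpow (by positivity) (by positivity), ENNReal.ofReal_mul (by positivity)]
  rw [e5, e6]
  calc ENNReal.ofReal ((kap ^ (Module.finrank ℝ W' - Module.finrank ℝ V)) ^ s) *
        ENNReal.ofReal ((A0 * kap ^ Module.finrank ℝ V) ^ s) * 23 *
        fib W0 ((avoid L).indicator (K.indicator (ws (s / 8) (1 / 16) q (l ++ l') b))) x0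
      ≤ ENNReal.ofReal ((kap ^ (Module.finrank ℝ W' - Module.finrank ℝ V)) ^ s) *
        ENNReal.ofReal ((A0 * kap ^ Module.finrank ℝ V) ^ s) * 23 *
        (ENNReal.ofReal (2 * Real.exp (2 ^ 11)) *
          (2 * fib W0 ((avoid L).indicator (G.indicator (dw (s / 8) (PB l q)))) x0)) := by
        gcongr
        exact s1.trans (mul_le_mul' le_rfl s2)
    _ = _ := by ring

end Vale.Agent.P262.H967
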