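import Vale.Agent.P262.H967.Dir2

/-!
# The support function bound for second moments
-/

set_option linter.unusedSectionVars false

namespace Vale.Agent.P262.H967

open MeasureTheory ProbabilityTheory Set Filter Topology
open scoped RealInnerProductSpace
open Vale.Agent.P262.H847 Vale.Agent.P262.H912 Vale.Agent.P262.H941

variable {E : Type*} [NormedAddCommGroup E] [InnerProductSpace ℝ E] [FiniteDimensional ℝ E]
  [MeasurableSpace E] [BorelSpace E]

lemma integrable_inner_sq (w : E) : Integrable (fun y : E => ⟪w, y⟫ ^ 2) (stdGaussian E) := by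
  refine ((integrable_one_add_sq (E := E)).const_mul (‖w‖ ^ 2)).mono' (by fun_prop)
    (Eventually.of_forall fun x => ?_)
  rw [Real.norm_eq_abs, abs_of_nonneg (by positivity)]
  have h1 := abs_real_inner_le_norm w x
  calc ⟪w, x⟫ ^ 2 = |⟪w, x⟫| ^ 2 := (sq_abs _).symm
    _ ≤ (‖w‖ * ‖x‖) ^ 2 := pow_le_pow_left₀ (abs_nonneg _) h1 2
    _ = ‖w‖ ^ 2 * ‖x‖ ^ 2 := by ring
    _ ≤ _ := mul_le_mul_of_nonneg_left (by nlinarith [norm_nonneg x]) (by positivity)

lemma integral_inner_sq (w : E) : ∫ y : E, ⟪w, y⟫ ^ 2 ∂(stdGaussian E) = ‖w‖ ^ 2 := by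
  have h1 := variance_dual_stdGaussian (innerSL ℝ w)
  rw [variance_eq_integral (by fun_prop), integral_strongDual_stdGaussian] at h1
  simpa using h1

/-- Cauchy–Schwarz for the first moment of a bounded density -/
lemma moment_sq_le {d : E → ℝ} (hd : Measurable d) (hd1 : ∀ z, |d z| ≤ 1) :
    ‖∫ z, d z • z ∂(stdGaussian E)‖ ^ 2 ≤ ∫ z, |d z| ∂(stdGaussian E) := by
  have hi : Integrable (fun z : E => d z • z) (stdGaussian E) := by
    refine (integrable_norm (E := E)).mono' (hd.smul measurable_id).aestronglyMeasurable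
      (Eventually.of_forall fun z => ?_)
    rw [norm_smul]
    exact mul_le_of_le_one_left (norm_nonneg _) (hd1 z)
  set m := ∫ z, d z • z ∂(stdGaussian E) with hm
  have h1 := (innerSL ℝ m).integral_comp_comm hi
  simp only [innerSL_apply_apply] at h1
  have h2 : ‖m‖ ^ 2 = ∫ z, d z * ⟪m, z⟫ ∂(stdGaussian E) := by
    rw [← real_inner_self_eq_norm_sq]
    conv_lhs => rw [hm]
    rw [hm, ← hm, ← h1]
    congr 1; funext z
    rw [real_inner_smul_right]
  have hdi : Integrable (fun z => |d z|) (stdGaussian E) :=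
    Integrable.of_bound hd.abs.aestronglyMeasurable 1
      (Eventually.of_forall fun z => by rw [Real.norm_eq_abs, abs_abs]; exact hd1 z)
  have hdm : Integrable (fun z => d z * ⟪m, z⟫) (stdGaussian E) := by
    refine (integrable_inner m).norm.mono' (hd.mul (by fun_prop)).aestronglyMeasurable
      (Eventually.of_forall fun z => ?_)
    rw [norm_mul]
    exact mul_le_of_le_one_left (norm_nonneg _) (hd1 z)
  have h3 : ∫ z, 2 * (d z * ⟪m, z⟫) ∂(stdGaussian E)
      ≤ ∫ z, (|d z| + ⟪m, z⟫ ^ 2) ∂(stdGaussian E) := by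
    refine integral_mono (hdm.const_mul 2) (hdi.add (integrable_inner_sq m)) fun z => ?_
    show 2 * (d z * ⟪m, z⟫) ≤ |d z| + ⟪m, z⟫ ^ 2
    have h4 : d z ^ 2 ≤ |d z| := by
      rw [← sq_abs]
      have := hd1 z
      have := abs_nonneg (d z)
      nlinarith
    nlinarith [sq_nonneg (d z - ⟪m, z⟫)]
  rw [integral_const_mul, integral_add hdi (integrable_inner_sq m), integral_inner_sq, ← h2] at h3
  linarith

lemma mom_sub_sq_le {f g : E → ℝ} (hf : UI f) (hg : UI g) (s : ℝ) (p : E) :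
    ‖mom f s p - mom g s p‖ ^ 2
      ≤ ∫ z, |f (p + s • z) - g (p + s • z)| ∂(stdGaussian E) := by
  have hfy : UI (fun z => f (p + s • z)) := UI.comp hf (by fun_prop)
  have hgy : UI (fun z => g (p + s • z)) := UI.comp hg (by fun_prop)
  have e1 : mom f s p - mom g s p
      = ∫ z, (f (p + s • z) - g (p + s • z)) • z ∂(stdGaussian E) := by
    unfold mom
    rw [← integral_sub (UI.integrable_smul hfy) (UI.integrable_smul hgy)]
    congr 1; funext z
    rw [sub_smul]
  rw [e1]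
  refine moment_sq_le (hfy.meas.sub hgy.meas) fun z => ?_
  rw [abs_le]
  have := hfy.nonneg z; have := hfy.le_one z; have := hgy.nonneg z; have := hgy.le_one z
  constructor <;> linarith

lemma mom_sq_le_avg {f : E → ℝ} (hf : UI f) (s : ℝ) (p : E) :
    ‖mom f s p‖ ^ 2 ≤ avg f s p := by
  have hfy : UI (fun z => f (p + s • z)) := UI.comp hf (by fun_prop)
  have h1 := moment_sq_le hfy.meas (fun z => by
    rw [abs_of_nonneg (hfy.nonneg z)]; exact hfy.le_one z)
  refine h1.trans_eq ?_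
  unfold avg
  congr 1; funext z
  exact abs_of_nonneg (hfy.nonneg z)

/-- change of the first moments in `L²` when the field changes -/
theorem mom_change_sq {f g : E → ℝ} (hf : UI f) (hg : UI g) {c s : ℝ} (hcs : c ^ 2 + s ^ 2 = 1) :
    ∫ y, ‖mom f s (c • y) - mom g s (c • y)‖ ^ 2 ∂(stdGaussian E)
      ≤ ∫ x, |f x - g x| ∂(stdGaussian E) := by
  have hd : UI (fun x => |f x - g x|) := by
    refine ⟨(hf.meas.sub hg.meas).abs, fun x => abs_nonneg _, fun x => ?_⟩
    rw [abs_le]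
    have := hf.nonneg x; have := hf.le_one x; have := hg.nonneg x; have := hg.le_one x
    constructor <;> linarith
  have hdU : UI (fun y => ∫ z, |f (c • y + s • z) - g (c • y + s • z)| ∂(stdGaussian E)) :=
    UI.integral (E := E) (F := E) (f := fun p : E × E =>
      |f (c • p.1 + s • p.2) - g (c • p.1 + s • p.2)|)
      (UI.comp hd (T := fun p : E × E => c • p.1 + s • p.2) (by fun_prop)) (stdGaussian E)
  have hD : ∫ y, ∫ z, |f (c • y + s • z) - g (c • y + s • z)| ∂(stdGaussian E) ∂(stdGaussian E)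
      = ∫ x, |f x - g x| ∂(stdGaussian E) := by
    have := integral_add_smul' (a := c) (b := s) (c := 1) (by rw [hcs]; norm_num) hd.meas
      (B := 1) (fun x => by rw [abs_of_nonneg (hd.nonneg x)]; exact hd.le_one x)
    simpa using this
  rw [← hD]
  exact integral_mono_of_nonneg (Eventually.of_forall fun y => sq_nonneg _)
    (hdU.integrable _) (Eventually.of_forall fun y => mom_sub_sq_le hf hg s (c • y))

/-- mean of the squares of the first moments -/
lemma mom_sq_mean_le {f : E → ℝ} (hf : UI f) {c s : ℝ} (hcs : c ^ 2 + s ^ 2 = 1) :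
    ∫ y, ‖mom f s (c • y)‖ ^ 2 ∂(stdGaussian E) ≤ ∫ x, f x ∂(stdGaussian E) := by
  rw [← avg_mean hf hcs]
  exact integral_mono_of_nonneg (Eventually.of_forall fun y => sq_nonneg _)
    ((UI.comp (UI.avg hf s) (T := fun y : E => c • y) (by fun_prop)).integrable _)
    (Eventually.of_forall fun y => mom_sq_le_avg hf s (c • y))

/-- third absolute moment of a Gaussian functional -/
lemma cube_moment {w : E} {N : ℝ} (hw : ‖w‖ ≤ N) {f : E → ℝ} (hf : UI f) :
    ∫ g, f g * |⟪g, w⟫| ^ 3 ∂(stdGaussian E) ≤ 104 * N ^ 3 := by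
  have hN : 0 ≤ N := (norm_nonneg w).trans hw
  have h1 := cube_bound (T := 1) hf hw le_rfl
  have h2 : ∫ g, f g ∂(stdGaussian E) ≤ 1 := by
    have := integral_mono (hf.integrable (stdGaussian E)) (integrable_const 1) hf.le_one
    simpa using this
  have h3 : Real.exp (-((1:ℝ) ^ 2 / 2)) ≤ 1 := Real.exp_le_one_iff.mpr (by norm_num)
  have h4 : 0 ≤ N ^ 3 := by positivity
  have h5 : N ^ 3 * (8 * 1 ^ 3 * ∫ g, f g ∂(stdGaussian E) + 96 * Real.exp (-((1:ℝ) ^ 2 / 2)))
      ≤ N ^ 3 * 104 := mul_le_mul_of_nonneg_left (by linarith) h4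
  linarith

/-- **Support function bound** with a weight `τ`, for a measurable admissible selection. -/
theorem supp_sel2 {e : ℕ → E → ℝ} (he : ∀ t, UI (e t)) {v : ℕ → E} {F : ℕ → ℝ} {c s : ℝ}
    (hcs : c ^ 2 + s ^ 2 = 1) (hs : 0 < s) {κ : ℕ → E → ℝ} (hκm : ∀ t, Measurable (κ t))
    (n : ℕ) (hF : ∀ t < n, FluxLe (e t) (v t) (F t)) {N : ℝ}
    (hadm : ∀ y, Adm v n N (fun t => κ t y))
    (hpos : ∀ y, 0 ≤ ⟪∑ r ∈ Finset.range n, κ r y • v r, mom (e n) s (c • y)⟫)
    {ε : ℝ} (hε : 0 < ε) (hε1 : ε ≤ 1) :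
    ε * ∫ y, ‖mom (e n) s (c • y)‖
        * ⟪∑ r ∈ Finset.range n, κ r y • v r, mom (e n) s (c • y)⟫ ∂(stdGaussian E)
      ≤ Real.exp (1 / 2) * ∑ t ∈ Finset.range n,
          (s * F t + ∫ x, |e (t + 1) x - e t x| ∂(stdGaussian E))
        + Real.exp (1 / 2) * (ε ^ 3 / 6 * (N ^ 3 * (104 * ∫ x, e n x ∂(stdGaussian E)))) := by
  set w : E → E := fun y => ∑ r ∈ Finset.range n, κ r y • v r with hw
  set M : E → E := fun y => mom (e n) s (c • y) with hM
  set τ : E → ℝ := fun y => ε * ‖M y‖ with hτ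
  have hMm : Measurable M := (measurable_mom (he n) s).comp (by fun_prop)
  have hM1 : ∀ y, ‖M y‖ ≤ 1 := fun y => norm_mom_le_one (he n) s _
  have hτm : Measurable τ := hMm.norm.const_mul ε
  have hτ0 : ∀ y, 0 ≤ τ y := fun y => mul_nonneg hε.le (norm_nonneg _)
  have hτε : ∀ y, τ y ≤ ε := fun y => mul_le_of_le_one_right hε.le (hM1 y)
  have hτ1 : ∀ y, τ y ≤ 1 := fun y => (hτε y).trans hε1
  have hN : 0 ≤ N := (norm_nonneg _).trans (hadm 0).final_le
  have hwm : Measurable w := Finset.measurable_sum _ fun r _ => (hκm r).smul_const (v r)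
  have hw1 : ∀ y, ‖w y‖ ≤ 1 := fun y => (hadm y).partial_le n le_rfl
  have hwN : ∀ y, ‖w y‖ ≤ N := fun y => (hadm y).final_le
  have hpath := path_bound he hcs hs (v := v) (F := F) (κ := fun t y => τ y * κ t y)
    (fun t => hτm.mul (hκm t)) (fun t y => by
      rw [abs_mul, abs_of_nonneg (hτ0 y)]
      exact mul_le_one₀ (hτ1 y) (abs_nonneg _) ((hadm y).abs_le t)) n hF
    (fun t ht y => by
      have h1 : ∑ r ∈ Finset.range t, (τ y * κ r y) • v r
          = τ y • ∑ r ∈ Finset.range t, κ r y • v r := by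
        rw [Finset.smul_sum]
        exact Finset.sum_congr rfl fun r _ => by rw [mul_smul]
      rw [h1, norm_smul, Real.norm_eq_abs, abs_of_nonneg (hτ0 y)]
      exact mul_le_one₀ (hτ1 y) (norm_nonneg _) ((hadm y).partial_le t ht))
  have hwe : (fun y => ∑ r ∈ Finset.range n, (τ y * κ r y) • v r) = fun y => τ y • w y := by
    funext y
    rw [hw, Finset.smul_sum]
    exact Finset.sum_congr rfl fun r _ => by rw [mul_smul]
  rw [hwe] at hpath
  -- the mode from below
  have hεw : ∀ y, ‖τ y • w y‖ ≤ 1 := fun y => by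
    rw [norm_smul, Real.norm_eq_abs, abs_of_nonneg (hτ0 y)]
    exact mul_le_one₀ (hτ1 y) (norm_nonneg _) (hw1 y)
  have hmi := integrable_mode (he n) (w := fun y => τ y • w y) (hτm.smul hwm) hεw c s
  have hfy : ∀ y, UI (fun g => e n (c • y + s • g)) := fun y => UI.comp (he n) (by fun_prop)
  set K3 : ℝ := Real.exp (1 / 2) * (ε ^ 3 / 6) * N ^ 3 * 104 with hK3
  have hK30 : 0 ≤ K3 := by positivity
  have hpt : ∀ y, ε * (‖M y‖ * ⟪w y, M y⟫) - K3 * ‖M y‖ ^ 2
      ≤ ∫ g, e n (c • y + s • g) * (Real.sin ⟪g, τ y • w y⟫ * Real.exp (‖τ y • w y‖ ^ 2 / 2))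
        ∂(stdGaussian E) := by
    intro y
    set Z := Real.exp (‖τ y • w y‖ ^ 2 / 2) with hZ
    have hZ1 : 1 ≤ Z := Real.one_le_exp (by positivity)
    have hZ2 : Z ≤ Real.exp (1 / 2) := by
      apply Real.exp_le_exp.mpr
      have := hεw y
      have := norm_nonneg (τ y • w y)
      nlinarith
    have hin : ⟪w y, M y⟫ = ∫ g, e n (c • y + s • g) * ⟪g, w y⟫ ∂(stdGaussian E) := by
      have h1 := (innerSL ℝ (w y)).integral_comp_comm (UI.integrable_smul (hfy y))
      simp only [innerSL_apply_apply] at h1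
      rw [hM]
      simp only
      rw [mom, ← h1]
      congr 1; funext g
      rw [real_inner_smul_right, real_inner_comm]
    have hi1 : Integrable (fun g => e n (c • y + s • g) * ⟪g, w y⟫) (stdGaussian E) := by
      refine (integrable_inner (w y)).norm.mono' ((hfy y).meas.mul (by fun_prop)).aestronglyMeasurable
        (Eventually.of_forall fun g => ?_)
      rw [norm_mul, Real.norm_eq_abs, abs_of_nonneg ((hfy y).nonneg g), real_inner_comm]
      exact mul_le_of_le_one_left (norm_nonneg _) ((hfy y).le_one g)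
    have hi3 : Integrable (fun g => e n (c • y + s • g) * |⟪g, w y⟫| ^ 3) (stdGaussian E) := by
      refine (integrable_cube (w y)).mono' ((hfy y).meas.mul (by fun_prop)).aestronglyMeasurable
        (Eventually.of_forall fun g => ?_)
      rw [Real.norm_eq_abs, abs_mul, abs_of_nonneg ((hfy y).nonneg g), abs_of_nonneg (by positivity)]
      exact mul_le_of_le_one_left (by positivity) ((hfy y).le_one g)
    have his : Integrable (fun g => e n (c • y + s • g) * Real.sin ⟪g, τ y • w y⟫)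
        (stdGaussian E) := by
      refine Integrable.of_bound ((hfy y).meas.mul (by fun_prop)).aestronglyMeasurable 1
        (Eventually.of_forall fun g => ?_)
      rw [norm_mul, Real.norm_eq_abs, abs_of_nonneg ((hfy y).nonneg g), Real.norm_eq_abs]
      exact mul_le_one₀ ((hfy y).le_one g) (abs_nonneg _) (Real.abs_sin_le_one _)
    have h1 : τ y * ∫ g, e n (c • y + s • g) * ⟪g, w y⟫ ∂(stdGaussian E)
        - τ y ^ 3 / 6 * ∫ g, e n (c • y + s • g) * |⟪g, w y⟫| ^ 3 ∂(stdGaussian E)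
        ≤ ∫ g, e n (c • y + s • g) * Real.sin ⟪g, τ y • w y⟫ ∂(stdGaussian E) := by
      rw [← integral_const_mul, ← integral_const_mul, ← integral_sub (hi1.const_mul (τ y))
        (hi3.const_mul _)]
      apply integral_mono ((hi1.const_mul (τ y)).sub (hi3.const_mul _)) his
      intro g
      show τ y * (e n (c • y + s • g) * ⟪g, w y⟫)
          - τ y ^ 3 / 6 * (e n (c • y + s • g) * |⟪g, w y⟫| ^ 3)
          ≤ e n (c • y + s • g) * Real.sin ⟪g, τ y • w y⟫
      rw [real_inner_smul_right]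
      have h2 := (hfy y).nonneg g
      set u := τ y * ⟪g, w y⟫ with hu
      have h3 : u - |u| ^ 3 / 6 ≤ Real.sin u := by
        rcases le_total 0 u with h | h
        · rw [abs_of_nonneg h]
          have := Real.sin_ge_sub_cube h
          linarith
        · rw [abs_of_nonpos h]
          have := Real.sin_le (neg_nonneg.mpr h)
          rw [Real.sin_neg] at this
          have h4 : 0 ≤ (-u) ^ 3 := by
            have : 0 ≤ -u := by linarith
            positivity
          linarith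
      have h5 : |u| ^ 3 = τ y ^ 3 * |⟪g, w y⟫| ^ 3 := by
        rw [hu, abs_mul, abs_of_nonneg (hτ0 y), mul_pow]
      rw [h5] at h3
      have h6 := mul_le_mul_of_nonneg_left h3 h2
      have h7 : τ y * (e n (c • y + s • g) * ⟪g, w y⟫)
          - τ y ^ 3 / 6 * (e n (c • y + s • g) * |⟪g, w y⟫| ^ 3)
          = e n (c • y + s • g) * (u - τ y ^ 3 * |⟪g, w y⟫| ^ 3 / 6) := by rw [hu]; ring
      rw [h7]; exact h6
    have h8 : ∫ g, e n (c • y + s • g) * (Real.sin ⟪g, τ y • w y⟫ * Z) ∂(stdGaussian E)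
        = Z * ∫ g, e n (c • y + s • g) * Real.sin ⟪g, τ y • w y⟫ ∂(stdGaussian E) := by
      rw [← integral_const_mul]
      congr 1; funext g; ring
    rw [h8]
    have h9 := cube_moment (hwN y) (hfy y)
    have hp := hpos y
    rw [← hin] at h1
    have hp' : 0 ≤ τ y * ⟪w y, M y⟫ := mul_nonneg (hτ0 y) hp
    set S := ∫ g, e n (c • y + s • g) * Real.sin ⟪g, τ y • w y⟫ ∂(stdGaussian E) with hS
    set Q := ∫ g, e n (c • y + s • g) * |⟪g, w y⟫| ^ 3 ∂(stdGaussian E) with hQ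
    have hQ0 : 0 ≤ Q := integral_nonneg fun g => mul_nonneg ((hfy y).nonneg g) (by positivity)
    have ha : ε * (‖M y‖ * ⟪w y, M y⟫) = τ y * ⟪w y, M y⟫ := by rw [hτ]; ring
    rw [ha]
    set a := τ y * ⟪w y, M y⟫ with ha'
    have h10 : Z * (a - τ y ^ 3 / 6 * Q) ≤ Z * S := mul_le_mul_of_nonneg_left h1 (by linarith)
    have hτ3 : 0 ≤ τ y ^ 3 := pow_nonneg (hτ0 y) 3
    have h11 : a - Real.exp (1 / 2) * (τ y ^ 3 / 6 * Q) ≤ Z * (a - τ y ^ 3 / 6 * Q) := by
      have h12 : 0 ≤ τ y ^ 3 / 6 * Q := by positivity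
      nlinarith [mul_le_mul_of_nonneg_right hZ2 h12, mul_nonneg (sub_nonneg.mpr hZ1) hp']
    have h13 : Real.exp (1 / 2) * (τ y ^ 3 / 6 * Q) ≤ K3 * ‖M y‖ ^ 2 := by
      have hx : 0 ≤ Real.exp (1 / 2 : ℝ) := (Real.exp_pos _).le
      have hm3 : ‖M y‖ ^ 3 ≤ ‖M y‖ ^ 2 := by
        have h0 := norm_nonneg (M y)
        have h1 := hM1 y
        calc ‖M y‖ ^ 3 = ‖M y‖ ^ 2 * ‖M y‖ := by ring
          _ ≤ ‖M y‖ ^ 2 * 1 := mul_le_mul_of_nonneg_left h1 (by positivity)
          _ = _ := mul_one _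
      have hN3 : 0 ≤ N ^ 3 := by positivity
      calc Real.exp (1 / 2) * (τ y ^ 3 / 6 * Q)
          ≤ Real.exp (1 / 2) * (τ y ^ 3 / 6 * (104 * N ^ 3)) :=
            mul_le_mul_of_nonneg_left (mul_le_mul_of_nonneg_left h9 (by positivity)) hx
        _ = (Real.exp (1 / 2) * (ε ^ 3 / 6) * N ^ 3 * 104) * ‖M y‖ ^ 3 := by rw [hτ]; ring
        _ ≤ (Real.exp (1 / 2) * (ε ^ 3 / 6) * N ^ 3 * 104) * ‖M y‖ ^ 2 :=
            mul_le_mul_of_nonneg_left hm3 (by positivity)
    linarith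
  -- integrate
  have hmode : ∫ y, ∫ g, e n (c • y + s • g)
        * (Real.sin ⟪g, τ y • w y⟫ * Real.exp (‖τ y • w y‖ ^ 2 / 2)) ∂(stdGaussian E) ∂(stdGaussian E)
      = mode (e n) c s (fun y => τ y • w y) := by
    unfold mode
    rw [integral_prod _ hmi]
  have hiL : Integrable (fun y => ‖M y‖ * ⟪w y, M y⟫) (stdGaussian E) := by
    refine Integrable.of_bound (hMm.norm.mul (hwm.inner hMm)).aestronglyMeasurable 1
      (Eventually.of_forall fun y => ?_)
    rw [norm_mul, norm_norm]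
    refine mul_le_one₀ (hM1 y) (norm_nonneg _) ?_
    refine (norm_inner_le_norm _ _).trans ?_
    exact mul_le_one₀ (hw1 y) (norm_nonneg _) (hM1 y)
  have hiM := (UI.comp (mom_sq_UI (he n) s) (T := fun y : E => c • y) (by fun_prop)).integrable
    (stdGaussian E)
  have hiR : Integrable (fun y => ∫ g, e n (c • y + s • g)
        * (Real.sin ⟪g, τ y • w y⟫ * Real.exp (‖τ y • w y‖ ^ 2 / 2)) ∂(stdGaussian E))
        (stdGaussian E) := hmi.integral_prod_left
  have hint : ε * ∫ y, ‖M y‖ * ⟪w y, M y⟫ ∂(stdGaussian E)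
      - K3 * ∫ y, ‖M y‖ ^ 2 ∂(stdGaussian E) ≤ mode (e n) c s (fun y => τ y • w y) := by
    rw [← hmode, ← integral_const_mul, ← integral_const_mul,
      ← integral_sub (hiL.const_mul ε) (hiM.const_mul K3)]
    exact integral_mono ((hiL.const_mul ε).sub (hiM.const_mul K3)) hiR hpt
  have hmm := mom_sq_mean_le (he n) hcs
  have h20 := (le_abs_self _).trans hpath
  have h21 : K3 * ∫ y, ‖M y‖ ^ 2 ∂(stdGaussian E) ≤ K3 * ∫ x, e n x ∂(stdGaussian E) :=
    mul_le_mul_of_nonneg_left hmm hK30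
  have h22 : Real.exp (1 / 2) * (ε ^ 3 / 6 * (N ^ 3 * (104 * ∫ x, e n x ∂(stdGaussian E))))
      = K3 * ∫ x, e n x ∂(stdGaussian E) := by rw [hK3]; ring
  rw [h22]
  linarith

/-- **Support function bound** for the second moments. -/
theorem supp_bound2 {e : ℕ → E → ℝ} (he : ∀ t, UI (e t)) {v : ℕ → E} {F : ℕ → ℝ} {c s : ℝ}
    (hcs : c ^ 2 + s ^ 2 = 1) (hs : 0 < s) (hs1 : s ≤ 1)
    (n : ℕ) (hF : ∀ t < n, FluxLe (e t) (v t) (F t)) {N : ℝ} (hN : 0 ≤ N)
    {P : E →L[ℝ] E} {lam : ℝ} (hlam : 0 ≤ lam) (hP1 : ∀ x, ‖P x‖ ≤ ‖x‖)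
    (hP : ∀ m : E, ∀ δ : ℝ, 0 < δ → ∃ κ, Adm v n N κ ∧
      lam * ‖P m‖ ≤ ⟪∑ r ∈ Finset.range n, κ r • v r, m⟫ + δ)
    {ε : ℝ} (hε : 0 < ε) (hε1 : ε ≤ 1) :
    ε * (lam * ∫ y, ‖P (mom (e n) s (c • y))‖ ^ 2 ∂(stdGaussian E))
      ≤ Real.exp (1 / 2) * ∑ t ∈ Finset.range n,
          (F t + ∫ x, |e (t + 1) x - e t x| ∂(stdGaussian E))
        + Real.exp (1 / 2) * (ε ^ 3 / 6 * (N ^ 3 * (104 * ∫ x, e n x ∂(stdGaussian E)))) := by
  apply le_of_forall_pos_le_add
  intro δ hδ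
  set δ' := δ / 2 with hδ'
  have hδ'0 : 0 < δ' := by positivity
  set 𝒲 : Set E := {w | ∃ κ, Adm v n N κ ∧ w = ∑ r ∈ Finset.range n, κ r • v r} with h𝒲
  have htb : TotallyBounded 𝒲 := by
    refine (isCompact_closedBall (0:E) 1).totallyBounded.subset ?_
    rintro w ⟨κ, hκ, rfl⟩
    rw [mem_closedBall_zero_iff]
    exact hκ.partial_le n le_rfl
  obtain ⟨t, ht, htf, htc⟩ := Metric.finite_approx_of_totallyBounded htb δ' hδ'0
  -- coefficients of the net
  have hch : ∀ w ∈ t, ∃ κ, Adm v n N κ ∧ w = ∑ r ∈ Finset.range n, κ r • v r := fun w hw => ht hw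
  choose! cf hcf using hch
  set L : List (ℕ → ℝ) := (htf.toFinset.toList).map cf with hL
  have hLadm : ∀ κ ∈ L, Adm v n N κ := by
    intro κ hκ
    rw [hL, List.mem_map] at hκ
    obtain ⟨w, hw, rfl⟩ := hκ
    rw [Finset.mem_toList, Set.Finite.mem_toFinset] at hw
    exact (hcf w hw).1
  set M : E → E := fun y => mom (e n) s (c • y) with hM
  have hMm : Measurable M := (measurable_mom (he n) s).comp (by fun_prop)
  have hM1 : ∀ y, ‖M y‖ ≤ 1 := fun y => norm_mom_le_one (he n) s _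
  obtain ⟨κ, h1, h2, h3, h4⟩ := exists_selection hMm L hLadm hN
  have hsel := supp_sel2 he hcs hs h1 n hF h2 h3 hε hε1
  -- comparison
  have hcmp : ∀ y, lam * ‖P (M y)‖
      ≤ ⟪∑ r ∈ Finset.range n, κ r y • v r, M y⟫ + 2 * δ' := by
    intro y
    obtain ⟨κ', hκ', hle⟩ := hP (M y) δ' hδ'0
    have hw' : (∑ r ∈ Finset.range n, κ' r • v r) ∈ 𝒲 := ⟨κ', hκ', rfl⟩
    obtain ⟨w, hw⟩ := mem_iUnion.mp (htc hw')
    obtain ⟨hwt, hwd⟩ := mem_iUnion.mp hw
    have h5 := h4 (cf w) (by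
      rw [hL, List.mem_map]
      exact ⟨w, by rw [Finset.mem_toList, Set.Finite.mem_toFinset]; exact hwt, rfl⟩) y
    rw [← (hcf w hwt).2] at h5
    have h6 : ⟪∑ r ∈ Finset.range n, κ' r • v r, M y⟫ ≤ ⟪w, M y⟫ + δ' := by
      have h7 : ⟪∑ r ∈ Finset.range n, κ' r • v r, M y⟫ - ⟪w, M y⟫ ≤ δ' := by
        rw [← inner_sub_left]
        refine (real_inner_le_norm _ _).trans ?_
        have h8 : ‖∑ r ∈ Finset.range n, κ' r • v r - w‖ ≤ δ' := by
          rw [← dist_eq_norm]; exact (Metric.mem_ball.mp hwd).le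
        calc _ ≤ δ' * 1 := mul_le_mul h8 (hM1 y) (norm_nonneg _) hδ'0.le
          _ = δ' := mul_one _
      linarith
    linarith
  have hcmp2 : ∀ y, lam * ‖P (M y)‖ ^ 2
      ≤ ‖M y‖ * ⟪∑ r ∈ Finset.range n, κ r y • v r, M y⟫ + 2 * δ' := by
    intro y
    have h0 := norm_nonneg (M y)
    have h5 := mul_le_mul_of_nonneg_left (hcmp y) h0
    have h6 : lam * ‖P (M y)‖ ^ 2 ≤ ‖M y‖ * (lam * ‖P (M y)‖) := by
      have h7 := mul_le_mul_of_nonneg_right (hP1 (M y)) (norm_nonneg (P (M y)))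
      nlinarith [mul_le_mul_of_nonneg_left h7 hlam]
    have h8 : ‖M y‖ * (2 * δ') ≤ 2 * δ' := mul_le_of_le_one_left (by positivity) (hM1 y)
    rw [mul_add] at h5
    linarith
  have hwm : Measurable (fun y => ∑ r ∈ Finset.range n, κ r y • v r) :=
    Finset.measurable_sum _ fun r _ => (h1 r).smul_const (v r)
  have hi1 : Integrable (fun y => ‖M y‖ * ⟪∑ r ∈ Finset.range n, κ r y • v r, M y⟫)
      (stdGaussian E) := by
    refine Integrable.of_bound (hMm.norm.mul (hwm.inner hMm)).aestronglyMeasurable 1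
      (Eventually.of_forall fun y => ?_)
    rw [norm_mul, norm_norm]
    refine mul_le_one₀ (hM1 y) (norm_nonneg _) ?_
    refine (norm_inner_le_norm _ _).trans ?_
    exact mul_le_one₀ ((h2 y).partial_le n le_rfl) (norm_nonneg _) (hM1 y)
  have hi2 : Integrable (fun y => lam * ‖P (M y)‖ ^ 2) (stdGaussian E) := by
    refine (Integrable.of_bound ((P.continuous.measurable.comp hMm).norm.pow_const
      2).aestronglyMeasurable 1 (Eventually.of_forall fun y => ?_)).const_mul lam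
    rw [norm_pow, norm_norm]
    exact pow_le_one₀ (norm_nonneg _) ((hP1 _).trans (hM1 y))
  have hint : lam * ∫ y, ‖P (M y)‖ ^ 2 ∂(stdGaussian E)
      ≤ ∫ y, ‖M y‖ * ⟪∑ r ∈ Finset.range n, κ r y • v r, M y⟫ ∂(stdGaussian E) + 2 * δ' := by
    rw [← integral_const_mul]
    have : ∫ y, (‖M y‖ * ⟪∑ r ∈ Finset.range n, κ r y • v r, M y⟫ + 2 * δ') ∂(stdGaussian E)
        = ∫ y, ‖M y‖ * ⟪∑ r ∈ Finset.range n, κ r y • v r, M y⟫ ∂(stdGaussian E) + 2 * δ' := by
      rw [integral_add hi1 (integrable_const _)]; simp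
    rw [← this]
    exact integral_mono hi2 (hi1.add (integrable_const _)) hcmp2
  have hFs : ∑ t ∈ Finset.range n, (s * F t + ∫ x, |e (t + 1) x - e t x| ∂(stdGaussian E))
      ≤ ∑ t ∈ Finset.range n, (F t + ∫ x, |e (t + 1) x - e t x| ∂(stdGaussian E)) := by
    apply Finset.sum_le_sum
    intro t ht
    have h0 := (hF t (Finset.mem_range.mp ht)).nonneg
    nlinarith
  have hexp := Real.exp_pos (1 / 2 : ℝ)
  have h10 := mul_le_mul_of_nonneg_left hint hε.le
  have h11 := mul_le_mul_of_nonneg_left hFs hexp.le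
  have h12 : ε * (2 * δ') ≤ δ := by rw [hδ']; nlinarith
  rw [mul_add] at h10
  linarith

end Vale.Agent.P262.H967
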