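import Vale.Agent.P262.H967.Hm1
import Vale.Agent.P262.H967.Supp2

/-!
# P262, milestone 2, block HMOM0, part 3: a small mass with a linear weight, labelwise

`int_charge`: if `f ≤ 1` has mean at most `η` at the labels of a region where the body has mass at
least `3/4`, then the integral of `f (1 + |<b, x>|)` is at most `8 η^(1/2)` times the integral of
`1_K (1 + |<b, x>|)`.
-/

set_option linter.all false

open MeasureTheory Set Filter ProbabilityTheory
open scoped ENNReal NNReal Topology RealInnerProductSpace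

namespace Vale.Agent.P262.H967

open Vale.Agent.P262.H395

variable {E : Type*} [NormedAddCommGroup E] [InnerProductSpace ℝ E] [FiniteDimensional ℝ E]
  [MeasurableSpace E] [BorelSpace E]

lemma inner_mix (W : Submodule ℝ E) (b x z : E) :
    ⟪b, mix W x z⟫ = ⟪b, W.starProjection x⟫ + ⟪b - W.starProjection b, z⟫ := by
  have h1 : ⟪b, W.starProjection z⟫ = ⟪W.starProjection b, z⟫ := by
    rw [← Submodule.inner_starProjection_left_eq_right]
  unfold mix
  rw [inner_add_right, inner_sub_right, h1, inner_sub_left]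

lemma norm_sub_proj_le (W : Submodule ℝ E) {b : E} (hb : ‖b‖ ≤ 1) :
    ‖b - W.starProjection b‖ ≤ 1 := by
  have h1 : b - W.starProjection b = Wᗮ.starProjection b := by
    rw [Submodule.starProjection_orthogonal']
    simp
  rw [h1]
  exact (Submodule.norm_starProjection_apply_le _ _).trans hb

lemma gw_mix_le (W : Submodule ℝ E) (b x z : E) : gw b (mix W x z) ≤
    gw b (W.starProjection x) + ENNReal.ofReal |⟪b - W.starProjection b, z⟫| := by
  unfold gw
  rw [← ENNReal.ofReal_add (by positivity) (abs_nonneg _)]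
  refine ENNReal.ofReal_le_ofReal ?_
  rw [inner_mix]
  have := abs_add_le ⟪b, W.starProjection x⟫ ⟪b - W.starProjection b, z⟫
  linarith

lemma gw_proj_le (W : Submodule ℝ E) (b x z : E) : gw b (W.starProjection x) ≤
    gw b (mix W x z) + ENNReal.ofReal |⟪b - W.starProjection b, z⟫| := by
  unfold gw
  rw [← ENNReal.ofReal_add (by positivity) (abs_nonneg _)]
  refine ENNReal.ofReal_le_ofReal ?_
  rw [inner_mix]
  have h := abs_sub_abs_le_abs_sub ⟪b, W.starProjection x⟫ (-⟪b - W.starProjection b, z⟫)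
  rw [abs_neg, sub_neg_eq_add] at h
  linarith

lemma one_le_gw (b x : E) : 1 ≤ gw b x := by
  unfold gw
  rw [← ENNReal.ofReal_one]
  refine ENNReal.ofReal_le_ofReal ?_
  have := abs_nonneg ⟪b, x⟫
  linarith

/-- second moment -/
lemma lint_sq {c : E} (hc : ‖c‖ ≤ 1) :
    ∫⁻ z, ENNReal.ofReal |⟪c, z⟫| ^ (2 : ℝ) ∂(stdGaussian E) ≤ 1 := by
  have e : ∀ z : E, ENNReal.ofReal |⟪c, z⟫| ^ (2 : ℝ) = ENNReal.ofReal (⟪c, z⟫ ^ 2) := by
    intro z
    rw [ENNReal.ofReal_rpow_of_nonneg (abs_nonneg _) (by norm_num)]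
    congr 1
    rw [Real.rpow_two, sq_abs]
  simp_rw [e]
  rw [← ofReal_integral_eq_lintegral_ofReal (integrable_inner_sq c)
    (Filter.Eventually.of_forall fun z => by positivity), integral_inner_sq]
  rw [ENNReal.ofReal_le_one]
  have := norm_nonneg c
  nlinarith

/-- first moment -/
lemma lint_abs {c : E} (hc : ‖c‖ ≤ 1) :
    ∫⁻ z, ENNReal.ofReal |⟪c, z⟫| ∂(stdGaussian E) ≤ 1 := by
  have h := ENNReal.lintegral_mul_le_Lp_mul_Lq (stdGaussian E) (p := 2) (q := 2)
    (by constructor <;> norm_num) (f := fun z => ENNReal.ofReal |⟪c, z⟫|) (g := fun _ => 1)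
    (by fun_prop) aemeasurable_const
  simp only [Pi.mul_apply, mul_one, ENNReal.one_rpow, lintegral_const, measure_univ] at h
  refine h.trans ?_
  calc (∫⁻ z, ENNReal.ofReal |⟪c, z⟫| ^ (2 : ℝ) ∂(stdGaussian E)) ^ (1 / 2 : ℝ)
      ≤ 1 ^ (1 / 2 : ℝ) := ENNReal.rpow_le_rpow (lint_sq hc) (by norm_num)
    _ = 1 := ENNReal.one_rpow _

/-- a function bounded by one against a linear weight -/
theorem fib_gw_le {W : Submodule ℝ E} {f : E → ℝ≥0∞} (hf : Measurable f) (hf1 : ∀ y, f y ≤ 1)
    {b : E} (hb1 : ‖b‖ ≤ 1) (x : E) :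
    fib W (fun y => f y * gw b y) x ≤
      2 * (fib W f x) ^ (1 / 2 : ℝ) * gw b (W.starProjection x) := by
  set c := b - W.starProjection b with hc
  have hc1 : ‖c‖ ≤ 1 := norm_sub_proj_le W hb1
  have hfm : Measurable fun z => f (mix W x z) := hf.comp (measurable_mix_right W x)
  have hF1 : fib W f x ≤ 1 := fib_le_one hf1 x
  have h1 : fib W (fun y => f y * gw b y) x ≤
      ∫⁻ z, (f (mix W x z) * gw b (W.starProjection x) +
        f (mix W x z) * ENNReal.ofReal |⟪c, z⟫|) ∂(stdGaussian E) := by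
    unfold fib
    refine lintegral_mono fun z => ?_
    rw [← mul_add]
    exact mul_le_mul' le_rfl (gw_mix_le W b x z)
  rw [lintegral_add_left (hfm.mul_const _), lintegral_mul_const _ hfm] at h1
  have h2 : ∫⁻ z, f (mix W x z) * ENNReal.ofReal |⟪c, z⟫| ∂(stdGaussian E) ≤
      (fib W f x) ^ (1 / 2 : ℝ) := by
    have h := ENNReal.lintegral_mul_le_Lp_mul_Lq (stdGaussian E) (p := 2) (q := 2)
      (by constructor <;> norm_num) (f := fun z => f (mix W x z))
      (g := fun z => ENNReal.ofReal |⟪c, z⟫|) hfm.aemeasurable (by fun_prop)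
    refine (le_trans (le_of_eq rfl) h).trans ?_
    have h3 : (∫⁻ z, f (mix W x z) ^ (2 : ℝ) ∂(stdGaussian E)) ≤ fib W f x := by
      unfold fib
      refine lintegral_mono fun z => ?_
      calc f (mix W x z) ^ (2 : ℝ) = f (mix W x z) * f (mix W x z) := by
            rw [ENNReal.rpow_two, sq]
        _ ≤ f (mix W x z) * 1 := mul_le_mul' le_rfl (hf1 _)
        _ = _ := mul_one _
    calc (∫⁻ z, f (mix W x z) ^ (2 : ℝ) ∂(stdGaussian E)) ^ (1 / 2 : ℝ) *
          (∫⁻ z, ENNReal.ofReal |⟪c, z⟫| ^ (2 : ℝ) ∂(stdGaussian E)) ^ (1 / 2 : ℝ)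
        ≤ (fib W f x) ^ (1 / 2 : ℝ) * 1 ^ (1 / 2 : ℝ) :=
          mul_le_mul' (ENNReal.rpow_le_rpow h3 (by norm_num))
            (ENNReal.rpow_le_rpow (lint_sq hc1) (by norm_num))
      _ = _ := by rw [ENNReal.one_rpow, mul_one]
  have h3 : fib W f x ≤ (fib W f x) ^ (1 / 2 : ℝ) := by
    calc fib W f x = fib W f x ^ (1 : ℝ) := (ENNReal.rpow_one _).symm
      _ ≤ _ := ENNReal.rpow_le_rpow_of_exponent_ge hF1 (by norm_num)
  have hg := one_le_gw b (W.starProjection x)
  calc fib W (fun y => f y * gw b y) x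
      ≤ fib W f x * gw b (W.starProjection x) + (fib W f x) ^ (1 / 2 : ℝ) :=
        h1.trans (add_le_add le_rfl h2)
    _ ≤ (fib W f x) ^ (1 / 2 : ℝ) * gw b (W.starProjection x) +
        (fib W f x) ^ (1 / 2 : ℝ) * gw b (W.starProjection x) := by
        refine add_le_add (mul_le_mul' h3 le_rfl) ?_
        calc (fib W f x) ^ (1 / 2 : ℝ) = (fib W f x) ^ (1 / 2 : ℝ) * 1 := (mul_one _).symm
          _ ≤ _ := mul_le_mul' le_rfl hg
    _ = _ := by ring

/-- the weight of the label is seen on the body -/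
theorem gw_le_fib {W : Submodule ℝ E} {K : Set E} (hK : MeasurableSet K) {b : E} (hb1 : ‖b‖ ≤ 1)
    {x : E} (h : ENNReal.ofReal (3 / 4) ≤ fib W (K.indicator 1) x) :
    gw b (W.starProjection x) ≤ 4 * fib W (K.indicator (gw b)) x := by
  set c := b - W.starProjection b with hc
  have hc1 : ‖c‖ ≤ 1 := norm_sub_proj_le W hb1
  set X := fib W (K.indicator (gw b)) x with hX
  have hP : fib W (K.indicator 1) x ≤ X := by
    refine fib_mono (fun y => indicator_le_indicator ?_) x
    exact one_le_gw b y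
  have h1 : fib W (K.indicator 1) x * gw b (W.starProjection x) ≤ X + 1 := by
    have hm : Measurable fun z => K.indicator (1 : E → ℝ≥0∞) (mix W x z) :=
      (measurable_one.indicator hK).comp (measurable_mix_right W x)
    unfold fib
    rw [← lintegral_mul_const _ hm]
    calc ∫⁻ z, K.indicator (1 : E → ℝ≥0∞) (mix W x z) * gw b (W.starProjection x)
          ∂(stdGaussian E)
        ≤ ∫⁻ z, (K.indicator (gw b) (mix W x z) + ENNReal.ofReal |⟪c, z⟫|)
          ∂(stdGaussian E) := by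
          refine lintegral_mono fun z => ?_
          by_cases hz : mix W x z ∈ K
          · simp only []
            rw [indicator_of_mem hz, indicator_of_mem hz, Pi.one_apply, one_mul]
            exact gw_proj_le W b x z
          · simp only []
            rw [indicator_of_notMem hz, zero_mul]
            exact bot_le
      _ = X + ∫⁻ z, ENNReal.ofReal |⟪c, z⟫| ∂(stdGaussian E) := by
          rw [lintegral_add_right _ (by fun_prop)]
          rfl
      _ ≤ X + 1 := add_le_add le_rfl (lint_abs hc1)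
  have h2 : (1 : ℝ≥0∞) ≤ ENNReal.ofReal (4 / 3) * X := by
    calc (1 : ℝ≥0∞) = ENNReal.ofReal (4 / 3) * ENNReal.ofReal (3 / 4) := by
          rw [← ENNReal.ofReal_mul (by norm_num)]; norm_num
      _ ≤ _ := mul_le_mul' le_rfl (h.trans hP)
  have h3 : ENNReal.ofReal (3 / 4) * gw b (W.starProjection x) ≤ ENNReal.ofReal (7 / 3) * X := by
    calc ENNReal.ofReal (3 / 4) * gw b (W.starProjection x)
        ≤ fib W (K.indicator 1) x * gw b (W.starProjection x) := mul_le_mul' h le_rfl
      _ ≤ X + 1 := h1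
      _ ≤ X + ENNReal.ofReal (4 / 3) * X := add_le_add le_rfl h2
      _ = ENNReal.ofReal (7 / 3) * X := by
          rw [show (7 / 3 : ℝ) = 1 + 4 / 3 by norm_num, ENNReal.ofReal_add (by norm_num)
            (by norm_num), ENNReal.ofReal_one]
          ring
  calc gw b (W.starProjection x)
      = ENNReal.ofReal (4 / 3) * (ENNReal.ofReal (3 / 4) * gw b (W.starProjection x)) := by
        rw [← mul_assoc, ← ENNReal.ofReal_mul (by norm_num)]; norm_num
    _ ≤ ENNReal.ofReal (4 / 3) * (ENNReal.ofReal (7 / 3) * X) := mul_le_mul' le_rfl h3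
    _ = ENNReal.ofReal (28 / 9) * X := by
        rw [← mul_assoc, ← ENNReal.ofReal_mul (by norm_num)]; norm_num
    _ ≤ ENNReal.ofReal 4 * X := by gcongr; norm_num
    _ = _ := by norm_num

/-- **labelwise charge** -/
theorem fib_charge {W : Submodule ℝ E} {f : E → ℝ≥0∞} (hf : Measurable f) (hf1 : ∀ y, f y ≤ 1)
    {K : Set E} (hK : MeasurableSet K) {b : E} (hb1 : ‖b‖ ≤ 1) {x : E} {η : ℝ≥0∞}
    (h1 : fib W f x ≤ η) (h2 : ENNReal.ofReal (3 / 4) ≤ fib W (K.indicator 1) x) :
    fib W (fun y => f y * gw b y) x ≤ 8 * η ^ (1 / 2 : ℝ) * fib W (K.indicator (gw b)) x := by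
  calc fib W (fun y => f y * gw b y) x
      ≤ 2 * (fib W f x) ^ (1 / 2 : ℝ) * gw b (W.starProjection x) := fib_gw_le hf hf1 hb1 x
    _ ≤ 2 * η ^ (1 / 2 : ℝ) * (4 * fib W (K.indicator (gw b)) x) :=
        mul_le_mul' (mul_le_mul' le_rfl (ENNReal.rpow_le_rpow h1 (by norm_num)))
          (gw_le_fib hK hb1 h2)
    _ = _ := by ring

/-- **integrated charge**: `G` and `η` label functions -/
theorem int_charge {W : Submodule ℝ E} {G η f : E → ℝ≥0∞} (hG : Inv W G) (hGm : Measurable G)
    (hη : Inv W η) (hηm : Measurable η) (hf : Measurable f) (hf1 : ∀ y, f y ≤ 1)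
    {K : Set E} (hK : MeasurableSet K) {b : E} (hb1 : ‖b‖ ≤ 1)
    (h1 : ∀ x, G x ≠ 0 → fib W f x ≤ η x)
    (h2 : ∀ x, G x ≠ 0 → ENNReal.ofReal (3 / 4) ≤ fib W (K.indicator 1) x) :
    ∫⁻ x, G x * (f x * gw b x) ∂(stdGaussian E) ≤
      8 * ∫⁻ x, G x * (η x ^ (1 / 2 : ℝ) * K.indicator (gw b) x) ∂(stdGaussian E) := by
  have hgm := measurable_gw b
  have hKg : Measurable (K.indicator (gw b)) := hgm.indicator hK
  have hηr : Inv W fun x => η x ^ (1 / 2 : ℝ) := fun x w hw => by simp only [hη x w hw]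
  have hηrm : Measurable fun x => η x ^ (1 / 2 : ℝ) := hηm.pow_const _
  have e1 : ∫⁻ x, G x * (f x * gw b x) ∂(stdGaussian E) =
      ∫⁻ x, G x * fib W (fun y => f y * gw b y) x ∂(stdGaussian E) := by
    rw [← lintegral_fib (W := W) (f := fun x => G x * (f x * gw b x)) (hGm.mul (hf.mul hgm))]
    exact lintegral_congr fun x => fib_mul hG (hf.mul hgm) x
  have e2 : ∫⁻ x, G x * (η x ^ (1 / 2 : ℝ) * K.indicator (gw b) x) ∂(stdGaussian E) =
      ∫⁻ x, G x * (η x ^ (1 / 2 : ℝ) * fib W (K.indicator (gw b)) x) ∂(stdGaussian E) := by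
    rw [← lintegral_fib (W := W) (f := fun x => G x * (η x ^ (1 / 2 : ℝ) * K.indicator (gw b) x))
      (hGm.mul (hηrm.mul hKg))]
    refine lintegral_congr fun x => ?_
    have h3 : (fun x => G x * (η x ^ (1 / 2 : ℝ) * K.indicator (gw b) x)) =
        fun x => (G x * η x ^ (1 / 2 : ℝ)) * K.indicator (gw b) x := by
      funext y; ring
    rw [h3, fib_mul (hG.mul hηr) hKg]
    ring
  have hm3 : Measurable fun x => G x * (η x ^ (1 / 2 : ℝ) * fib W (K.indicator (gw b)) x) :=
    hGm.mul (hηrm.mul (measurable_fib hKg))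
  rw [e1, e2, ← lintegral_const_mul _ hm3]
  refine lintegral_mono fun x => ?_
  by_cases hx : G x = 0
  · simp [hx]
  · calc G x * fib W (fun y => f y * gw b y) x
        ≤ G x * (8 * η x ^ (1 / 2 : ℝ) * fib W (K.indicator (gw b)) x) :=
          mul_le_mul' le_rfl (fib_charge hf hf1 hK hb1 (h1 x hx) (h2 x hx))
      _ = _ := by ring

end Vale.Agent.P262.H967
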