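import Vale.Agent.P262.H967.Hm2
import Vale.Agent.P262.H967.Hm3
import Vale.Agent.P262.H431.Thr10
import Vale.Agent.P262.M2.Price
import Vale.Agent.P262.M2.Close

/-!
# P262, milestone 2, block HMOM0, part 4: the hidden part of a node below a label of class 0

`charge_sys`: the weighted tip inequality on the system.
`Uh p s m b`: integral of the hidden part of the node `s` with the weight `1 + |<b, x>|` over the
labels of class 0 of the node `p`.
-/

set_option linter.all false

open MeasureTheory ProbabilityTheory Set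
open scoped ENNReal NNReal RealInnerProductSpace
open Vale.Agent.P262.H395 (fib mix Inv Fixes measurable_fib fib_mono fib_mul lintegral_mul_fixes)
open Vale.Agent.P262.H395.CW (pl nk nk_nil nk_cons OMp OMc Lab SI)
open Vale.Agent.P262.H962 (capS measurable_capS)
open Vale.Agent.P262.H44 (InvS)
open Vale.Agent.P262.H439 (qq)
open Vale.Agent.P262.Cons493 (cCons)
open Vale.Agent.P262.H654 (tr phi fr Bd)
open Vale.Agent.P262.H847 (UI)

namespace Vale.Agent.P262.H967

open Vale.Agent.P262.M2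
open Vale.Agent.P262.M2.Sys
open Vale.Agent.P262.H431 (ThrC)

variable {E : Type*} [NormedAddCommGroup E] [InnerProductSpace ℝ E] [FiniteDimensional ℝ E]
  [MeasurableSpace E] [BorelSpace E] {S : Sys E}

lemma exp_small {q : ℝ} (hq : 100 ≤ q) : 2 * (Real.sqrt 2 * Real.exp (-(q / 4))) ≤ 1 / 41 := by
  have h1 : Real.sqrt 2 ≤ 2 := by
    rw [Real.sqrt_le_left (by norm_num)]; norm_num
  have h2 : Real.exp (-(q / 4)) ≤ 1 / 200 := by
    have h3 : Real.exp (-(q / 4)) ≤ Real.exp (-8) := Real.exp_le_exp.mpr (by linarith)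
    refine h3.trans ?_
    rw [Real.exp_neg, inv_eq_one_div]
    apply one_div_le_one_div_of_le (by norm_num)
    have h4 : (2 : ℝ) ^ 8 ≤ Real.exp 8 := by
      have h5 : (2 : ℝ) ≤ Real.exp 1 := by
        have := Real.add_one_le_exp (1 : ℝ); linarith
      calc (2 : ℝ) ^ 8 ≤ Real.exp 1 ^ 8 := pow_le_pow_left₀ (by norm_num) h5 8
        _ = Real.exp 8 := by rw [← Real.exp_nat_mul]; norm_num
    exact le_trans (by norm_num) h4
  have h6 := Real.exp_pos (-(q / 4))
  have h7 : Real.sqrt 2 * Real.exp (-(q / 4)) ≤ 2 * (1 / 200) :=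
    mul_le_mul h1 h2 h6.le (by norm_num)
  linarith

/-- **weighted tip inequality on the system** -/
theorem charge_sys (H : ThrC S) {m : ℕ} (hroot : ∀ x, S.kl [] m x ≠ 0) (hm : S.mv.tm m < S.T)
    {p : List ℕ} (z : List ℕ) (hSI : SI (fun r => S.W r m) (z ++ p)) {b : E} (hb1 : ‖b‖ ≤ 1)
    (hbp : b ∈ (S.W p m)ᗮ) :
    ∫⁻ x, (S.Rg p 0 m).indicator 1 x *
        (S.X (z ++ p) m).indicator (fun x => S.As S.th (z ++ p) m x * gw b x) x ∂stdGaussian E ≤
      ENNReal.ofReal (23 * cCons *
        (S.kap ^ (Module.finrank ℝ (S.W (z ++ p) m) - Module.finrank ℝ (S.W p m))) ^ S.th) *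
      ∫⁻ x, (S.Rg p 0 m).indicator 1 x *
        ({x | ENNReal.ofReal (Real.exp (-1418)) ≤ S.q p m x}.indicator (S.As S.th p m) x)
        ∂stdGaussian E := by
  have hsuf : p <:+ z ++ p := List.suffix_append z p
  have hself : ∀ s, S.In (S.K.B s 0) m m := fun s => In.self_c (zero_B_c (S := S) s 0) hm
  have hfib : ∀ s, s <:+ p → ∀ x, fib (S.W s m) ((S.X (z ++ p) m)ᶜ.indicator 1) x = S.De s m x :=
    fun s hs x =>
      S.mv.fib_Bd_compl (fun t => M1.measurableSet_body S.v S.R t) m (hs.trans hsuf) x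
  have hqK : ∀ x, qq (S.W p m) (S.X (z ++ p) m) x = S.q p m x := fun x =>
    S.mv.fib_Bd (fun t => M1.measurableSet_body S.v S.R t) m hsuf x
  have h := cons_zero_s (W := fun r => S.W r m) (cls := fun r => S.kl r m)
    (om := fun r => S.om r m) (p := p) (A0 := S.A0) (kap := S.kap) (q := S.qq) (th := S.th)
    (b0 := ENNReal.ofReal S.b0) z (W_nil_c m) hSI (lab_c hm) S.hqq.le (exp_small H.qq) S.hth.le
    H.th S.hA0 S.hkap H.kap
    (ENNReal.ofReal_le_ofReal S.hAb) ENNReal.ofReal_ne_top (K := S.X (z ++ p) m)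
    (S.mv.isClosed_Bd (fun t => M1.isClosed_body S.v S.R t) _ _)
    (S.mv.convex_Bd (fun t => M1.convex_body S.v S.R t) _ _)
    (S.mv.Bd_subset_ball (fun t => M1.body_subset S.v S.R t) _ _) hroot
    (fun r _ x hx => by
      have h := A_le_b0_c (S := S) (p := r) (m := m) (x := x) hx.1
      rw [mem_setOf_eq, pl_eq_chn_c]
      exact h)
    (fun r _ x h0 hx => by
      rw [nk_eq_c] at hx
      exact om_of_zero_c h0 hx)
    (fun r hr x h0 hx => by
      rw [hfib r hr x]
      exact (good_of_pos_c h0 (hself r)).trans (ENNReal.ofReal_le_ofReal (by norm_num)))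
    hb1 hbp
  rw [pl_eq_chn_c, pl_eq_chn_c] at h
  simp only [hqK] at h
  exact h

/-! ### the hidden part of a node -/

/-- hidden part of the node `s` -/
noncomputable def hu (S : Sys E) (s : List ℕ) (m : ℕ) (x : E) : ℝ≥0∞ :=
  ENNReal.ofReal |S.pf s m x - S.fup s m x|

/-- killed at the own level -/
lemma pt_killed {c : ℕ} {s : List ℕ} {m : ℕ} {x : E} (h1 : x ∈ S.Z (c :: s) m)
    (h2 : x ∉ S.Z s m) : hu S (c :: s) m x ≤ (S.X (c :: s) m).indicator
      (fun x => ENNReal.ofReal (S.b0 ^ (-S.th)) * S.As S.th (c :: s) m x) x := by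
  have hb0 := S.b0_pos_f
  have hth := S.hth
  unfold hu Sys.fup
  rw [if_pos h1]
  by_cases hx : x ∈ S.X (c :: s) m
  · rw [S.pf_mem hx, indicator_of_mem hx]
    have h3 : ENNReal.ofReal S.b0 ≤ S.A (c :: s) m x := by
      rw [Sys.Z, mem_union] at h1
      rcases h1 with h1 | h1
      · exact absurd h1 h2
      · exact le_of_lt h1
    have h4 : ENNReal.ofReal (S.b0 ^ S.th) ≤ S.As S.th (c :: s) m x := by
      rw [← S.A_rpow hth.le, ← ENNReal.ofReal_rpow_of_pos hb0]
      exact ENNReal.rpow_le_rpow h3 hth.le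
    calc ENNReal.ofReal |0 - 1| = ENNReal.ofReal (S.b0 ^ (-S.th)) * ENNReal.ofReal (S.b0 ^ S.th) := by
          rw [← ENNReal.ofReal_mul (Real.rpow_nonneg hb0.le _), ← Real.rpow_add hb0]
          simp
      _ ≤ _ := mul_le_mul' le_rfl h4
  · rw [S.pf_notMem hx]
    simp

/-- not killed -/
lemma pt_unkilled {s : List ℕ} {m : ℕ} (hm : m ≤ S.mT) {x : E} (h1 : x ∉ S.Z s m) :
    hu S s m x ≤ ENNReal.ofReal (1 - phi (S.cf m s x) (S.Fr s m x)) * ENNReal.ofReal (S.fld s m x)
      + ENNReal.ofReal |S.pf s m x - S.fld s m x| := by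
  have hL := S.labOK hm
  have hcf := S.cf_nonneg m s x
  have hcf2 : S.cf m s x ≤ 1 / 16 := (S.cf_le h1).trans S.cc_le'
  have hF := (hL.Fr_UI (p := s)).nonneg x
  have hφ := H654.phi_le_one hcf hcf2 hF
  have hf := (hL.fld_UI (p := s)).nonneg x
  unfold hu Sys.fup
  rw [if_neg h1, ← ENNReal.ofReal_mul (by linarith), ← ENNReal.ofReal_add
    (mul_nonneg (by linarith) hf) (abs_nonneg _)]
  apply ENNReal.ofReal_le_ofReal
  have e : S.pf s m x - phi (S.cf m s x) (S.Fr s m x) * S.fld s m x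
      = (1 - phi (S.cf m s x) (S.Fr s m x)) * S.fld s m x + (S.pf s m x - S.fld s m x) := by ring
  rw [e]
  refine (abs_add_le _ _).trans (le_of_eq ?_)
  rw [abs_of_nonneg (mul_nonneg (by linarith) hf)]

lemma Fr_inv (s : List ℕ) (m : ℕ) (x : E) {w : E} (hw : w ∈ (S.W s m)ᗮ) :
    S.Fr s m (x + w) = S.Fr s m x := H654.invR_fr _ _ x w hw

lemma cf_inv (s : List ℕ) (m : ℕ) (x : E) {w : E} (hw : w ∈ (S.W s m)ᗮ) :
    S.cf m s (x + w) = S.cf m s x := by
  unfold Sys.cf
  rw [S.A_inv s m x w hw]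

lemma measurable_cf (s : List ℕ) (m : ℕ) : Measurable (S.cf m s) :=
  ((S.A_meas s m).ennreal_toReal).const_mul _

/-- the truncated part has mean at most the cut-off -/
lemma fib_trunc {s : List ℕ} {m : ℕ} (hm : m ≤ S.mT) {x : E} (h1 : x ∉ S.Z s m) :
    fib (S.W s m) (fun y => ENNReal.ofReal (1 - phi (S.cf m s y) (S.Fr s m y)) *
      ENNReal.ofReal (S.fld s m y)) x ≤ ENNReal.ofReal (S.cf m s x) := by
  have hL := S.labOK hm
  have hcf := S.cf_nonneg m s x
  have hcf2 : S.cf m s x ≤ 1 / 16 := (S.cf_le h1).trans S.cc_le'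
  have hF := (hL.Fr_UI (p := s)).nonneg x
  have hφ := H654.phi_le_one hcf hcf2 hF
  have hinv : Inv (S.W s m) fun y => ENNReal.ofReal (1 - phi (S.cf m s y) (S.Fr s m y)) := by
    intro y w hw
    simp only []
    rw [Fr_inv s m y hw, cf_inv s m y hw]
  rw [fib_mul hinv (hL.fld_UI.meas.ennreal_ofReal)]
  have h3 : fib (S.W s m) (fun y => ENNReal.ofReal (S.fld s m y)) x
      = ENNReal.ofReal (S.Fr s m x) :=
    (H654.ofReal_fr (Bd.of_UI hL.fld_UI) hL.fld_UI.nonneg x).symm
  rw [h3, ← ENNReal.ofReal_mul (by linarith)]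
  apply ENNReal.ofReal_le_ofReal
  have h4 := H654.sub_tr_le hcf hcf2 hF
  have h5 := H654.phi_mul hcf hF (c := S.cf m s x) (y := S.Fr s m x)
  linarith

lemma q_of_De {s : List ℕ} {m : ℕ} {x : E} (h : S.De s m x ≤ ENNReal.ofReal (1 / 4)) :
    ENNReal.ofReal (3 / 4) ≤ fib (S.W s m) ((S.X s m).indicator 1) x := by
  have h1 := S.De_add_q s m x
  change _ ≤ S.q s m x
  by_contra h2
  rw [not_le] at h2
  have h3 : S.De s m x + S.q s m x < ENNReal.ofReal (1 / 4) + ENNReal.ofReal (3 / 4) :=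
    ENNReal.add_lt_add_of_le_of_lt (ne_top_of_le_ne_top ENNReal.ofReal_ne_top h) h h2
  rw [h1, ← ENNReal.ofReal_add (by norm_num) (by norm_num)] at h3
  norm_num at h3

lemma A_half {s : List ℕ} {m : ℕ} (hth : S.th ≤ 1 / 2) {x : E} (h1 : x ∉ S.Z s m) :
    S.A s m x ^ (1 / 2 : ℝ) ≤ S.As S.th s m x := by
  rw [← S.A_rpow S.hth.le]
  refine ENNReal.rpow_le_rpow_of_exponent_ge ?_ hth
  refine (A_le_b0_c h1).trans ?_
  rw [← ENNReal.ofReal_one]
  exact ENNReal.ofReal_le_ofReal (by linarith [b0_c (S := S)])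

/-! ### the integral -/

/-- hidden part of the node `c :: s`, weighted, over the labels of class `0` of `p` which are not
killed at the level of `s` -/
noncomputable def Uh (S : Sys E) (p : List ℕ) (c : ℕ) (s : List ℕ) (m : ℕ) (b : E) : ℝ≥0∞ :=
  ∫⁻ x, (S.Rg p 0 m).indicator 1 x * ((S.Z s m)ᶜ.indicator 1 x * (hu S (c :: s) m x * gw b x))
    ∂stdGaussian E

lemma inv_Rg {p : List ℕ} {m : ℕ} (hm : S.mv.tm m < S.T) (hW : SI (fun r => S.W r m) p) :
    Inv (S.W p m) ((S.Rg p 0 m).indicator (1 : E → ℝ≥0∞)) :=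
  H395.CW.inv_ind ((lab_c (S := S) (p := p) hm).inv_c hW 0)

lemma inv_ind_of {V : Submodule ℝ E} {B : Set E} (h : ∀ x, ∀ w ∈ Vᗮ, x ∈ B → x + w ∈ B) :
    Inv V (B.indicator (1 : E → ℝ≥0∞)) := by
  refine H395.CW.inv_ind fun x w hw => ⟨fun h1 => ?_, h x w hw⟩
  have h2 := h (x + w) (-w) (Submodule.neg_mem _ hw) h1
  simpa using h2

lemma lint_add4 {g1 g2 g3 g4 : E → ℝ≥0∞} (h1 : Measurable g1) (h2 : Measurable g2)
    (h3 : Measurable g3) : (∫⁻ x, g1 x ∂stdGaussian E) + (∫⁻ x, g2 x ∂stdGaussian E) +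
      (∫⁻ x, g3 x ∂stdGaussian E) + (∫⁻ x, g4 x ∂stdGaussian E)
      = ∫⁻ x, (g1 x + g2 x + g3 x + g4 x) ∂stdGaussian E := by
  have a1 : (∫⁻ x, (g1 x + g2 x + g3 x + g4 x) ∂stdGaussian E)
      = (∫⁻ x, (g1 x + g2 x + g3 x) ∂stdGaussian E) + ∫⁻ x, g4 x ∂stdGaussian E :=
    lintegral_add_left ((h1.add h2).add h3) _
  have a2 : (∫⁻ x, (g1 x + g2 x + g3 x) ∂stdGaussian E)
      = (∫⁻ x, (g1 x + g2 x) ∂stdGaussian E) + ∫⁻ x, g3 x ∂stdGaussian E :=
    lintegral_add_left (h1.add h2) _
  rw [a1, a2, lintegral_add_left h1]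

/-- constant of one level -/
noncomputable def Kc (S : Sys E) : ℝ := S.b0 ^ (-S.th) + 8 * Real.sqrt (S.M + 1) + 8

/-- **one level** -/
theorem Uh_step (H : ThrC S) (hk : S.kp 1 ≤ 1 / 2) (hA : 16 * (S.M + 1) * S.kp 1 ≤ 1)
    {m : ℕ} (hm : m ≤ S.mT) {p s : List ℕ} {c : ℕ} (hps : p <:+ s)
    (hSI : SI (fun r => S.W r m) (c :: s)) {b : E} (hb1 : ‖b‖ ≤ 1) :
    Uh S p c s m b ≤ ENNReal.ofReal (Kc S) * ∫⁻ x, (S.Rg p 0 m).indicator 1 x *
        (S.X (c :: s) m).indicator (fun x => S.As S.th (c :: s) m x * gw b x) x ∂stdGaussian E +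
      ∫⁻ x, (S.Rg p 0 m).indicator 1 x *
        ({x | x ∉ S.Z (c :: s) m ∧ S.kl (c :: s) m x = 0}.indicator 1 x *
          (ENNReal.ofReal |S.pf (c :: s) m x - S.fld (c :: s) m x| * gw b x)) ∂stdGaussian E := by
  classical
  have htm := S.tm_lt_f hm
  have hL := S.labOK hm
  have hε : 2 * (Real.sqrt 2 * Real.exp (-(S.qq / 4))) ≤ 1 / 2 :=
    (exp_small H.qq).trans (by norm_num)
  have hb0 := S.b0_pos_f
  have hM := S.hM
  set q := c :: s with hq
  have hpq : p <:+ q := hps.trans (List.suffix_cons c s)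
  set G : E → ℝ≥0∞ := (S.Rg p 0 m).indicator 1 with hG
  have hGi : Inv (S.W q m) G := (inv_Rg htm (hSI.suffix hpq)).mono (S.W_mono hpq m)
  have hGm : Measurable G := measurable_one.indicator (measurableSet_Rg_c htm)
  have hXm : MeasurableSet (S.X q m) := S.measurableSet_X q m
  have hZm : MeasurableSet (S.Z q m) := S.measurableSet_Z q m
  have hgm := measurable_gw b
  set J := ∫⁻ x, G x * (S.X q m).indicator (fun x => S.As S.th q m x * gw b x) x
    ∂stdGaussian E with hJ
  set f2 : E → ℝ≥0∞ := fun y => ENNReal.ofReal (1 - phi (S.cf m q y) (S.Fr q m y)) *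
      ENNReal.ofReal (S.fld q m y) with hf2
  set f2' : E → ℝ≥0∞ := (S.Z q m)ᶜ.indicator f2 with hf2'
  set f3 : E → ℝ≥0∞ := fun y => ENNReal.ofReal |S.pf q m y - S.fld q m y| with hf3
  have hFrm : Measurable (S.Fr q m) := (hL.Fr_UI (p := q)).meas
  have hf2m : Measurable f2 := by
    have h1 : Measurable fun y => phi (S.cf m q y) (S.Fr q m y) :=
      H654.measurable_phi (measurable_cf q m) hFrm
    exact ((measurable_const.sub h1).ennreal_ofReal).mul hL.fld_UI.meas.ennreal_ofReal
  have hf2m' : Measurable f2' := hf2m.indicator hZm.compl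
  have hf3m : Measurable f3 :=
    (((S.pf_UI q m).meas.sub hL.fld_UI.meas).abs).ennreal_ofReal
  have hf21 : ∀ y, f2' y ≤ 1 := by
    intro y
    by_cases hy : y ∈ S.Z q m
    · rw [hf2', indicator_of_notMem (not_not.mpr hy)]
      exact zero_le_one
    · rw [hf2', indicator_of_mem (show y ∈ (S.Z q m)ᶜ from hy), hf2]
      have hcf := S.cf_nonneg m q y
      have hcf2 : S.cf m q y ≤ 1 / 16 := (S.cf_le hy).trans S.cc_le'
      have hF := (hL.Fr_UI (p := q)).nonneg y
      have h1 := H654.phi_nonneg hcf hcf2 hF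
      have h2 := (hL.fld_UI (p := q)).le_one y
      calc ENNReal.ofReal (1 - phi (S.cf m q y) (S.Fr q m y)) * ENNReal.ofReal (S.fld q m y)
          ≤ 1 * 1 := mul_le_mul' (ENNReal.ofReal_le_one.mpr (by linarith))
            (ENNReal.ofReal_le_one.mpr h2)
        _ = 1 := one_mul _
  have hf31 : ∀ y, f3 y ≤ 1 := by
    intro y
    rw [hf3]
    have h1 := S.pf_UI q m
    have h2 := hL.fld_UI (p := q)
    refine ENNReal.ofReal_le_one.mpr (abs_le.mpr ⟨?_, ?_⟩)
    · linarith [h1.nonneg y, h2.le_one y]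
    · linarith [h1.le_one y, h2.nonneg y]
  set B2 : Set E := {x | x ∉ S.Z q m ∧ S.Fr q m x < 1 / 8} with hB2
  set B3 : Set E := {x | x ∉ S.Z q m ∧ S.kl q m x ≠ 0} with hB3
  set B4 : Set E := {x | x ∉ S.Z q m ∧ S.kl q m x = 0} with hB4
  have hkm : Measurable (S.kl q m) := hL.kl_meas
  have hB2m : MeasurableSet B2 := hZm.compl.inter (measurableSet_lt hFrm measurable_const)
  have hB3m : MeasurableSet B3 := hZm.compl.inter (hkm (measurableSet_singleton 0)).compl
  have hB4m : MeasurableSet B4 := hZm.compl.inter (hkm (measurableSet_singleton 0))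
  have hZi := S.Z_inv q m
  have hki := kl_inv (S := S) q htm
  have hB2i : Inv (S.W q m) (B2.indicator (1 : E → ℝ≥0∞)) := by
    refine inv_ind_of fun x w hw hx => ?_
    exact ⟨fun h => hx.1 ((hZi x w hw).mp h), by rw [Fr_inv q m x hw]; exact hx.2⟩
  have hB3i : Inv (S.W q m) (B3.indicator (1 : E → ℝ≥0∞)) := by
    refine inv_ind_of fun x w hw hx => ?_
    exact ⟨fun h => hx.1 ((hZi x w hw).mp h), by rw [hki x w hw]; exact hx.2⟩
  -- pointwise
  have hpt : ∀ x, (S.Z s m)ᶜ.indicator 1 x * (hu S q m x * gw b x) ≤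
      (S.X q m).indicator (fun x => ENNReal.ofReal (S.b0 ^ (-S.th)) * S.As S.th q m x) x * gw b x
      + B2.indicator 1 x * (f2' x * gw b x) + B3.indicator 1 x * (f3 x * gw b x)
      + B4.indicator 1 x * (f3 x * gw b x) := by
    intro x
    by_cases h1 : x ∈ S.Z s m
    · rw [indicator_of_notMem (not_not.mpr h1), zero_mul]
      exact bot_le
    rw [indicator_of_mem (show x ∈ (S.Z s m)ᶜ from h1), Pi.one_apply, one_mul]
    by_cases h2 : x ∈ S.Z q m
    · refine (mul_le_mul' (pt_killed h2 h1) le_rfl).trans ?_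
      rw [add_assoc, add_assoc]
      exact le_self_add
    have h3 : f2 x ≤ B2.indicator 1 x * f2' x := by
      by_cases h4 : S.Fr q m x < 1 / 8
      · rw [indicator_of_mem (show x ∈ B2 from ⟨h2, h4⟩), Pi.one_apply, one_mul, hf2',
          indicator_of_mem (show x ∈ (S.Z q m)ᶜ from h2)]
      · have h5 : phi (S.cf m q x) (S.Fr q m x) = 1 :=
          H654.phi_self ((S.cf_le h2).trans S.cc_le') (not_lt.mp h4)
        simp only [hf2]
        rw [h5, sub_self, ENNReal.ofReal_zero, zero_mul]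
        exact bot_le
    have h4 : f3 x ≤ B3.indicator 1 x * f3 x + B4.indicator 1 x * f3 x := by
      by_cases h5 : S.kl q m x = 0
      · rw [indicator_of_mem (show x ∈ B4 from ⟨h2, h5⟩), Pi.one_apply, one_mul]
        exact le_add_self
      · rw [indicator_of_mem (show x ∈ B3 from ⟨h2, h5⟩), Pi.one_apply, one_mul]
        exact le_self_add
    calc hu S q m x * gw b x ≤ (f2 x + f3 x) * gw b x := mul_le_mul' (pt_unkilled hm h2) le_rfl
      _ ≤ (B2.indicator 1 x * f2' x + (B3.indicator 1 x * f3 x + B4.indicator 1 x * f3 x)) *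
          gw b x := mul_le_mul' (add_le_add h3 h4) le_rfl
      _ = B2.indicator 1 x * (f2' x * gw b x) + B3.indicator 1 x * (f3 x * gw b x)
          + B4.indicator 1 x * (f3 x * gw b x) := by ring
      _ ≤ _ := by
          rw [add_assoc, add_assoc, add_assoc]
          exact le_add_self
  have hAsm : Measurable (S.As S.th q m) := S.As_meas _ _ _
  have hm1 : Measurable fun x => (S.X q m).indicator
      (fun x => ENNReal.ofReal (S.b0 ^ (-S.th)) * S.As S.th q m x) x :=
    (hAsm.const_mul _).indicator hXm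
  have hB2o : Measurable (B2.indicator (1 : E → ℝ≥0∞)) := measurable_one.indicator hB2m
  have hB3o : Measurable (B3.indicator (1 : E → ℝ≥0∞)) := measurable_one.indicator hB3m
  have hB4o : Measurable (B4.indicator (1 : E → ℝ≥0∞)) := measurable_one.indicator hB4m
  have hsplit : Uh S p c s m b ≤
      (∫⁻ x, G x * ((S.X q m).indicator
        (fun x => ENNReal.ofReal (S.b0 ^ (-S.th)) * S.As S.th q m x) x * gw b x) ∂stdGaussian E)
      + (∫⁻ x, G x * (B2.indicator 1 x * (f2' x * gw b x)) ∂stdGaussian E)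
      + (∫⁻ x, G x * (B3.indicator 1 x * (f3 x * gw b x)) ∂stdGaussian E)
      + (∫⁻ x, G x * (B4.indicator 1 x * (f3 x * gw b x)) ∂stdGaussian E) := by
    have m1 : Measurable fun x => G x * ((S.X q m).indicator
        (fun x => ENNReal.ofReal (S.b0 ^ (-S.th)) * S.As S.th q m x) x * gw b x) :=
      hGm.mul (hm1.mul hgm)
    have m2 : Measurable fun x => G x * (B2.indicator 1 x * (f2' x * gw b x)) :=
      hGm.mul (hB2o.mul (hf2m'.mul hgm))
    have m3 : Measurable fun x => G x * (B3.indicator 1 x * (f3 x * gw b x)) :=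
      hGm.mul (hB3o.mul (hf3m.mul hgm))
    rw [lint_add4 m1 m2 m3]
    refine lintegral_mono fun x => ?_
    simp only []
    rw [← mul_add, ← mul_add, ← mul_add]
    exact mul_le_mul' le_rfl (hpt x)
  refine hsplit.trans ?_
  refine add_le_add ?_ le_rfl
  -- killed at the own level
  have hT1 : (∫⁻ x, G x * ((S.X q m).indicator
      (fun x => ENNReal.ofReal (S.b0 ^ (-S.th)) * S.As S.th q m x) x * gw b x) ∂stdGaussian E)
      = ENNReal.ofReal (S.b0 ^ (-S.th)) * J := by
    rw [hJ, ← lintegral_const_mul' _ _ ENNReal.ofReal_ne_top]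
    refine lintegral_congr fun x => ?_
    by_cases hx : x ∈ S.X q m
    · rw [indicator_of_mem hx, indicator_of_mem hx]; ring
    · rw [indicator_of_notMem hx, indicator_of_notMem hx]; ring
  -- truncated
  have hT2 : (∫⁻ x, G x * (B2.indicator 1 x * (f2' x * gw b x)) ∂stdGaussian E)
      ≤ ENNReal.ofReal (8 * Real.sqrt (S.M + 1)) * J := by
    have hcfm : Measurable fun x => ENNReal.ofReal (S.cf m q x) :=
      (measurable_cf q m).ennreal_ofReal
    have h := int_charge (W := S.W q m) (G := fun x => G x * B2.indicator 1 x)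
      (η := fun x => ENNReal.ofReal (S.cf m q x)) (f := f2') (K := S.X q m)
      (hGi.mul hB2i) (hGm.mul hB2o) (fun x w hw => by
        simp only []; rw [cf_inv q m x hw]) hcfm hf2m' hf21 hXm hb1
      (fun x hx => by
        have h1 : x ∈ B2 := by
          by_contra h1
          rw [indicator_of_notMem h1, mul_zero] at hx
          exact hx rfl
        refine (fib_mono (fun y => ?_) x).trans (fib_trunc hm h1.1)
        exact indicator_le_self _ _ y)
      (fun x hx => by
        have h1 : x ∈ B2 := by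
          by_contra h1
          rw [indicator_of_notMem h1, mul_zero] at hx
          exact hx rfl
        refine q_of_De ?_
        refine (De_le_F hε hk hA hm h1.1).trans ?_
        have h2 : S.F q m x ≤ ENNReal.ofReal (1 / 8) := by
          rw [hL.F_eq]
          exact ENNReal.ofReal_le_ofReal h1.2.le
        have h3 : S.A q m x / 4 ≤ ENNReal.ofReal (1 / 8) := by
          have h4 := A_le_b0_c h1.1
          have h5 : S.A q m x ≤ ENNReal.ofReal (1 / 64) :=
            h4.trans (ENNReal.ofReal_le_ofReal (b0_c (S := S)))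
          calc S.A q m x / 4 ≤ S.A q m x := by
                refine ENNReal.div_le_of_le_mul ?_
                calc S.A q m x = S.A q m x * 1 := (mul_one _).symm
                  _ ≤ S.A q m x * 4 := mul_le_mul' le_rfl (by norm_num)
            _ ≤ _ := h5.trans (ENNReal.ofReal_le_ofReal (by norm_num))
        refine (add_le_add h2 h3).trans ?_
        rw [← ENNReal.ofReal_add (by norm_num) (by norm_num)]
        exact ENNReal.ofReal_le_ofReal (by norm_num))
    have e1 : (∫⁻ x, G x * (B2.indicator 1 x * (f2' x * gw b x)) ∂stdGaussian E)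
        = ∫⁻ x, (G x * B2.indicator 1 x) * (f2' x * gw b x) ∂stdGaussian E :=
      lintegral_congr fun x => by ring
    rw [e1]
    refine h.trans ?_
    rw [ENNReal.ofReal_mul (by norm_num), mul_assoc]
    refine mul_le_mul' (by norm_num) ?_
    rw [hJ, ← lintegral_const_mul' _ _ ENNReal.ofReal_ne_top]
    refine lintegral_mono fun x => ?_
    simp only []
    by_cases h1 : x ∈ B2
    swap
    · rw [indicator_of_notMem h1, mul_zero, zero_mul]
      exact bot_le
    rw [indicator_of_mem h1, Pi.one_apply, mul_one]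
    by_cases hx : x ∈ S.X q m
    swap
    · rw [indicator_of_notMem hx, indicator_of_notMem hx]
      simp
    rw [indicator_of_mem hx, indicator_of_mem hx]
    have h2 : ENNReal.ofReal (S.cf m q x) ^ (1 / 2 : ℝ)
        ≤ ENNReal.ofReal (Real.sqrt (S.M + 1)) * S.As S.th q m x := by
      rw [S.ofReal_cf, ENNReal.mul_rpow_of_nonneg _ _ (by norm_num)]
      refine mul_le_mul' (le_of_eq ?_) (A_half H.th h1.1)
      rw [Real.sqrt_eq_rpow, ENNReal.ofReal_rpow_of_nonneg (by linarith) (by norm_num)]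
    calc G x * (ENNReal.ofReal (S.cf m q x) ^ (1 / 2 : ℝ) * gw b x)
        ≤ G x * (ENNReal.ofReal (Real.sqrt (S.M + 1)) * S.As S.th q m x * gw b x) := by gcongr
      _ = _ := by ring
  -- class at least one
  have hT3 : (∫⁻ x, G x * (B3.indicator 1 x * (f3 x * gw b x)) ∂stdGaussian E)
      ≤ ENNReal.ofReal 8 * J := by
    have hAm : Measurable fun x => S.A q m x := S.A_meas q m
    have h := int_charge (W := S.W q m) (G := fun x => G x * B3.indicator 1 x)
      (η := fun x => S.A q m x) (f := f3) (K := S.X q m)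
      (hGi.mul hB3i) (hGm.mul hB3o) (S.A_inv q m) hAm hf3m hf31 hXm hb1
      (fun x hx => by
        have h1 : x ∈ B3 := by
          by_contra h1
          rw [indicator_of_notMem h1, mul_zero] at hx
          exact hx rfl
        have h2 := dst_close hε hk hA hm h1.1
        have e : (fun y => ENNReal.ofReal |S.fld q m y - S.pf q m y|) = f3 := by
          funext y
          rw [hf3]
          simp only []
          rw [abs_sub_comm]
        rw [e] at h2
        refine h2.trans ?_
        refine ENNReal.div_le_of_le_mul ?_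
        calc S.A q m x = S.A q m x * 1 := (mul_one _).symm
          _ ≤ S.A q m x * 4 := mul_le_mul' le_rfl (by norm_num))
      (fun x hx => by
        have h1 : x ∈ B3 := by
          by_contra h1
          rw [indicator_of_notMem h1, mul_zero] at hx
          exact hx rfl
        refine q_of_De ?_
        have hself : S.In (S.K.B q 0) m m := In.self_c (zero_B_c (S := S) q 0) htm
        exact (good_of_pos_c h1.2 hself).trans (ENNReal.ofReal_le_ofReal (by norm_num)))
    have e1 : (∫⁻ x, G x * (B3.indicator 1 x * (f3 x * gw b x)) ∂stdGaussian E)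
        = ∫⁻ x, (G x * B3.indicator 1 x) * (f3 x * gw b x) ∂stdGaussian E :=
      lintegral_congr fun x => by ring
    rw [e1]
    refine h.trans ?_
    refine mul_le_mul' (by norm_num) ?_
    rw [hJ]
    refine lintegral_mono fun x => ?_
    simp only []
    by_cases h1 : x ∈ B3
    swap
    · rw [indicator_of_notMem h1, mul_zero, zero_mul]
      exact bot_le
    rw [indicator_of_mem h1, Pi.one_apply, mul_one]
    by_cases hx : x ∈ S.X q m
    swap
    · rw [indicator_of_notMem hx, indicator_of_notMem hx]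
      simp
    rw [indicator_of_mem hx, indicator_of_mem hx]
    exact mul_le_mul' le_rfl (mul_le_mul' (A_half H.th h1.1) le_rfl)
  rw [hT1]
  refine (add_le_add (add_le_add le_rfl hT2) hT3).trans (le_of_eq ?_)
  unfold Kc
  rw [ENNReal.ofReal_add (by positivity) (by norm_num), ENNReal.ofReal_add (by positivity)
    (by positivity)]
  ring

/-! ### the next level -/

/-- a leaf has no further part -/
lemma last_leaf {m : ℕ} (hm : m ≤ S.mT) {p q : List ℕ} (hl : S.Leaf q m) (b : E) :
    ∫⁻ x, (S.Rg p 0 m).indicator 1 x * ({x | x ∉ S.Z q m ∧ S.kl q m x = 0}.indicator 1 x *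
      (ENNReal.ofReal |S.pf q m x - S.fld q m x| * gw b x)) ∂stdGaussian E = 0 := by
  have e : ∀ x, (S.Rg p 0 m).indicator 1 x *
      ({x | x ∉ S.Z q m ∧ S.kl q m x = 0}.indicator 1 x *
      (ENNReal.ofReal |S.pf q m x - S.fld q m x| * gw b x)) = (0 : ℝ≥0∞) := by
    intro x
    rw [fld_leaf (S.labOK hm) hm hl, sub_self, abs_zero, ENNReal.ofReal_zero, zero_mul, mul_zero,
      mul_zero]
  simp only [e, lintegral_zero]

lemma measurable_hu {m : ℕ} (hm : m ≤ S.mT) (s : List ℕ) : Measurable (hu S s m) :=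
  (((S.pf_UI s m).meas.sub ((S.labOK hm).fup_UI s).meas).abs).ennreal_ofReal

/-- at a node which is not a leaf the next part is the hidden part of the child of class `0` -/
lemma last_node {m : ℕ} (hm : m ≤ S.mT) {p q : List ℕ} (hpq : p <:+ q)
    (hSI : SI (fun r => S.W r m) q) (hl : ¬ S.Leaf q m) (b : E) :
    ∫⁻ x, (S.Rg p 0 m).indicator 1 x * ({x | x ∉ S.Z q m ∧ S.kl q m x = 0}.indicator 1 x *
      (ENNReal.ofReal |S.pf q m x - S.fld q m x| * gw b x)) ∂stdGaussian E
      ≤ Uh S p 0 q m ((S.mv.Q m (0 :: q)).symm b) := by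
  have htm := S.tm_lt_f hm
  set R := (S.mv.Q m (0 :: q)).symm with hR
  have hfix : Fixes R (S.W q m) := (S.Q_fix 0 q m).symm
  set g : E → ℝ≥0∞ := fun x => (S.Rg p 0 m).indicator 1 x * (S.Z q m)ᶜ.indicator 1 x with hg
  have hGi : Inv (S.W q m) ((S.Rg p 0 m).indicator (1 : E → ℝ≥0∞)) :=
    (inv_Rg htm (hSI.suffix hpq)).mono (S.W_mono hpq m)
  have hZi : Inv (S.W q m) ((S.Z q m)ᶜ.indicator (1 : E → ℝ≥0∞)) := by
    refine inv_ind_of fun x w hw hx h => hx ((S.Z_inv q m x w hw).mp h)
  have hgi : Inv (S.W q m) g := hGi.mul hZi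
  have hgm : Measurable g := (measurable_one.indicator (measurableSet_Rg_c htm)).mul
    (measurable_one.indicator (S.measurableSet_Z q m).compl)
  set F : E → ℝ≥0∞ := fun y => hu S (0 :: q) m y * gw (R b) y with hF
  have hFm : Measurable F := (measurable_hu hm _).mul (measurable_gw _)
  have h1 : ∫⁻ x, g x * F (R x) ∂stdGaussian E = ∫⁻ x, g x * F x ∂stdGaussian E :=
    lintegral_mul_fixes hfix hgi hgm hFm
  have h2 : ∫⁻ x, g x * F x ∂stdGaussian E = Uh S p 0 q m (R b) := by
    unfold Uh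
    exact lintegral_congr fun x => by rw [hg, hF]; ring
  rw [← h2, ← h1]
  refine lintegral_mono fun x => ?_
  simp only [hg, hF]
  rw [mul_assoc]
  refine mul_le_mul' le_rfl ?_
  by_cases hx : x ∈ {x | x ∉ S.Z q m ∧ S.kl q m x = 0}
  swap
  · rw [indicator_of_notMem hx, zero_mul]
    exact bot_le
  obtain ⟨h3, h4⟩ := hx
  rw [indicator_of_mem (show x ∈ {x | x ∉ S.Z q m ∧ S.kl q m x = 0} from ⟨h3, h4⟩),
    indicator_of_mem (show x ∈ (S.Z q m)ᶜ from h3)]
  refine mul_le_mul' le_rfl (mul_le_mul' (le_of_eq ?_) (le_of_eq ?_))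
  · unfold hu
    have h5 := fld_eq_fup hm hl x
    rw [h4] at h5
    rw [h5, S.pf_cons, hR, LinearIsometryEquiv.apply_symm_apply]
  · unfold gw
    rw [LinearIsometryEquiv.inner_map_map]

lemma SI_cons_of {m : ℕ} (hm : S.mv.tm m < S.T) {s : List ℕ} (hs : ¬ S.Leaf s m) (c : ℕ) :
    SI (fun r => S.W r m) (c :: s) := by
  refine H431.SI_of hm fun d t ht => ?_
  rw [List.suffix_cons_iff] at ht
  rcases ht with h | h
  · rw [List.cons.injEq] at h
    rw [h.2]; exact hs
  · exact fun hl => hs (H431.leaf_mono ((List.suffix_cons d t).trans h) hl)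

/-- **the hidden part of a node below the labels of class `0` of `p`** -/
theorem Uh_le (H : ThrC S) (hk : S.kp 1 ≤ 1 / 2) (hA : 16 * (S.M + 1) * S.kp 1 ≤ 1)
    (hkt : S.kap ^ S.th ≤ 1 / 2) {m : ℕ} (hm : m ≤ S.mT) (hroot : ∀ x, S.kl [] m x ≠ 0)
    {p : List ℕ} : ∀ (n : ℕ) (s : List ℕ), p <:+ s → ¬ S.Leaf s m →
      Module.finrank ℝ E ≤ s.length + n + 1 → ∀ (c : ℕ) (b : E), ‖b‖ ≤ 1 → b ∈ (S.W p m)ᗮ →
      Uh S p c s m b ≤ ENNReal.ofReal (2 * (Kc S * (23 * cCons)) * (S.kap ^ S.th) ^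
        (Module.finrank ℝ (S.W (c :: s) m) - Module.finrank ℝ (S.W p m))) *
        ∫⁻ x, (S.Rg p 0 m).indicator 1 x *
          ({x | ENNReal.ofReal (Real.exp (-1418)) ≤ S.q p m x}.indicator (S.As S.th p m) x)
          ∂stdGaussian E := by
  have htm := S.tm_lt_f hm
  have hb0 := S.b0_pos_f
  have hM := S.hM
  have hkap := S.hkap
  have hcC : 0 ≤ cCons := by have := Cons493.cCons_pos; linarith
  have hKc : 0 ≤ Kc S := by
    unfold Kc
    have := Real.rpow_nonneg hb0.le (-S.th)
    positivity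
  have hkt0 : 0 ≤ S.kap ^ S.th := Real.rpow_nonneg hkap.le _
  set V := ∫⁻ x, (S.Rg p 0 m).indicator 1 x *
      ({x | ENNReal.ofReal (Real.exp (-1418)) ≤ S.q p m x}.indicator (S.As S.th p m) x)
      ∂stdGaussian E with hV
  intro n
  induction n with
  | zero =>
    intro s _ hl hn
    exact absurd (S.leaf_of_length_f hm (by simpa using hn)) hl
  | succ n ih =>
    intro s hps hl hn c b hb1 hbp
    obtain ⟨u, hu⟩ := hps
    have hps : p <:+ s := ⟨u, hu⟩
    have hSI := SI_cons_of (S := S) htm hl c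
    have hq : (c :: u) ++ p = c :: s := by rw [List.cons_append, hu]
    have h1 := Uh_step H hk hA hm hps hSI hb1
    have h2 := charge_sys H hroot htm (c :: u) (by rw [hq]; exact hSI) hb1 hbp
    rw [hq] at h2
    set d := Module.finrank ℝ (S.W (c :: s) m) - Module.finrank ℝ (S.W p m) with hd
    have h3 : (S.kap ^ d) ^ S.th = (S.kap ^ S.th) ^ d := by
      rw [← Real.rpow_natCast, ← Real.rpow_mul hkap.le, mul_comm, Real.rpow_mul hkap.le,
        Real.rpow_natCast]
    rw [h3] at h2
    set k := S.kap ^ S.th with hkdef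
    have h4 : ∫⁻ x, (S.Rg p 0 m).indicator 1 x *
        ({x | x ∉ S.Z (c :: s) m ∧ S.kl (c :: s) m x = 0}.indicator 1 x *
          (ENNReal.ofReal |S.pf (c :: s) m x - S.fld (c :: s) m x| * gw b x)) ∂stdGaussian E
        ≤ ENNReal.ofReal (Kc S * (23 * cCons) * k ^ d) * V := by
      by_cases hl' : S.Leaf (c :: s) m
      · rw [last_leaf hm hl']
        exact bot_le
      · have hpcs : p <:+ c :: s := hps.trans (List.suffix_cons c s)
        refine (last_node hm hpcs hSI hl' b).trans ?_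
        have hbp' : (S.mv.Q m (0 :: c :: s)).symm b ∈ (S.W p m)ᗮ := by
          rw [Submodule.mem_orthogonal]
          intro w hw
          have h5 : (S.mv.Q m (0 :: c :: s)).symm w = w :=
            ((S.Q_fix 0 (c :: s) m).symm) w (S.W_mono hpcs m hw)
          rw [← h5, LinearIsometryEquiv.inner_map_map]
          exact (Submodule.mem_orthogonal _ _).mp hbp w hw
        have hb1' : ‖(S.mv.Q m (0 :: c :: s)).symm b‖ ≤ 1 := by
          rw [LinearIsometryEquiv.norm_map]; exact hb1
        refine (ih (c :: s) hpcs hl' (by rw [List.length_cons]; omega) 0 _ hb1' hbp').trans ?_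
        refine mul_le_mul' (ENNReal.ofReal_le_ofReal ?_) le_rfl
        have hlt : Module.finrank ℝ (S.W (c :: s) m) < Module.finrank ℝ (S.W (0 :: c :: s) m) :=
          Submodule.finrank_lt_finrank_of_lt (W_lt htm hl' 0)
        have hle : Module.finrank ℝ (S.W p m) ≤ Module.finrank ℝ (S.W (c :: s) m) :=
          Submodule.finrank_mono (S.W_mono hpcs m)
        have h6 : k ^ (Module.finrank ℝ (S.W (0 :: c :: s) m) - Module.finrank ℝ (S.W p m))
            ≤ k ^ (d + 1) :=
          pow_le_pow_of_le_one hkt0 (by linarith) (by omega)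
        have h7 : k ^ (d + 1) ≤ 1 / 2 * k ^ d := by
          rw [pow_succ, mul_comm]
          exact mul_le_mul_of_nonneg_right hkt (pow_nonneg hkt0 _)
        have h8 : 0 ≤ 2 * (Kc S * (23 * cCons)) := by positivity
        calc 2 * (Kc S * (23 * cCons)) *
              k ^ (Module.finrank ℝ (S.W (0 :: c :: s) m) - Module.finrank ℝ (S.W p m))
            ≤ 2 * (Kc S * (23 * cCons)) * (1 / 2 * k ^ d) :=
              mul_le_mul_of_nonneg_left (h6.trans h7) h8
          _ = _ := by ring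
    refine h1.trans ((add_le_add (mul_le_mul' le_rfl h2) h4).trans (le_of_eq ?_))
    rw [← mul_assoc, ← ENNReal.ofReal_mul hKc, ← add_mul, ← ENNReal.ofReal_add (by positivity)
      (by positivity)]
    congr 2
    ring

end Vale.Agent.P262.H967
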