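import Vale.Agent.P262.H967.Hm4
import Vale.Agent.P262.H712.Hm

/-!
# P262, milestone 2, block HMOM0: the moment of the hidden part of a rotating node, parent of class 0
-/

set_option linter.all false

open MeasureTheory ProbabilityTheory Set
open scoped ENNReal NNReal RealInnerProductSpace
open Vale.Agent.P262.H118 (ON rotE rotL rotE_apply)
open Vale.Agent.P262.H395.CW (SI)
open Vale.Agent.P262.Cons493 (cCons)

namespace Vale.Agent.P262.H967

open Vale.Agent.P262.M2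
open Vale.Agent.P262.M2.Sys
open Vale.Agent.P262.H431 (ThrC)

variable {E : Type*} [NormedAddCommGroup E] [InnerProductSpace ℝ E] [FiniteDimensional ℝ E]
  [MeasurableSpace E] [BorelSpace E] {S : Sys E}

/-- the displacement of the rotation -/
lemma disp_le {m : ℕ} (h : S.mv.IsRot m) : ∃ θ b : E, ‖θ‖ ≤ 1 ∧ ‖b‖ ≤ 1 ∧
    θ ∈ (S.W (S.mv.jj m).tail m)ᗮ ∧ b ∈ (S.W (S.mv.jj m) m)ᗮ ∧
    ∀ x, ENNReal.ofReal ‖S.rho m x - x‖ ≤ ENNReal.ofReal (S.mv.ph m) * (gw θ x + gw b x) := by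
  obtain ⟨θ, b, hb, h1, h2, h3, h4⟩ := rho_eq h
  refine ⟨θ, b, hb.hp.le, hb.hq.le, h2, h3, fun x => ?_⟩
  have e : S.rho m x = rotL θ b (S.mv.ph m) x := by
    rw [h4]; exact rotE_apply hb _ x
  have h5 := H174.rotL_disp hb (S.mv.ph m) x
  have hph := S.mv.ph_nonneg m
  rw [abs_of_nonneg hph] at h5
  rw [e]
  unfold gw
  rw [← ENNReal.ofReal_add (by positivity) (by positivity), ← ENNReal.ofReal_mul hph]
  refine ENNReal.ofReal_le_ofReal (h5.trans ?_)
  refine mul_le_mul_of_nonneg_left ?_ hph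
  linarith

/-- **(HMOM), parent of class `0`.**  Constants: `CT ≥ 4 Kc (23 cCons)`,
`Kc = b0 ^ (-th) + 8 √(M + 1) + 8`, `lam ≥ kap ^ th`. -/
theorem HMOM0_Hd (H : ThrC S) (hk : S.kp 1 ≤ 1 / 2) (hA : 16 * (S.M + 1) * S.kp 1 ≤ 1)
    (hkt : S.kap ^ S.th ≤ 1 / 2) (hroot : ∀ m, m < S.mT → ∀ x, S.kl [] m x ≠ 0) {CT lam : ℝ}
    (hCT : 4 * (Kc S * (23 * cCons)) ≤ CT) (hlam : S.kap ^ S.th ≤ lam) :
    S.HMOM0 S.Hd CT lam := by
  intro m hm hrot p hjj
  have htm := S.tm_lt_f hm.le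
  have hroot' := hroot m hm
  have hb0 := S.b0_pos_f
  have hM := S.hM
  have hkap := S.hkap
  have hph := S.mv.ph_nonneg m
  have hcC : 0 ≤ cCons := by have := Cons493.cCons_pos; linarith
  have hKc : 0 ≤ Kc S := by
    unfold Kc
    have := Real.rpow_nonneg hb0.le (-S.th)
    positivity
  have hkt0 : 0 ≤ S.kap ^ S.th := Real.rpow_nonneg hkap.le _
  have hpl : ¬ S.Leaf p m := H431.parent_not_leaf hrot hjj
  obtain ⟨θ, b, hθ1, hb1, hθ, hb, hd⟩ := disp_le hrot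
  rw [hjj, List.tail_cons] at hθ
  rw [hjj] at hb
  have hbp : b ∈ (S.W p m)ᗮ := Submodule.orthogonal_le (S.W_le 0 p m) hb
  set V := ∫⁻ x, (S.Rg p 0 m).indicator 1 x *
      ({x | ENNReal.ofReal (Real.exp (-1418)) ≤ S.q p m x}.indicator (S.As S.th p m) x)
      ∂stdGaussian E with hV
  have hU := Uh_le H hk hA hkt hm.le hroot' (p := p) (Module.finrank ℝ E) p (List.suffix_refl _)
    hpl (by omega) 0
  have h1 := hU θ hθ1 hθ
  have h2 := hU b hb1 hbp
  have hkr : S.kr m = Module.finrank ℝ (S.W (0 :: p) m) - Module.finrank ℝ (S.W p m) := by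
    unfold kr
    rw [hjj]
    rfl
  rw [← hkr] at h1 h2
  -- pointwise
  have hle : S.Hw S.Hd (p.length + 1) m ≤
      ENNReal.ofReal (S.mv.ph m) * (Uh S p 0 p m θ + Uh S p 0 p m b) := by
    have hGm : Measurable ((S.Rg p 0 m).indicator (1 : E → ℝ≥0∞)) :=
      measurable_one.indicator (measurableSet_Rg_c htm)
    have hZm : Measurable ((S.Z p m)ᶜ.indicator (1 : E → ℝ≥0∞)) :=
      measurable_one.indicator (S.measurableSet_Z p m).compl
    have m1 : Measurable fun x => (S.Rg p 0 m).indicator 1 x *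
        ((S.Z p m)ᶜ.indicator 1 x * (hu S (0 :: p) m x * gw θ x)) :=
      hGm.mul (hZm.mul ((measurable_hu hm.le _).mul (measurable_gw _)))
    unfold Uh Hw
    rw [← lintegral_add_left m1, ← lintegral_const_mul' _ _ ENNReal.ofReal_ne_top]
    refine lintegral_mono fun x => ?_
    simp only []
    by_cases hx : x ∈ S.thru (p.length + 1) m ∩ S.OL (p.length + 1) m
    swap
    · unfold iw
      rw [indicator_of_notMem hx, zero_mul]
      exact bot_le
    obtain ⟨h3, h4⟩ := hx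
    have h3' : S.nd m x (p.length + 1) = 0 :: p := by rw [← hjj]; exact h3
    have hR : x ∈ S.Rg p 0 m := (mem_Rg_iff_c rfl).mpr ⟨h4, h3'⟩
    have hnd : S.nd m x p.length = p := by
      have h5 := h3'
      rw [nd_succ, List.cons.injEq] at h5
      exact h5.2
    have hZ : x ∈ (S.Z p m)ᶜ := by
      have h5 := h4 p.length (Nat.lt_succ_self _)
      rw [hnd] at h5
      exact h5.1
    unfold iw
    rw [indicator_of_mem (show x ∈ S.thru (p.length + 1) m ∩ S.OL (p.length + 1) m from ⟨h3, h4⟩),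
      indicator_of_mem hR, indicator_of_mem hZ]
    simp only [Pi.one_apply, one_mul]
    unfold Hd
    rw [hjj]
    change hu S (0 :: p) m x * ENNReal.ofReal ‖S.rho m x - x‖ ≤ _
    calc hu S (0 :: p) m x * ENNReal.ofReal ‖S.rho m x - x‖
        ≤ hu S (0 :: p) m x * (ENNReal.ofReal (S.mv.ph m) * (gw θ x + gw b x)) :=
          mul_le_mul' le_rfl (hd x)
      _ = _ := by ring
  refine hle.trans ((mul_le_mul' le_rfl (add_le_add h1 h2)).trans ?_)
  refine le_trans ?_ (mul_le_mul' le_rfl (H431.V_le_Rw H htm hjj))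
  rw [← hV, ← add_mul, ← mul_assoc, ← ENNReal.ofReal_add (by positivity) (by positivity),
    ← ENNReal.ofReal_mul hph]
  refine mul_le_mul' (ENNReal.ofReal_le_ofReal ?_) le_rfl
  have h5 : (S.kap ^ S.th) ^ S.kr m ≤ lam ^ S.kr m := pow_le_pow_left₀ hkt0 hlam _
  have h6 : 0 ≤ 4 * (Kc S * (23 * cCons)) := by positivity
  calc S.mv.ph m * (2 * (Kc S * (23 * cCons)) * (S.kap ^ S.th) ^ S.kr m +
        2 * (Kc S * (23 * cCons)) * (S.kap ^ S.th) ^ S.kr m)
      = 4 * (Kc S * (23 * cCons)) * S.mv.ph m * (S.kap ^ S.th) ^ S.kr m := by ring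
    _ ≤ CT * S.mv.ph m * lam ^ S.kr m := by
        have h7 : 0 ≤ CT := h6.trans hCT
        gcongr

/-- **(HMOM), all parents** -/
theorem HMOM_Hd (H : ThrC S) (hk : S.kp 1 ≤ 1 / 2) (hA : 16 * (S.M + 1) * S.kp 1 ≤ 1)
    (hkt : S.kap ^ S.th ≤ 1 / 2) (hroot : ∀ m, m < S.mT → ∀ x, S.kl [] m x ≠ 0) {CT lam : ℝ}
    (hCT : 4 * (Kc S * (23 * cCons)) ≤ CT) (hCT' : 48 / S.b0 ≤ CT) (hlam : S.kap ^ S.th ≤ lam)
    (hlam' : Real.sqrt S.kap ≤ lam) : S.HMOM S.Hd CT lam :=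
  HMOM_of (HMOMp_Hd ((exp_small H.qq).trans (by norm_num)) hk (H.kap.trans (by norm_num)) H.th
    hCT' hlam') (HMOM0_Hd H hk hA hkt hroot hCT hlam)

end Vale.Agent.P262.H967

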