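import Vale.Agent.P262.H967.Supp2

/-!
# The `L¹`-Poincaré inequality for the averages, along rotations
-/

set_option linter.unusedSectionVars false

namespace Vale.Agent.P262.H967

open MeasureTheory ProbabilityTheory Set Filter Topology
open scoped RealInnerProductSpace
open Vale.Agent.P262.H847 Vale.Agent.P262.H912 Vale.Agent.P262.H941

variable {E : Type*} [NormedAddCommGroup E] [InnerProductSpace ℝ E] [FiniteDimensional ℝ E]
  [MeasurableSpace E] [BorelSpace E]

lemma UI.compl' {Ω : Type*} [MeasurableSpace Ω] {f : Ω → ℝ} (hf : UI f) :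
    UI (fun x => 1 - f x) :=
  ⟨measurable_const.sub hf.meas, fun x => by have := hf.le_one x; linarith,
    fun x => by have := hf.nonneg x; linarith⟩

lemma avg_compl {f : E → ℝ} (hf : UI f) (s : ℝ) (p : E) :
    avg (fun x => 1 - f x) s p = 1 - avg f s p := by
  unfold avg
  rw [integral_sub (integrable_const _) ((UI.comp hf (by fun_prop)).integrable _)]
  simp

lemma mom_compl {f : E → ℝ} (hf : UI f) (s : ℝ) (p : E) :
    mom (fun x => 1 - f x) s p = - mom f s p := by
  unfold mom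
  simp only [sub_smul, one_smul]
  rw [integral_sub integrable_id' (UI.integrable_smul (UI.comp hf (by fun_prop))),
    integral_id_stdGaussian, zero_sub]

/-- Taylor bound for the averages, two-sided, with the inner product -/
lemma avg_taylor2 {f : E → ℝ} (hf : UI f) {s : ℝ} (hs : 0 < s) (p z : E) :
    |avg f s (p + z) - avg f s p|
      ≤ |⟪z, mom f s p⟫| / s + ‖z‖ ^ 2 / (2 * s ^ 2) := by
  have key : ∀ {f : E → ℝ}, UI f → avg f s (p + z)
      ≤ avg f s p + ⟪z, mom f s p⟫ / s + ‖z‖ ^ 2 / (2 * s ^ 2) := by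
    intro f hf
    have hfy : UI (fun g => f (p + s • g)) := UI.comp hf (by fun_prop)
    have h1 := shift_upper hfy ((1 / s) • z)
    have e1 : ∀ g, f (p + s • (g + (1 / s) • z)) = f (p + z + s • g) := by
      intro g
      congr 1
      rw [smul_add, smul_smul, mul_one_div_cancel hs.ne', one_smul]
      abel
    simp only [e1] at h1
    have h3 : ‖(1 / s) • z‖ ^ 2 / 2 = ‖z‖ ^ 2 / (2 * s ^ 2) := by
      rw [norm_smul, Real.norm_eq_abs, abs_of_pos (by positivity)]
      field_simp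
    have h2 : ⟪(1 / s) • z, mom f s p⟫ = ⟪z, mom f s p⟫ / s := by
      rw [real_inner_smul_left]; ring
    rw [h3] at h1
    have h4 : avg f s (p + z) ≤ avg f s p + ⟪(1 / s) • z, mom f s p⟫
      + ‖z‖ ^ 2 / (2 * s ^ 2) := h1
    rw [h2] at h4
    exact h4
  have h1 := key hf
  have h2 := key (UI.compl' hf)
  rw [avg_compl hf, avg_compl hf, mom_compl hf, inner_neg_right] at h2
  have h3 := le_abs_self ⟪z, mom f s p⟫
  have h4 := neg_le_abs ⟪z, mom f s p⟫
  have h5 : ⟪z, mom f s p⟫ / s ≤ |⟪z, mom f s p⟫| / s := div_le_div_of_nonneg_right h3 hs.le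
  have h6 : -⟪z, mom f s p⟫ / s ≤ |⟪z, mom f s p⟫| / s := div_le_div_of_nonneg_right h4 hs.le
  rw [abs_le]
  constructor <;> linarith

lemma integral_abs_inner_le (w : E) : ∫ y : E, |⟪w, y⟫| ∂(stdGaussian E) ≤ ‖w‖ := by
  have hi := (integrable_inner w).abs
  have h2 := integrable_inner_sq w
  rcases eq_or_ne w 0 with rfl | hw
  · simp
  have hw0 : 0 < ‖w‖ := norm_pos_iff.mpr hw
  have h3 : ∫ y : E, |⟪w, y⟫| ∂(stdGaussian E)
      ≤ ∫ y : E, (‖w‖ / 2 + ⟪w, y⟫ ^ 2 / (2 * ‖w‖)) ∂(stdGaussian E) := by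
    refine integral_mono hi ((integrable_const _).add (h2.div_const _)) fun y => ?_
    show |⟪w, y⟫| ≤ ‖w‖ / 2 + ⟪w, y⟫ ^ 2 / (2 * ‖w‖)
    have h4 : ‖w‖ / 2 + ⟪w, y⟫ ^ 2 / (2 * ‖w‖) = (‖w‖ ^ 2 + |⟪w, y⟫| ^ 2) / (2 * ‖w‖) := by
      rw [sq_abs]; field_simp
    rw [h4, le_div_iff₀ (by positivity)]
    nlinarith [sq_nonneg (‖w‖ - |⟪w, y⟫|)]
  rw [integral_add (integrable_const _) (h2.div_const _), integral_const,
    integral_div (2 * ‖w‖), integral_inner_sq] at h3
  simp only [probReal_univ, smul_eq_mul, one_mul] at h3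
  have h5 : ‖w‖ / 2 + ‖w‖ ^ 2 / (2 * ‖w‖) = ‖w‖ := by field_simp; ring
  linarith

/-- first and second moments of the norm -/
noncomputable def nn1 (E : Type*) [NormedAddCommGroup E] [InnerProductSpace ℝ E]
    [FiniteDimensional ℝ E] [MeasurableSpace E] [BorelSpace E] : ℝ :=
  ∫ x : E, ‖x‖ ∂(stdGaussian E)

/-- first and second moments of the norm -/
noncomputable def nn2 (E : Type*) [NormedAddCommGroup E] [InnerProductSpace ℝ E]
    [FiniteDimensional ℝ E] [MeasurableSpace E] [BorelSpace E] : ℝ :=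
  ∫ x : E, ‖x‖ ^ 2 ∂(stdGaussian E)

lemma nn1_nonneg : 0 ≤ nn1 E := integral_nonneg fun _ => norm_nonneg _

lemma nn2_nonneg : 0 ≤ nn2 E := integral_nonneg fun _ => sq_nonneg _

lemma integrable_norm_sq : Integrable (fun x : E => ‖x‖ ^ 2) (stdGaussian E) := by
  refine (integrable_one_add_sq (E := E)).mono' (by fun_prop) (Eventually.of_forall fun x => ?_)
  rw [Real.norm_eq_abs, abs_of_nonneg (by positivity)]
  nlinarith [norm_nonneg x]

/-- increments of `g = avg f s (c •)` under a rotation by a small angle -/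
lemma rot_inc {f : E → ℝ} (hf : UI f) {c s : ℝ} (hs : 0 < s) (hc0 : 0 ≤ c) (hc1 : c ≤ 1) (a b : ℝ) :
    ∫ p : E × E, |avg f s (c • (a • p.1 + b • p.2)) - avg f s (c • p.1)|
        ∂((stdGaussian E).prod (stdGaussian E))
      ≤ |b| / s * ∫ y, ‖mom f s (c • y)‖ ∂(stdGaussian E) + |1 - a| / s * nn1 E
        + ((1 - a) ^ 2 + b ^ 2) / s ^ 2 * nn2 E := by
  have hM1 : ∀ y : E, ‖mom f s (c • y)‖ ≤ 1 := fun y => norm_mom_le_one hf s _
  have hMm : Measurable (fun y : E => mom f s (c • y)) := (measurable_mom hf s).comp (by fun_prop)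
  have hpt : ∀ p : E × E, |avg f s (c • (a • p.1 + b • p.2)) - avg f s (c • p.1)|
      ≤ |b| / s * |⟪mom f s (c • p.1), p.2⟫| + |1 - a| / s * ‖p.1‖
        + ((1 - a) ^ 2 / s ^ 2 * ‖p.1‖ ^ 2 + b ^ 2 / s ^ 2 * ‖p.2‖ ^ 2) := by
    intro p
    set z : E := c • ((a - 1) • p.1 + b • p.2) with hz
    have e1 : c • (a • p.1 + b • p.2) = c • p.1 + z := by rw [hz]; module
    rw [e1]
    refine (avg_taylor2 hf hs _ _).trans ?_
    have h1 : |⟪z, mom f s (c • p.1)⟫| ≤ |1 - a| * ‖p.1‖ + |b| * |⟪mom f s (c • p.1), p.2⟫| := by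
      rw [hz, real_inner_smul_left, inner_add_left, real_inner_smul_left, real_inner_smul_left,
        abs_mul, abs_of_nonneg hc0]
      refine (mul_le_of_le_one_left (abs_nonneg _) hc1).trans ((abs_add_le _ _).trans ?_)
      rw [abs_mul, abs_mul, abs_sub_comm a 1, real_inner_comm (mom f s (c • p.1)) p.2]
      have h2 : |⟪p.1, mom f s (c • p.1)⟫| ≤ ‖p.1‖ := by
        refine (abs_real_inner_le_norm _ _).trans ?_
        exact mul_le_of_le_one_right (norm_nonneg _) (hM1 _)
      have h3 := mul_le_mul_of_nonneg_left h2 (abs_nonneg (1 - a))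
      linarith
    have h4 : ‖z‖ ^ 2 ≤ 2 * ((1 - a) ^ 2 * ‖p.1‖ ^ 2 + b ^ 2 * ‖p.2‖ ^ 2) := by
      have h5 : ‖z‖ ≤ |1 - a| * ‖p.1‖ + |b| * ‖p.2‖ := by
        rw [hz, norm_smul, Real.norm_eq_abs, abs_of_nonneg hc0]
        refine (mul_le_of_le_one_left (norm_nonneg _) hc1).trans ((norm_add_le _ _).trans ?_)
        rw [norm_smul, norm_smul, Real.norm_eq_abs, Real.norm_eq_abs, abs_sub_comm a 1]
      have h6 : ‖z‖ ^ 2 ≤ (|1 - a| * ‖p.1‖ + |b| * ‖p.2‖) ^ 2 :=
        pow_le_pow_left₀ (norm_nonneg _) h5 2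
      have h7 : |1 - a| ^ 2 = (1 - a) ^ 2 := sq_abs _
      have h8 : |b| ^ 2 = b ^ 2 := sq_abs _
      rw [← h7, ← h8]
      nlinarith [sq_nonneg (|1 - a| * ‖p.1‖ - |b| * ‖p.2‖)]
    have h9 : |⟪z, mom f s (c • p.1)⟫| / s
        ≤ (|1 - a| * ‖p.1‖ + |b| * |⟪mom f s (c • p.1), p.2⟫|) / s :=
      div_le_div_of_nonneg_right h1 hs.le
    have h10 : ‖z‖ ^ 2 / (2 * s ^ 2)
        ≤ (2 * ((1 - a) ^ 2 * ‖p.1‖ ^ 2 + b ^ 2 * ‖p.2‖ ^ 2)) / (2 * s ^ 2) :=
      div_le_div_of_nonneg_right h4 (by positivity)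
    refine (add_le_add h9 h10).trans (le_of_eq ?_)
    field_simp
    ring
  -- integrability
  have hinn : Integrable (fun p : E × E => |⟪mom f s (c • p.1), p.2⟫|)
      ((stdGaussian E).prod (stdGaussian E)) := by
    refine ((integrable_norm (E := E)).comp_snd (stdGaussian E)).mono'
      (((hMm.comp measurable_fst).inner measurable_snd).abs).aestronglyMeasurable
      (Eventually.of_forall fun p => ?_)
    rw [Real.norm_eq_abs, abs_abs]
    exact (abs_real_inner_le_norm _ _).trans (mul_le_of_le_one_left (norm_nonneg _) (hM1 _))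
  have hn1 : Integrable (fun p : E × E => ‖p.1‖) ((stdGaussian E).prod (stdGaussian E)) :=
    (integrable_norm (E := E)).comp_fst (stdGaussian E)
  have hn2 : Integrable (fun p : E × E => ‖p.1‖ ^ 2) ((stdGaussian E).prod (stdGaussian E)) :=
    (integrable_norm_sq (E := E)).comp_fst (stdGaussian E)
  have hn3 : Integrable (fun p : E × E => ‖p.2‖ ^ 2) ((stdGaussian E).prod (stdGaussian E)) :=
    (integrable_norm_sq (E := E)).comp_snd (stdGaussian E)
  have hA := hinn.const_mul (|b| / s)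
  have hB := hn1.const_mul (|1 - a| / s)
  have hC := hn2.const_mul ((1 - a) ^ 2 / s ^ 2)
  have hD := hn3.const_mul (b ^ 2 / s ^ 2)
  have hAB : Integrable (fun p : E × E => |b| / s * |⟪mom f s (c • p.1), p.2⟫|
      + |1 - a| / s * ‖p.1‖) ((stdGaussian E).prod (stdGaussian E)) := hA.add hB
  have hCD : Integrable (fun p : E × E => (1 - a) ^ 2 / s ^ 2 * ‖p.1‖ ^ 2
      + b ^ 2 / s ^ 2 * ‖p.2‖ ^ 2) ((stdGaussian E).prod (stdGaussian E)) := hC.add hD
  have h20 := integral_mono_of_nonneg (Eventually.of_forall fun p => abs_nonneg _)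
    (hAB.add hCD) (Eventually.of_forall hpt)
  refine h20.trans ?_
  have e20 : ∫ p : E × E, ((|b| / s * |⟪mom f s (c • p.1), p.2⟫| + |1 - a| / s * ‖p.1‖)
        + ((1 - a) ^ 2 / s ^ 2 * ‖p.1‖ ^ 2 + b ^ 2 / s ^ 2 * ‖p.2‖ ^ 2))
        ∂((stdGaussian E).prod (stdGaussian E))
      = |b| / s * ∫ p : E × E, |⟪mom f s (c • p.1), p.2⟫| ∂((stdGaussian E).prod (stdGaussian E))
        + |1 - a| / s * nn1 E + ((1 - a) ^ 2 / s ^ 2 * nn2 E + b ^ 2 / s ^ 2 * nn2 E) := by
    rw [integral_add hAB hCD, integral_add hA hB, integral_add hC hD, integral_const_mul,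
      integral_const_mul, integral_const_mul, integral_const_mul, integral_prod _ hn1,
      integral_prod _ hn2, integral_prod _ hn3]
    simp only [integral_const, probReal_univ, smul_eq_mul, one_mul]
    rfl
  have h21 : ∫ p : E × E, |⟪mom f s (c • p.1), p.2⟫| ∂((stdGaussian E).prod (stdGaussian E))
      ≤ ∫ y, ‖mom f s (c • y)‖ ∂(stdGaussian E) := by
    rw [integral_prod _ hinn]
    refine integral_mono_of_nonneg (Eventually.of_forall fun y => integral_nonneg fun _ =>
      abs_nonneg _) ?_ (Eventually.of_forall fun y => ?_)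
    swap
    · exact integral_abs_inner_le (mom f s (c • y))
    exact Integrable.of_bound hMm.norm.aestronglyMeasurable 1 (Eventually.of_forall fun y => by
      rw [norm_norm]; exact hM1 y)
  have h22 : |b| / s * ∫ p : E × E, |⟪mom f s (c • p.1), p.2⟫|
      ∂((stdGaussian E).prod (stdGaussian E))
      ≤ |b| / s * ∫ y, ‖mom f s (c • y)‖ ∂(stdGaussian E) :=
    mul_le_mul_of_nonneg_left h21 (by positivity)
  have e21 : ((1 - a) ^ 2 + b ^ 2) / s ^ 2 * nn2 E
      = (1 - a) ^ 2 / s ^ 2 * nn2 E + b ^ 2 / s ^ 2 * nn2 E := by ring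
  rw [e21]
  refine (le_of_eq e20).trans ?_
  linarith

lemma integrable_rot {f : E → ℝ} (hf : UI f) (c s a b a' b' : ℝ) :
    Integrable (fun p : E × E => |avg f s (c • (a • p.1 + b • p.2))
      - avg f s (c • (a' • p.1 + b' • p.2))|) ((stdGaussian E).prod (stdGaussian E)) := by
  have h1 := UI.comp (UI.avg hf s) (T := fun p : E × E => c • (a • p.1 + b • p.2)) (by fun_prop)
  have h2 := UI.comp (UI.avg hf s) (T := fun p : E × E => c • (a' • p.1 + b' • p.2)) (by fun_prop)
  exact ((h1.integrable _).sub (h2.integrable _)).abs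

/-- the path of rotations -/
lemma rot_path {f : E → ℝ} (hf : UI f) {c s : ℝ} (hs : 0 < s) (hc0 : 0 ≤ c) (hc1 : c ≤ 1) (h : ℝ)
    (n : ℕ) :
    ∫ p : E × E, |avg f s (c • (Real.cos (n * h) • p.1 + Real.sin (n * h) • p.2))
        - avg f s (c • ((1:ℝ) • p.1 + (0:ℝ) • p.2))| ∂((stdGaussian E).prod (stdGaussian E))
      ≤ n * (|Real.sin h| / s * ∫ y, ‖mom f s (c • y)‖ ∂(stdGaussian E)
        + |1 - Real.cos h| / s * nn1 E
        + ((1 - Real.cos h) ^ 2 + Real.sin h ^ 2) / s ^ 2 * nn2 E) := by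
  set R := |Real.sin h| / s * ∫ y, ‖mom f s (c • y)‖ ∂(stdGaussian E)
        + |1 - Real.cos h| / s * nn1 E
        + ((1 - Real.cos h) ^ 2 + Real.sin h ^ 2) / s ^ 2 * nn2 E with hR
  induction n with
  | zero => simp
  | succ n ih =>
    set a := Real.cos (n * h) with ha
    set b := Real.sin (n * h) with hb
    have hab : a ^ 2 + b ^ 2 = 1 := by rw [ha, hb]; exact Real.cos_sq_add_sin_sq _
    have e0 : ((n + 1 : ℕ) : ℝ) * h = n * h + h := by push_cast; ring
    rw [e0, Real.cos_add, Real.sin_add, ← ha, ← hb]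
    set a' := a * Real.cos h - b * Real.sin h with ha'
    set b' := b * Real.cos h + a * Real.sin h with hb'
    -- the last step
    have hstep : ∫ p : E × E, |avg f s (c • (a' • p.1 + b' • p.2))
        - avg f s (c • (a • p.1 + b • p.2))| ∂((stdGaussian E).prod (stdGaussian E)) ≤ R := by
      have h1 := rot_inc hf hs hc0 hc1 (Real.cos h) (-Real.sin h)
      rw [abs_neg, neg_sq, ← hR] at h1
      refine le_trans (le_of_eq ?_) h1
      have hm : Measurable (fun p : E × E =>
          |avg f s (c • (Real.cos h • p.1 + (-Real.sin h) • p.2)) - avg f s (c • p.1)|) :=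
        (((UI.avg hf s).meas.comp (by fun_prop)).sub
          ((UI.avg hf s).meas.comp (by fun_prop))).abs
      conv_rhs => rw [← rot_prod hab]
      rw [integral_map (by fun_prop) hm.aestronglyMeasurable]
      congr 1; funext p
      have e1 : a' • p.1 + b' • p.2
          = Real.cos h • (a • p.1 + b • p.2) + (-Real.sin h) • (b • p.1 - a • p.2) := by
        rw [ha', hb']; module
      rw [e1]
    have h2 : ∫ p : E × E, |avg f s (c • (a' • p.1 + b' • p.2))
        - avg f s (c • ((1:ℝ) • p.1 + (0:ℝ) • p.2))| ∂((stdGaussian E).prod (stdGaussian E))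
        ≤ ∫ p : E × E, (|avg f s (c • (a' • p.1 + b' • p.2)) - avg f s (c • (a • p.1 + b • p.2))|
          + |avg f s (c • (a • p.1 + b • p.2))
            - avg f s (c • ((1:ℝ) • p.1 + (0:ℝ) • p.2))|)
          ∂((stdGaussian E).prod (stdGaussian E)) := by
      refine integral_mono (integrable_rot hf _ _ _ _ _ _)
        ((integrable_rot hf _ _ _ _ _ _).add (integrable_rot hf _ _ _ _ _ _)) fun p => ?_
      exact abs_sub_le _ _ _
    rw [integral_add (integrable_rot hf _ _ _ _ _ _) (integrable_rot hf _ _ _ _ _ _)] at h2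
    push_cast
    rw [add_mul, one_mul]
    linarith

/-- **`L¹`-Poincaré inequality** for the averages. -/
theorem l1_poincare {f : E → ℝ} (hf : UI f) {c s : ℝ} (hcs : c ^ 2 + s ^ 2 = 1) (hs : 0 < s)
    (hc0 : 0 ≤ c) :
    ∫ x, |avg f s (c • x) - ∫ z, f z ∂(stdGaussian E)| ∂(stdGaussian E)
      ≤ Real.pi / 2 / s * ∫ y, ‖mom f s (c • y)‖ ∂(stdGaussian E) := by
  have hc1 : c ≤ 1 := by nlinarith [sq_nonneg s]
  set M := ∫ y, ‖mom f s (c • y)‖ ∂(stdGaussian E) with hM
  have hM0 : 0 ≤ M := integral_nonneg fun _ => norm_nonneg _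
  set L := ∫ p : E × E, |avg f s (c • p.2) - avg f s (c • p.1)|
      ∂((stdGaussian E).prod (stdGaussian E)) with hL
  have hgU := UI.comp (UI.avg hf s) (T := fun y : E => c • y) (by fun_prop)
  have hLi : Integrable (fun p : E × E => |avg f s (c • p.2) - avg f s (c • p.1)|)
      ((stdGaussian E).prod (stdGaussian E)) :=
    (((hgU.integrable (stdGaussian E)).comp_snd (stdGaussian E)).sub
      ((hgU.integrable (stdGaussian E)).comp_fst (stdGaussian E))).abs
  -- reduce to pairs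
  have h1 : ∫ x, |avg f s (c • x) - ∫ z, f z ∂(stdGaussian E)| ∂(stdGaussian E) ≤ L := by
    rw [hL, integral_prod _ hLi]
    refine integral_mono ((hgU.integrable _).sub (integrable_const _)).abs hLi.integral_prod_left
      fun x => ?_
    show |avg f s (c • x) - ∫ z, f z ∂(stdGaussian E)|
      ≤ ∫ y, |avg f s (c • y) - avg f s (c • x)| ∂(stdGaussian E)
    rw [← avg_mean hf hcs]
    have e1 : avg f s (c • x) - ∫ y, avg f s (c • y) ∂(stdGaussian E)
        = ∫ y, (avg f s (c • x) - avg f s (c • y)) ∂(stdGaussian E) := by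
      rw [integral_sub (integrable_const _) (hgU.integrable _)]
      simp
    rw [e1]
    refine abs_integral_le_integral_abs.trans (le_of_eq ?_)
    congr 1; funext y; exact abs_sub_comm _ _
  refine h1.trans ?_
  set C := Real.pi ^ 2 / 4 * (nn1 E / (2 * s) + 2 * nn2 E / s ^ 2) with hC
  have hn1 := nn1_nonneg (E := E)
  have hn2 := nn2_nonneg (E := E)
  have hpi := Real.pi_pos
  have hpi4 := Real.pi_le_four
  have hbound : ∀ n : ℕ, L ≤ Real.pi / 2 / s * M + C * (1 / ((n:ℝ) + 1))  := by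
    intro n
    set h := Real.pi / 2 / ((n:ℝ) + 1) with hh
    have hn0 : (0:ℝ) < (n:ℝ) + 1 := by positivity
    have hh0 : 0 < h := by positivity
    have hpath := rot_path hf hs hc0 hc1 h (n + 1)
    have e1 : ((n + 1 : ℕ) : ℝ) * h = Real.pi / 2 := by
      rw [hh]; push_cast; field_simp
    rw [e1, Real.cos_pi_div_two, Real.sin_pi_div_two, ← hM] at hpath
    simp only [zero_smul, zero_add, one_smul, add_zero] at hpath
    have hpath' : L ≤ ((n + 1 : ℕ) : ℝ) * (|Real.sin h| / s * M + |1 - Real.cos h| / s * nn1 E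
        + ((1 - Real.cos h) ^ 2 + Real.sin h ^ 2) / s ^ 2 * nn2 E) := hpath
    have hsin : |Real.sin h| ≤ h := by
      have := Real.abs_sin_le_abs (x := h)
      rwa [abs_of_pos hh0] at this
    have hcos1 : 1 - Real.cos h ≤ h ^ 2 / 2 := by
      have := Real.one_sub_sq_div_two_le_cos (x := h); linarith
    have hcos0 : 0 ≤ 1 - Real.cos h := by have := Real.cos_le_one h; linarith
    have hsq : (1 - Real.cos h) ^ 2 + Real.sin h ^ 2 ≤ 2 * h ^ 2 := by
      have e2 : (1 - Real.cos h) ^ 2 + Real.sin h ^ 2 = 2 * (1 - Real.cos h) := by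
        have := Real.cos_sq_add_sin_sq h
        nlinarith
      rw [e2]; nlinarith [sq_nonneg h]
    rw [abs_of_nonneg hcos0] at hpath'
    refine hpath'.trans ?_
    have h3 : |Real.sin h| / s * M + (1 - Real.cos h) / s * nn1 E
        + ((1 - Real.cos h) ^ 2 + Real.sin h ^ 2) / s ^ 2 * nn2 E
        ≤ h / s * M + h ^ 2 / 2 / s * nn1 E + 2 * h ^ 2 / s ^ 2 * nn2 E := by
      gcongr
    refine (mul_le_mul_of_nonneg_left h3 (by positivity)).trans (le_of_eq ?_)
    rw [hC, hh]
    push_cast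
    field_simp
    ring
  have hlim : Tendsto (fun n : ℕ => Real.pi / 2 / s * M + C * (1 / ((n:ℝ) + 1))) atTop
      (𝓝 (Real.pi / 2 / s * M + C * 0)) :=
    tendsto_const_nhds.add (tendsto_one_div_add_atTop_nhds_zero_nat.const_mul C)
  rw [mul_zero, add_zero] at hlim
  exact ge_of_tendsto hlim (Eventually.of_forall hbound)

end Vale.Agent.P262.H967
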