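import Vale.Agent.P262.H967.Scale2
import Vale.Agent.P262.H274.D8

/-!
# The level estimate for second moments
-/

set_option linter.unusedSectionVars false

namespace Vale.Agent.P262.H967

open MeasureTheory ProbabilityTheory Set Filter Topology Module
open scoped RealInnerProductSpace
open Vale.Agent.P262.H847 hiding gn
open Vale.Agent.P262.H912 Vale.Agent.P262.H941 Vale.Agent.P262.H274

variable {E : Type*} [NormedAddCommGroup E] [InnerProductSpace ℝ E] [FiniteDimensional ℝ E]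
  [MeasurableSpace E] [BorelSpace E]

lemma norm_perp_le (V : Submodule ℝ E) (x : E) :
    ‖(ContinuousLinearMap.id ℝ E - V.starProjection) x‖ ≤ ‖x‖ := by
  have h1 : (ContinuousLinearMap.id ℝ E - V.starProjection) x = Vᗮ.starProjection x := by
    rw [Submodule.starProjection_orthogonal]
  rw [h1]; exact Vᗮ.norm_starProjection_apply_le x

lemma pyth (V : Submodule ℝ E) (x : E) :
    ‖x‖ ^ 2 = ‖V.starProjection x‖ ^ 2
      + ‖(ContinuousLinearMap.id ℝ E - V.starProjection) x‖ ^ 2 := by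
  have h1 : (ContinuousLinearMap.id ℝ E - V.starProjection) x = Vᗮ.starProjection x := by
    rw [Submodule.starProjection_orthogonal]
  rw [h1]; exact Submodule.norm_sq_eq_add_norm_sq_starProjection x V

lemma split_sq (V : Submodule ℝ E) (m m1 m2 : E) :
    ‖m‖ ^ 2 ≤ ‖V.starProjection m‖ ^ 2
      + 3 * ‖(ContinuousLinearMap.id ℝ E - V.starProjection) m2‖ ^ 2
      + 3 * ‖m - m1‖ ^ 2 + 3 * ‖m1 - m2‖ ^ 2 := by
  set P : E →L[ℝ] E := ContinuousLinearMap.id ℝ E - V.starProjection with hP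
  rw [pyth V m, ← hP]
  have h1 : P m = P m2 + P (m - m1) + P (m1 - m2) := by
    rw [map_sub, map_sub]; abel
  have h2 : ‖P m‖ ≤ ‖P m2‖ + ‖m - m1‖ + ‖m1 - m2‖ := by
    rw [h1]
    refine (norm_add_le _ _).trans (add_le_add ((norm_add_le _ _).trans (add_le_add le_rfl ?_)) ?_)
    · exact norm_perp_le V _
    · exact norm_perp_le V _
  have h3 : ‖P m‖ ^ 2 ≤ (‖P m2‖ + ‖m - m1‖ + ‖m1 - m2‖) ^ 2 :=
    pow_le_pow_left₀ (norm_nonneg _) h2 2
  nlinarith [sq_nonneg (‖P m2‖ - ‖m - m1‖), sq_nonneg (‖P m2‖ - ‖m1 - m2‖),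
    sq_nonneg (‖m - m1‖ - ‖m1 - m2‖)]

/-- **Level estimate** for the field at the end of the interval. -/
theorem level_end {v : ℕ → E} {N : ℝ} {k l u : ℕ} {V : Submodule ℝ E} (hN0 : 0 < N)
    (hP : PivotAt v N k l u V) {e : ℕ → E → ℝ} (he : ∀ t, UI (e t)) {F : ℕ → ℝ}
    (hF : ∀ t, l ≤ t → t < u → FluxLe (e t) (v t) (F t))
    (hlu : l ≤ u) {η D : ℝ} (hη : Gam (gn e F) l u ≤ η)
    (hD : ∫ x, e u x ∂(stdGaussian E) ≤ D)
    {c s : ℝ} (hcs : c ^ 2 + s ^ 2 = 1) (hs : 0 < s) (hs1 : s ≤ 1)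
    {ε : ℝ} (hε : 0 < ε) (hε1 : ε ≤ 1) :
    ∫ y, ‖(ContinuousLinearMap.id ℝ E - V.starProjection) (mom (e u) s (c • y))‖ ^ 2
        ∂(stdGaussian E)
      ≤ 9 ^ k / (N * ε) * (Real.exp (1 / 2) * η
        + Real.exp (1 / 2) * (ε ^ 3 / 6 * (N ^ 3 * (104 * D)))) := by
  obtain ⟨-, hP⟩ := hP
  set P : E →L[ℝ] E := ContinuousLinearMap.id ℝ E - V.starProjection with hPdef
  have hsb := supp_bound2 (e := fun t => e (l + t)) (fun t => he (l + t)) (v := fun t => v (l + t))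
    (F := fun t => F (l + t)) hcs hs hs1 (u - l)
    (fun t ht => hF (l + t) (by omega) (by omega)) hN0.le (P := P) (lam := N / 9 ^ k)
    (by positivity) (norm_perp_le V) (fun m δ hδ => hP m δ hδ) hε hε1
  have hlu' : l + (u - l) = u := by omega
  have hsum : ∑ t ∈ Finset.range (u - l),
      (F (l + t) + ∫ x, |e (l + (t + 1)) x - e (l + t) x| ∂(stdGaussian E))
        = Gam (gn e F) l u := by
    unfold Gam gn
    rw [Finset.sum_Ico_eq_sum_range]
    rfl
  rw [hsum, hlu'] at hsb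
  set A := ∫ y, ‖P (mom (e u) s (c • y))‖ ^ 2 ∂(stdGaussian E) with hA
  have h9 : (0 : ℝ) < 9 ^ k := by positivity
  rw [div_mul_eq_mul_div, le_div_iff₀ (by positivity)]
  have h1 : Real.exp (1 / 2) * Gam (gn e F) l u ≤ Real.exp (1 / 2) * η :=
    mul_le_mul_of_nonneg_left hη (Real.exp_pos _).le
  have h2 : Real.exp (1 / 2) * (ε ^ 3 / 6 * (N ^ 3 * (104 * ∫ x, e u x ∂(stdGaussian E))))
      ≤ Real.exp (1 / 2) * (ε ^ 3 / 6 * (N ^ 3 * (104 * D))) := by gcongr
  have h3 : A * (N * ε) = 9 ^ k * (ε * (N / 9 ^ k * A)) := by field_simp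
  rw [h3]
  exact mul_le_mul_of_nonneg_left (by linarith) h9.le

/-- total estimate at one scale -/
theorem level_total {f e0 e1 : E → ℝ} (hf : UI f) (he0 : UI e0) (he1 : UI e1)
    (V : Submodule ℝ E) {s : ℝ} (hs0 : 0 ≤ s) (hs1 : s ≤ 1) {A X η : ℝ}
    (hA : ∫ y, ‖V.starProjection (mom f s (Real.sqrt (1 - s ^ 2) • y))‖ ^ 2
      ∂(stdGaussian E) ≤ A)
    (hX : ∫ y, ‖(ContinuousLinearMap.id ℝ E - V.starProjection)
      (mom e1 s (Real.sqrt (1 - s ^ 2) • y))‖ ^ 2 ∂(stdGaussian E) ≤ X)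
    (hη : ∫ x, |e0 x - e1 x| ∂(stdGaussian E) ≤ η) :
    M2 f s ≤ A + 3 * X + 3 * D2 f e0 s + 3 * η := by
  set c := Real.sqrt (1 - s ^ 2) with hc
  set P : E →L[ℝ] E := ContinuousLinearMap.id ℝ E - V.starProjection with hPdef
  have hcs := sqrt_scale hs0 hs1
  rw [← hc] at hcs
  have hm : ∀ {g : E → ℝ}, UI g → Measurable (fun y : E => mom g s (c • y)) := fun hg =>
    (measurable_mom hg s).comp (by fun_prop)
  have i0 : Integrable (fun y => ‖V.starProjection (mom f s (c • y))‖ ^ 2) (stdGaussian E) := by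
    refine Integrable.of_bound ((V.starProjection.continuous.measurable.comp
      (hm hf)).norm.pow_const 2).aestronglyMeasurable 1 (Eventually.of_forall fun y => ?_)
    rw [norm_pow, norm_norm]
    exact pow_le_one₀ (norm_nonneg _) ((V.norm_starProjection_apply_le _).trans
      (norm_mom_le_one hf s _))
  have i1 : Integrable (fun y => ‖P (mom e1 s (c • y))‖ ^ 2) (stdGaussian E) := by
    refine Integrable.of_bound ((P.continuous.measurable.comp
      (hm he1)).norm.pow_const 2).aestronglyMeasurable 1 (Eventually.of_forall fun y => ?_)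
    rw [norm_pow, norm_norm]
    exact pow_le_one₀ (norm_nonneg _) ((norm_perp_le V _).trans (norm_mom_le_one he1 s _))
  have isub : ∀ {g h : E → ℝ}, UI g → UI h → Integrable
      (fun y => ‖mom g s (c • y) - mom h s (c • y)‖ ^ 2) (stdGaussian E) := by
    intro g h hg hh
    refine Integrable.of_bound (((hm hg).sub (hm hh)).norm.pow_const 2).aestronglyMeasurable
      ((2:ℝ) ^ 2) (Eventually.of_forall fun y => ?_)
    rw [norm_pow, norm_norm]
    refine pow_le_pow_left₀ (norm_nonneg _) ?_ 2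
    refine (norm_sub_le _ _).trans ?_
    have := norm_mom_le_one hg s (c • y)
    have := norm_mom_le_one hh s (c • y)
    linarith
  have i2 := isub hf he0
  have i3 := isub he0 he1
  have hX3 := i1.const_mul 3
  have hD3 := i2.const_mul 3
  have hE3 := i3.const_mul 3
  have i01 : Integrable (fun y => ‖V.starProjection (mom f s (c • y))‖ ^ 2
      + 3 * ‖P (mom e1 s (c • y))‖ ^ 2) (stdGaussian E) := i0.add hX3
  have i012 : Integrable (fun y => (‖V.starProjection (mom f s (c • y))‖ ^ 2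
      + 3 * ‖P (mom e1 s (c • y))‖ ^ 2) + 3 * ‖mom f s (c • y) - mom e0 s (c • y)‖ ^ 2)
      (stdGaussian E) := i01.add hD3
  have h1 : M2 f s ≤ ∫ y, (((‖V.starProjection (mom f s (c • y))‖ ^ 2
      + 3 * ‖P (mom e1 s (c • y))‖ ^ 2) + 3 * ‖mom f s (c • y) - mom e0 s (c • y)‖ ^ 2)
      + 3 * ‖mom e0 s (c • y) - mom e1 s (c • y)‖ ^ 2) ∂(stdGaussian E) := by
    refine integral_mono_of_nonneg (Eventually.of_forall fun y => sq_nonneg _)
      (i012.add hE3) (Eventually.of_forall fun y => ?_)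
    exact split_sq V _ _ _
  have e1' : ∫ y, (((‖V.starProjection (mom f s (c • y))‖ ^ 2
      + 3 * ‖P (mom e1 s (c • y))‖ ^ 2) + 3 * ‖mom f s (c • y) - mom e0 s (c • y)‖ ^ 2)
      + 3 * ‖mom e0 s (c • y) - mom e1 s (c • y)‖ ^ 2) ∂(stdGaussian E)
      = ((∫ y, ‖V.starProjection (mom f s (c • y))‖ ^ 2 ∂(stdGaussian E)
      + 3 * ∫ y, ‖P (mom e1 s (c • y))‖ ^ 2 ∂(stdGaussian E))
      + 3 * ∫ y, ‖mom f s (c • y) - mom e0 s (c • y)‖ ^ 2 ∂(stdGaussian E))
      + 3 * ∫ y, ‖mom e0 s (c • y) - mom e1 s (c • y)‖ ^ 2 ∂(stdGaussian E) := by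
    rw [integral_add i012 hE3, integral_add i01 hD3, integral_add i0 hX3,
      integral_const_mul, integral_const_mul, integral_const_mul]
  rw [e1'] at h1
  have h2 := mom_change_sq he0 he1 hcs
  have h3 : D2 f e0 s = ∫ y, ‖mom f s (c • y) - mom e0 s (c • y)‖ ^ 2 ∂(stdGaussian E) := rfl
  rw [h3]
  linarith

end Vale.Agent.P262.H967
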