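import Vale.Agent.P262.H967.Unhealthy
import Vale.Agent.P262.H274.D9b

/-!
# Gain-cost lemma, unhealthy case, with intermediate fields
-/

set_option linter.unusedSectionVars false

namespace Vale.Agent.P262.H967

open MeasureTheory ProbabilityTheory Set Filter Topology Module
open scoped RealInnerProductSpace
open Vale.Agent.P262.H847 hiding gn
open Vale.Agent.P262.H912 Vale.Agent.P262.H941 Vale.Agent.P262.H274

variable {E : Type*} [NormedAddCommGroup E] [InnerProductSpace ℝ E] [FiniteDimensional ℝ E]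
  [MeasurableSpace E] [BorelSpace E]

/-- a property of both sequences at every time is a property of the doubled sequence -/
lemma mix_prop {α : Type*} {e f : ℕ → α} {P : α → Prop} {a b : ℕ}
    (he : ∀ t, a ≤ t → t < b → P (e t)) (hf : ∀ t, a ≤ t → t < b → P (f t)) :
    ∀ s, 2 * a ≤ s → s < 2 * b → P (mix e f s) := by
  intro s hs1 hs2
  rcases Nat.even_or_odd' s with ⟨t, rfl | rfl⟩
  · rw [mix_even]; exact he t (by omega) (by omega)
  · rw [mix_odd]; exact hf t (by omega) (by omega)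

/-- **Gain-cost lemma, unhealthy case**, with intermediate fields `fh t` and intermediate bodies
`Kh t`, at which the flux of step `t` is taken. -/
theorem gain_cost_unhealthy_mid {th : ℝ} (hth0 : 0 < th) (hth1 : th ≤ 1) (v : ℕ → E) {N ρ : ℝ}
    (hN0 : 0 < N) (hN1 : N ≤ 1) (hρ0 : 0 < ρ) (hρ1 : ρ ≤ 1 / 216) {a b : ℕ} (hab : a < b)
    (hS : ¬ Slow v N 1 a b) {f fh : ℕ → E → ℝ} (hf : ∀ t, UI (f t)) (hfh : ∀ t, UI (fh t))
    {F : ℕ → ℝ} (hF : ∀ t, a ≤ t → t < b → FluxLe (fh t) (v t) (F t)) {K Kh : ℕ → Set E}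
    (hK : ∀ t, a ≤ t → t < b → Convex ℝ (K t)) (hKc : ∀ t, a ≤ t → t < b → Convex ℝ (Kh t))
    (hKm : ∀ t, a ≤ t → t < b → MeasurableSet (K t))
    (hKhm : ∀ t, a ≤ t → t < b → MeasurableSet (Kh t))
    (hKu : ∀ t, a ≤ t → t < b →
      th * (stdGaussian E).real (K t) ≤ 1 - (stdGaussian E).real (K t))
    (hKhu : ∀ t, a ≤ t → t < b →
      th * (stdGaussian E).real (Kh t) ≤ 1 - (stdGaussian E).real (Kh t))
    {q : ℝ} (hq0 : 0 < q) (hq : ∀ t, a ≤ t → t < b → q ≤ (stdGaussian E).real (K t))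
    (hqh : ∀ t, a ≤ t → t < b → q ≤ (stdGaussian E).real (Kh t))
    (hfK : ∀ t, a ≤ t → t < b → ∫ x, |f t x - (K t).indicator (fun _ => (1:ℝ)) x| ∂(stdGaussian E)
      ≤ th / 1000 * (stdGaussian E).real (K t))
    (hfKh : ∀ t, a ≤ t → t < b →
      ∫ x, |fh t x - (Kh t).indicator (fun _ => (1:ℝ)) x| ∂(stdGaussian E)
      ≤ th / 1000 * (stdGaussian E).real (Kh t)) :
    cU th * N * q * Cost (Slow v N) ρ a b ≤ Gam (gh f fh F) a b := by
  refine adapter hab.le hN0.le hρ0.le (c := cU th * N * q)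
    (by have := (cU_pos hth0).le; positivity) ?_
  have hpair : ∀ s, 2 * a ≤ s → s < 2 * b →
      ∫ x, |mix f fh s x - (mix K Kh s).indicator (fun _ => (1:ℝ)) x| ∂(stdGaussian E)
      ≤ th / 1000 * (stdGaussian E).real (mix K Kh s) := by
    intro s hs1 hs2
    rcases Nat.even_or_odd' s with ⟨t, rfl | rfl⟩
    · rw [mix_even, mix_even]; exact hfK t (by omega) (by omega)
    · rw [mix_odd, mix_odd]; exact hfKh t (by omega) (by omega)
  exact gain_cost_unhealthy hth0 hth1 (dbl v) hN0 hN1 hρ0 hρ1 (by omega)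
    (not_slow_double hS) (mix_UI hf hfh) (fluxLe_dbl hF)
    (mix_prop (P := fun X => Convex ℝ X) hK hKc) (mix_prop (P := fun X => MeasurableSet X) hKm hKhm)
    (mix_prop (P := fun X => th * (stdGaussian E).real X ≤ 1 - (stdGaussian E).real X) hKu hKhu)
    hq0 (mix_prop (P := fun X => q ≤ (stdGaussian E).real X) hq hqh) hpair

end Vale.Agent.P262.H967
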