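import Vale.Agent.P262.H967.L1P
import Vale.Agent.P262.H733.Cov
import Vale.Agent.P262.H912.Bridge2

/-!
# Neighbourhoods of convex bodies and oscillation of their averages
-/

set_option linter.unusedSectionVars false

namespace Vale.Agent.P262.H967

open MeasureTheory ProbabilityTheory Set Filter Topology Module Metric
open scoped RealInnerProductSpace Pointwise
open Vale.Agent.P262.H847 Vale.Agent.P262.H912 Vale.Agent.P262.H941
open Vale.Agent.P262.Ehr (gam)

variable {E : Type*} [NormedAddCommGroup E] [InnerProductSpace ℝ E] [FiniteDimensional ℝ E]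
  [MeasurableSpace E] [BorelSpace E]

/-! ### Dilations -/

lemma gam_scale_le {n : ℕ} {κ : ℝ} (hκ : 1 ≤ κ) (A : Set (Fin n → ℝ)) (hA : MeasurableSet A) :
    gam n {z | (fun i => κ⁻¹ * z i) ∈ A} ≤ ENNReal.ofReal (κ ^ n) * gam n A := by
  have hκ0 : 0 < κ := by linarith
  set e : Fin n → ℝ := fun _ => 1 - κ ^ 2 with he
  have he1 : ∀ i, e i < 1 := fun i => by simp only [he]; nlinarith
  have hsq : ∀ i, √(1 - e i) = κ := fun i => by
    simp only [he]
    rw [show 1 - (1 - κ ^ 2) = κ ^ 2 by ring, Real.sqrt_sq hκ0.le]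
  have hT : H733.T e = fun z i => κ⁻¹ * z i := by
    funext z i
    simp only [H733.T, hsq]
  have h1 := H733.map_T e he1
  have h2 : gam n {z | (fun i => κ⁻¹ * z i) ∈ A} = ((H733.G n).map (H733.T e)) A := by
    rw [Measure.map_apply (H733.measurable_T e) hA, hT]
    rfl
  rw [h2, h1, withDensity_apply _ hA]
  have h3 : ∀ x, ENNReal.ofReal (H733.R e x) ≤ ENNReal.ofReal (κ ^ n) := by
    intro x
    apply ENNReal.ofReal_le_ofReal
    unfold H733.R
    calc ∏ i, H733.rho1 (e i) (x i) ≤ ∏ _i : Fin n, κ := by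
          apply Finset.prod_le_prod (fun i _ => H733.rho1_nonneg _ _)
          intro i _
          unfold H733.rho1
          rw [hsq i]
          have h4 : Real.exp (e i * x i ^ 2 / 2) ≤ 1 := by
            apply Real.exp_le_one_iff.mpr
            have : e i ≤ 0 := by simp only [he]; nlinarith
            nlinarith [sq_nonneg (x i)]
          exact mul_le_of_le_one_right hκ0.le h4
      _ = κ ^ n := by simp
  calc ∫⁻ x in A, ENNReal.ofReal (H733.R e x) ∂(H733.G n)
      ≤ ∫⁻ _x in A, ENNReal.ofReal (κ ^ n) ∂(H733.G n) := lintegral_mono h3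
    _ = ENNReal.ofReal (κ ^ n) * gam n A := by
        rw [lintegral_const, Measure.restrict_apply_univ]

/-- Dilating a set by `κ ≥ 1` multiplies its Gaussian measure by at most `κ ^ dim`. -/
lemma dilate_le {K : Set E} (hKm : MeasurableSet K) {κ : ℝ} (hκ : 1 ≤ κ) :
    (stdGaussian E).real {x | κ⁻¹ • x ∈ K} ≤ κ ^ finrank ℝ E * (stdGaussian E).real K := by
  set e := stdOrthonormalBasis ℝ E
  have hm := measurable_syn e
  have hKs : MeasurableSet {x : E | κ⁻¹ • x ∈ K} :=
    hKm.preimage (by fun_prop : Measurable fun x : E => κ⁻¹ • x)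
  have h1 : (stdGaussian E) {x | κ⁻¹ • x ∈ K}
      ≤ ENNReal.ofReal (κ ^ finrank ℝ E) * (stdGaussian E) K := by
    rw [← map_syn e, Measure.map_apply hm hKs, Measure.map_apply hm hKm]
    refine le_trans (le_of_eq ?_) (gam_scale_le hκ _ (hm hKm))
    congr 1
    ext z
    show κ⁻¹ • syn e z ∈ K ↔ syn e (fun i => κ⁻¹ * z i) ∈ K
    have : κ⁻¹ • syn e z = syn e (fun i => κ⁻¹ * z i) := by
      unfold syn
      rw [Finset.smul_sum]
      exact Finset.sum_congr rfl fun i _ => by rw [smul_smul]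
    rw [this]
  rw [measureReal_def, measureReal_def]
  have h2 := ENNReal.toReal_mono (by finiteness) h1
  rwa [ENNReal.toReal_mul, ENNReal.toReal_ofReal (by positivity)] at h2

/-! ### Separation -/

lemma sep_unit {S : Set E} (hS : Convex ℝ S) (hSc : IsClosed S) (hne : S.Nonempty) {y : E}
    (hy : y ∉ S) : ∃ b : E, ‖b‖ = 1 ∧ ∃ α : ℝ, (∀ a ∈ S, ⟪b, a⟫ ≤ α) ∧ α < ⟪b, y⟫ := by
  obtain ⟨f, u, h1, h2⟩ := geometric_hahn_banach_closed_point hS hSc hy
  set w := (InnerProductSpace.toDual ℝ E).symm f with hw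
  have hf : ∀ x, f x = ⟪w, x⟫ := fun x => by
    rw [hw, InnerProductSpace.toDual_symm_apply]
  have hw0 : w ≠ 0 := by
    intro h0
    obtain ⟨a, ha⟩ := hne
    have h3 := h1 a ha
    rw [hf, h0, inner_zero_left] at h3
    rw [hf, h0, inner_zero_left] at h2
    linarith
  have hn : 0 < ‖w‖ := norm_pos_iff.mpr hw0
  refine ⟨‖w‖⁻¹ • w, by rw [norm_smul, norm_inv, norm_norm, inv_mul_cancel₀ hn.ne'],
    ‖w‖⁻¹ * u, fun a ha => ?_, ?_⟩
  · rw [real_inner_smul_left]
    exact mul_le_mul_of_nonneg_left (by rw [← hf]; exact (h1 a ha).le) (by positivity)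
  · rw [real_inner_smul_left]
    exact mul_lt_mul_of_pos_left (by rw [← hf]; exact h2) (by positivity)

lemma halfspace_le {S : Set E} {b : E} (hb : ‖b‖ = 1) {α : ℝ} (h : ∀ a ∈ S, ⟪b, a⟫ ≤ α) :
    (stdGaussian E).real S ≤ Phi α := by
  have h1 : (stdGaussian E).real S ≤ (stdGaussian E).real {x | ⟪b, x⟫ ≤ α} :=
    measureReal_mono h
  refine h1.trans (le_of_eq ?_)
  have h2 : Phi α = ((stdGaussian E).map (fun x => ⟪b, x⟫)).real (Iic α) := by
    rw [map_inner_unit hb]; rfl
  rw [h2, measureReal_def, measureReal_def, Measure.map_apply (by fun_prop) measurableSet_Iic]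
  rfl

/-- a closed convex body of large measure contains a ball -/
lemma ball_of_measure {S : Set E} (hS : Convex ℝ S) (hSc : IsClosed S)
    (h : 15 / 16 < (stdGaussian E).real S) {y : E} (hy : ‖y‖ ≤ 7 / 8) : y ∈ S := by
  by_contra hyS
  have hne : S.Nonempty := by
    rw [nonempty_iff_ne_empty]
    intro h0
    rw [h0, measureReal_empty] at h
    linarith
  obtain ⟨b, hb, α, h1, h2⟩ := sep_unit hS hSc hne hyS
  have h3 : ⟪b, y⟫ ≤ 7 / 8 := by
    refine (real_inner_le_norm _ _).trans ?_
    rw [hb, one_mul]; exact hy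
  have h4 := halfspace_le hb h1
  have h5 : Phi α ≤ Phi (7 / 8) := strictMono_Phi.monotone (by linarith)
  have h6 := Phi_lip (show (0:ℝ) ≤ 7 / 8 by norm_num)
  have h7 : Phi 0 = 1 / 2 := Phi_zero
  linarith

lemma infDist_le_of_mem {C : Set E} {ε : ℝ} (hε : 0 ≤ ε) {x : E} (hx : x ∈ cthickening ε C) :
    infDist x C ≤ ε := by
  rw [mem_cthickening_iff] at hx
  have h1 := ENNReal.toReal_mono ENNReal.ofReal_ne_top hx
  rwa [ENNReal.toReal_ofReal hε] at h1

/-- if a neighbourhood of a convex set has large measure, the set contains a ball -/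
lemma ball_of_nbhd {C : Set E} (hC : Convex ℝ C) (hne : C.Nonempty) {ε : ℝ} (hε : 0 ≤ ε)
    (hε1 : ε ≤ 3 / 8)
    (h : 15 / 16 < (stdGaussian E).real (cthickening ε C)) {y : E} (hy : ‖y‖ < 1 / 2) : y ∈ C := by
  have hclo : ∀ y : E, ‖y‖ ≤ 1 / 2 → y ∈ closure C := by
    intro y hy
    by_contra hyC
    obtain ⟨b, hb, α, h1, h2⟩ := sep_unit hC.closure isClosed_closure hne.closure hyC
    have h3 : y + ε • b ∈ cthickening ε C := by
      apply ball_of_measure (hC.cthickening ε) isClosed_cthickening h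
      refine (norm_add_le _ _).trans ?_
      rw [norm_smul, hb, mul_one, Real.norm_eq_abs, abs_of_nonneg hε]
      linarith
    replace h3 := infDist_le_of_mem hε h3
    have h4 : ε + (⟪b, y⟫ - α) ≤ infDist (y + ε • b) C := by
      rw [le_infDist hne]
      intro k hk
      have h5 := h1 k (subset_closure hk)
      have h6 : ⟪b, y + ε • b - k⟫ ≤ ‖y + ε • b - k‖ := by
        refine (real_inner_le_norm _ _).trans ?_
        rw [hb, one_mul]
      rw [inner_sub_right, inner_add_right, real_inner_smul_right, real_inner_self_eq_norm_sq,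
        hb] at h6
      rw [dist_eq_norm]
      linarith
    linarith
  have hball : ball (0:E) (1 / 2) ⊆ closure C := fun z hz => by
    rw [mem_ball_zero_iff] at hz
    exact hclo z hz.le
  have hspan : affineSpan ℝ C = ⊤ := by
    have h1 : affineSpan ℝ (ball (0:E) (1 / 2)) = ⊤ :=
      isOpen_ball.affineSpan_eq_top ⟨0, by simp⟩
    rw [eq_top_iff, ← h1]
    apply affineSpan_le.mpr
    have h2 : IsClosed (affineSpan ℝ C : Set E) :=
      (affineSpan ℝ C).closed_of_finiteDimensional
    exact hball.trans (closure_minimal (subset_affineSpan ℝ C) h2)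
  have hint : (interior C).Nonempty := hC.interior_nonempty_iff_affineSpan_eq_top.mpr hspan
  have h5 : y ∈ interior (closure C) := by
    rw [mem_interior]
    exact ⟨ball 0 (1 / 2), hball, isOpen_ball, by rw [mem_ball_zero_iff]; exact hy⟩
  rw [hC.interior_closure_eq_interior_of_nonempty_interior hint] at h5
  exact interior_subset h5

/-- **Neighbourhoods**: a thin neighbourhood of `c K` cannot be large when `K` is not. -/
lemma nbhd_measure {K : Set E} (hK : Convex ℝ K) (hKm : MeasurableSet K)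
    (hq1 : (stdGaussian E).real K ≤ 7 / 8) (hne : K.Nonempty) {c : ℝ} (hc0 : 0 < c) (hc1 : c ≤ 1)
    {ε : ℝ} (hε : 0 < ε) (hε1 : 60 * (ε * finrank ℝ E) ≤ 1) (hd : 1 ≤ finrank ℝ E) :
    (stdGaussian E).real (cthickening ε (c • K)) ≤ 15 / 16 := by
  by_contra hcon
  push Not at hcon
  have hd' : (1:ℝ) ≤ finrank ℝ E := by exact_mod_cast hd
  have hε2 : ε ≤ 3 / 8 := by nlinarith
  set C : Set E := c • K with hC
  have hCc : Convex ℝ C := hK.smul c
  have hCne : C.Nonempty := hne.smul_set
  have hball : ∀ y : E, ‖y‖ < 1 / 2 → y ∈ C := fun y hy =>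
    ball_of_nbhd hCc hCne hε.le hε2 hcon hy
  have h0 : (0:E) ∈ K := by
    obtain ⟨k, hk, hk2⟩ := hball 0 (by rw [norm_zero]; norm_num)
    have : k = 0 := by
      have h1 : c • k = 0 := hk2
      exact (smul_eq_zero.mp h1).resolve_left hc0.ne'
    rwa [this] at hk
  have hCK : C ⊆ K := by
    rintro _ ⟨k, hk, rfl⟩
    have := hK hk h0 hc0.le (by linarith : (0:ℝ) ≤ 1 - c) (by ring)
    simpa using this
  set κ : ℝ := 1 + 4 * ε with hκ
  have hκ1 : 1 ≤ κ := by rw [hκ]; linarith
  have hκ0 : 0 < κ := by linarith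
  have hsub : cthickening ε C ⊆ {x | κ⁻¹ • x ∈ K} := by
    intro y hy
    have h1 := infDist_le_of_mem hε.le hy
    obtain ⟨k, hk, hk2⟩ := (infDist_lt_iff hCne).mp (lt_of_le_of_lt h1 (by linarith : ε < 2 * ε))
    show κ⁻¹ • y ∈ K
    apply hCK
    have h2 : (1 / (4 * ε)) • (y - k) ∈ C := by
      apply hball
      rw [norm_smul, Real.norm_eq_abs, abs_of_pos (by positivity), ← dist_eq_norm]
      calc 1 / (4 * ε) * dist y k < 1 / (4 * ε) * (2 * ε) :=
            mul_lt_mul_of_pos_left hk2 (by positivity)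
        _ = 1 / 2 := by field_simp; norm_num
    have h3 := hCc hk h2 (show (0:ℝ) ≤ κ⁻¹ by positivity)
      (show (0:ℝ) ≤ κ⁻¹ * (4 * ε) by positivity) (by rw [hκ]; field_simp)
    have h4 : κ⁻¹ • k + (κ⁻¹ * (4 * ε)) • (1 / (4 * ε)) • (y - k) = κ⁻¹ • y := by
      rw [smul_smul, mul_assoc, mul_one_div_cancel (by positivity), mul_one, smul_sub]
      abel
    rwa [h4] at h3
  have h1 : (stdGaussian E).real (cthickening ε C)
      ≤ κ ^ finrank ℝ E * (stdGaussian E).real K :=
    (measureReal_mono hsub).trans (dilate_le hKm hκ1)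
  have h2 : κ ^ finrank ℝ E ≤ 15 / 14 := by
    have h3 : κ ≤ Real.exp (4 * ε) := by
      rw [hκ]; have := Real.add_one_le_exp (4 * ε); linarith
    have h4 : κ ^ finrank ℝ E ≤ Real.exp (4 * ε) ^ finrank ℝ E :=
      pow_le_pow_left₀ hκ0.le h3 _
    rw [← Real.exp_nat_mul] at h4
    have h5 : Real.exp (finrank ℝ E * (4 * ε)) ≤ Real.exp (1 / 15) :=
      Real.exp_le_exp.mpr (by nlinarith)
    have h6 : Real.exp (1 / 15) ≤ 15 / 14 := by
      have h7 := Real.add_one_le_exp (-(1 / 15 : ℝ))
      rw [Real.exp_neg] at h7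
      have h8 := Real.exp_pos (1 / 15 : ℝ)
      have h9 : (14 / 15 : ℝ) ≤ (Real.exp (1 / 15))⁻¹ := by linarith
      rw [le_inv_comm₀ (by norm_num) h8] at h9
      norm_num at h9 ⊢
      exact h9
    linarith
  have h3 : κ ^ finrank ℝ E * (stdGaussian E).real K ≤ 15 / 14 * (7 / 8) :=
    mul_le_mul h2 hq1 measureReal_nonneg (by norm_num)
  linarith

/-! ### The norm -/

lemma nn2_eq : nn2 E = finrank ℝ E := by
  unfold nn2
  have h1 : ∀ x : E, ‖x‖ ^ 2 = ∑ i, ⟪(stdOrthonormalBasis ℝ E) i, x⟫ ^ 2 := by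
    intro x
    rw [← (stdOrthonormalBasis ℝ E).sum_sq_norm_inner_right x]
    exact Finset.sum_congr rfl fun i _ => by rw [Real.norm_eq_abs, sq_abs]
  simp_rw [h1]
  rw [integral_finsetSum _ fun i _ => integrable_inner_sq _]
  simp_rw [integral_inner_sq, (stdOrthonormalBasis ℝ E).norm_eq_one]
  simp

lemma norm_markov (hd : 1 ≤ finrank ℝ E) :
    35 / 36 ≤ (stdGaussian E).real (closedBall (0:E) (6 * finrank ℝ E)) := by
  have hd' : (1:ℝ) ≤ finrank ℝ E := by exact_mod_cast hd
  have h1 : ∀ x : E, 1 - ‖x‖ ^ 2 / (36 * (finrank ℝ E : ℝ) ^ 2)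
      ≤ (closedBall (0:E) (6 * finrank ℝ E)).indicator (fun _ => (1:ℝ)) x := by
    intro x
    by_cases hx : x ∈ closedBall (0:E) (6 * finrank ℝ E)
    · rw [indicator_of_mem hx]
      have : 0 ≤ ‖x‖ ^ 2 / (36 * (finrank ℝ E : ℝ) ^ 2) := by positivity
      linarith
    · rw [indicator_of_notMem hx]
      rw [mem_closedBall_zero_iff, not_le] at hx
      have h2 : 36 * (finrank ℝ E : ℝ) ^ 2 ≤ ‖x‖ ^ 2 := by
        have := pow_le_pow_left₀ (by positivity) hx.le 2
        nlinarith
      have h3 : 1 ≤ ‖x‖ ^ 2 / (36 * (finrank ℝ E : ℝ) ^ 2) := by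
        rw [one_le_div (by positivity)]; exact h2
      linarith
  have hi := (integrable_norm_sq (E := E)).div_const (36 * (finrank ℝ E : ℝ) ^ 2)
  have hm : MeasurableSet (closedBall (0:E) (6 * finrank ℝ E)) :=
    isClosed_closedBall.measurableSet
  have h2 := integral_mono ((integrable_const 1).sub hi)
    ((integrable_const (1:ℝ)).indicator hm) h1
  rw [integral_ind hm] at h2
  have h3 : ∫ x : E, (1 - ‖x‖ ^ 2 / (36 * (finrank ℝ E : ℝ) ^ 2)) ∂(stdGaussian E)
      = 1 - finrank ℝ E / (36 * (finrank ℝ E : ℝ) ^ 2) := by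
    rw [integral_sub (integrable_const _) hi, integral_div, ← nn2_eq]
    simp [nn2]
  have h4 : (finrank ℝ E : ℝ) / (36 * (finrank ℝ E : ℝ) ^ 2) ≤ 1 / 36 := by
    rw [div_le_div_iff₀ (by positivity) (by norm_num)]
    nlinarith
  have h5 : ∫ x : E, (1 - ‖x‖ ^ 2 / (36 * (finrank ℝ E : ℝ) ^ 2)) ∂(stdGaussian E)
      ≤ (stdGaussian E).real (closedBall (0:E) (6 * finrank ℝ E)) := h2
  linarith

/-- the mass of the averages near the body -/
lemma nbhd_mass {K : Set E} (hKm : MeasurableSet K) {c s : ℝ} (hcs : c ^ 2 + s ^ 2 = 1)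
    (hs : 0 ≤ s) {r : ℝ} :
    (stdGaussian E).real K * (stdGaussian E).real (closedBall (0:E) r)
      ≤ ∫ y, (cthickening (s * r) (c • K)).indicator (fun _ => (1:ℝ)) y
          * avg (K.indicator (fun _ => (1:ℝ))) s (c • y) ∂(stdGaussian E) := by
  set S := cthickening (s * r) (c • K) with hS
  have hSm : MeasurableSet S := isClosed_cthickening.measurableSet
  have hBm : MeasurableSet (closedBall (0:E) r) := isClosed_closedBall.measurableSet
  have hKU : UI (K.indicator (fun _ => (1:ℝ))) := UI.indicator hKm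
  have hSU : UI (S.indicator (fun _ => (1:ℝ))) := UI.indicator hSm
  have hBU : UI ((closedBall (0:E) r).indicator (fun _ => (1:ℝ))) := UI.indicator hBm
  have hi1 : Integrable (fun p : E × E => K.indicator (fun _ => (1:ℝ)) p.1
      * (closedBall (0:E) r).indicator (fun _ => (1:ℝ)) p.2)
      ((stdGaussian E).prod (stdGaussian E)) :=
    (hKU.integrable _).mul_prod (hBU.integrable _)
  have hFm : Measurable (fun p : E × E => K.indicator (fun _ => (1:ℝ)) p.1
      * S.indicator (fun _ => (1:ℝ)) (c • p.1 + s • p.2)) :=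
    (hKU.meas.comp measurable_fst).mul (hSU.meas.comp (by fun_prop))
  have hi2 : Integrable (fun p : E × E => K.indicator (fun _ => (1:ℝ)) p.1
      * S.indicator (fun _ => (1:ℝ)) (c • p.1 + s • p.2))
      ((stdGaussian E).prod (stdGaussian E)) := by
    refine Integrable.of_bound hFm.aestronglyMeasurable 1 (Eventually.of_forall fun p => ?_)
    rw [norm_mul, Real.norm_eq_abs, Real.norm_eq_abs, abs_of_nonneg (hKU.nonneg _),
      abs_of_nonneg (hSU.nonneg _)]
    exact mul_le_one₀ (hKU.le_one _) (hSU.nonneg _) (hSU.le_one _)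
  have h1 : (stdGaussian E).real K * (stdGaussian E).real (closedBall (0:E) r)
      = ∫ p : E × E, K.indicator (fun _ => (1:ℝ)) p.1
      * (closedBall (0:E) r).indicator (fun _ => (1:ℝ)) p.2
      ∂((stdGaussian E).prod (stdGaussian E)) := by
    rw [integral_prod_mul, integral_ind hKm, integral_ind hBm]
  have h2 : ∫ p : E × E, K.indicator (fun _ => (1:ℝ)) p.1
      * (closedBall (0:E) r).indicator (fun _ => (1:ℝ)) p.2
      ∂((stdGaussian E).prod (stdGaussian E))
      ≤ ∫ p : E × E, K.indicator (fun _ => (1:ℝ)) p.1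
      * S.indicator (fun _ => (1:ℝ)) (c • p.1 + s • p.2)
      ∂((stdGaussian E).prod (stdGaussian E)) := by
    refine integral_mono hi1 hi2 fun p => ?_
    show K.indicator (fun _ => (1:ℝ)) p.1 * (closedBall (0:E) r).indicator (fun _ => (1:ℝ)) p.2
      ≤ K.indicator (fun _ => (1:ℝ)) p.1 * S.indicator (fun _ => (1:ℝ)) (c • p.1 + s • p.2)
    by_cases hp1 : p.1 ∈ K
    · by_cases hp2 : p.2 ∈ closedBall (0:E) r
      · have h3 : c • p.1 + s • p.2 ∈ S := by
          apply mem_cthickening_of_dist_le _ (c • p.1) _ _ (smul_mem_smul_set hp1)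
          rw [dist_eq_norm, add_sub_cancel_left, norm_smul, Real.norm_eq_abs, abs_of_nonneg hs]
          rw [mem_closedBall_zero_iff] at hp2
          exact mul_le_mul_of_nonneg_left hp2 hs
        rw [indicator_of_mem hp1, indicator_of_mem hp2, indicator_of_mem h3]
      · rw [indicator_of_notMem hp2, mul_zero]
        exact mul_nonneg (hKU.nonneg _) (hSU.nonneg _)
    · rw [indicator_of_notMem hp1, zero_mul, zero_mul]
  have h3 : ∫ p : E × E, K.indicator (fun _ => (1:ℝ)) p.1
      * S.indicator (fun _ => (1:ℝ)) (c • p.1 + s • p.2)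
      ∂((stdGaussian E).prod (stdGaussian E))
      = ∫ y, S.indicator (fun _ => (1:ℝ)) y
          * avg (K.indicator (fun _ => (1:ℝ))) s (c • y) ∂(stdGaussian E) := by
    conv_lhs => rw [← rot_prod hcs]
    rw [integral_map (by fun_prop) hFm.aestronglyMeasurable, integral_prod]
    · congr 1; funext y
      unfold avg
      rw [← integral_const_mul]
      congr 1; funext z
      have e1 : c • (c • y + s • z) + s • (s • y - c • z) = y := by
        have e2 : c • (c • y + s • z) + s • (s • y - c • z) = (c ^ 2 + s ^ 2) • y := by module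
        rw [e2, hcs, one_smul]
      simp only
      rw [e1, mul_comm]
    · refine Integrable.of_bound (hFm.comp (by fun_prop)).aestronglyMeasurable 1
        (Eventually.of_forall fun p => ?_)
      rw [norm_mul, Real.norm_eq_abs, Real.norm_eq_abs, abs_of_nonneg (hKU.nonneg _),
        abs_of_nonneg (hSU.nonneg _)]
      exact mul_le_one₀ (hKU.le_one _) (hSU.nonneg _) (hSU.le_one _)
  rw [h1]
  exact h2.trans_eq h3

/-- **Oscillation** of the averages of a convex body at a polynomially small scale. -/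
theorem osc_lower {K : Set E} (hK : Convex ℝ K) (hKm : MeasurableSet K)
    (hq0 : 0 < (stdGaussian E).real K) (hq1 : (stdGaussian E).real K ≤ 7 / 8) {c s : ℝ}
    (hcs : c ^ 2 + s ^ 2 = 1) (hc0 : 0 < c) (hs : 0 < s)
    (hs1 : 360 * (s * (finrank ℝ E : ℝ) ^ 2) ≤ 1) :
    (stdGaussian E).real K / 16
      ≤ ∫ y, |avg (K.indicator (fun _ => (1:ℝ))) s (c • y) - (stdGaussian E).real K|
        ∂(stdGaussian E) := by
  have hc1 : c ≤ 1 := by nlinarith [sq_nonneg s]
  have hne : K.Nonempty := by
    rw [nonempty_iff_ne_empty]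
    intro h0
    rw [h0, measureReal_empty] at hq0
    exact lt_irrefl _ hq0
  have hd : 1 ≤ finrank ℝ E := by
    by_contra h0
    have h1 : finrank ℝ E = 0 := by omega
    have hsub : Subsingleton E := finrank_zero_iff.mp h1
    obtain ⟨x, hx⟩ := hne
    have h4 : K = univ := by
      ext y
      simp only [mem_univ, iff_true]
      rwa [Subsingleton.elim y x]
    rw [h4, probReal_univ] at hq1
    norm_num at hq1
  have hd' : (1:ℝ) ≤ finrank ℝ E := by exact_mod_cast hd
  set f : E → ℝ := K.indicator (fun _ => (1:ℝ)) with hf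
  have hKU : UI f := UI.indicator hKm
  set q := (stdGaussian E).real K with hq
  set r : ℝ := 6 * finrank ℝ E with hr
  set S := cthickening (s * r) (c • K) with hS
  have hSm : MeasurableSet S := isClosed_cthickening.measurableSet
  have hSU : UI (S.indicator (fun _ => (1:ℝ))) := UI.indicator hSm
  have h1 := nbhd_mass hKm hcs hs.le (r := r)
  have h2 : (stdGaussian E).real S ≤ 15 / 16 := by
    apply nbhd_measure hK hKm hq1 hne hc0 hc1 (by positivity) _ hd
    rw [hr]
    nlinarith
  have h3 := norm_markov hd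
  rw [← hr] at h3
  have hAU := UI.comp (UI.avg hKU s) (T := fun y : E => c • y) (by fun_prop)
  have hAi := hAU.integrable (stdGaussian E)
  have hSi := hSU.integrable (stdGaussian E)
  have hmul : Integrable (fun y => S.indicator (fun _ => (1:ℝ)) y * avg f s (c • y))
      (stdGaussian E) := by
    refine Integrable.of_bound (hSU.meas.mul hAU.meas).aestronglyMeasurable 1
      (Eventually.of_forall fun y => ?_)
    rw [norm_mul, Real.norm_eq_abs, Real.norm_eq_abs, abs_of_nonneg (hSU.nonneg y),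
      abs_of_nonneg (hAU.nonneg y)]
    exact mul_le_one₀ (hSU.le_one y) (hAU.nonneg y) (hAU.le_one y)
  have hmean : ∫ y, avg f s (c • y) ∂(stdGaussian E) = q := by
    rw [avg_mean hKU hcs]; exact integral_ind hKm _
  have hSq : ∫ y, S.indicator (fun _ => (1:ℝ)) y ∂(stdGaussian E) = (stdGaussian E).real S :=
    integral_ind hSm _
  -- `2 (1_S g - q 1_S) - (g - q) ≤ |g - q|`
  have hpt : ∀ y, (2 * (S.indicator (fun _ => (1:ℝ)) y * avg f s (c • y))
      - 2 * q * S.indicator (fun _ => (1:ℝ)) y) - (avg f s (c • y) - q)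
      ≤ |avg f s (c • y) - q| := by
    intro y
    by_cases hy : y ∈ S
    · rw [indicator_of_mem hy]
      have := le_abs_self (avg f s (c • y) - q)
      linarith
    · rw [indicator_of_notMem hy]
      have := neg_le_abs (avg f s (c • y) - q)
      linarith
  have i1 : Integrable (fun y => 2 * (S.indicator (fun _ => (1:ℝ)) y * avg f s (c • y))
      - 2 * q * S.indicator (fun _ => (1:ℝ)) y) (stdGaussian E) :=
    (hmul.const_mul 2).sub (hSi.const_mul (2 * q))
  have i2 : Integrable (fun y => avg f s (c • y) - q) (stdGaussian E) :=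
    hAi.sub (integrable_const _)
  have h4 := integral_mono (i1.sub i2) i2.abs hpt
  have h5 : ∫ y, ((2 * (S.indicator (fun _ => (1:ℝ)) y * avg f s (c • y))
      - 2 * q * S.indicator (fun _ => (1:ℝ)) y) - (avg f s (c • y) - q)) ∂(stdGaussian E)
      = 2 * ∫ y, S.indicator (fun _ => (1:ℝ)) y * avg f s (c • y) ∂(stdGaussian E)
        - 2 * q * (stdGaussian E).real S := by
    rw [integral_sub i1 i2, integral_sub (hmul.const_mul 2) (hSi.const_mul (2 * q)),
      integral_const_mul, integral_const_mul, integral_sub hAi (integrable_const _), hmean, hSq]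
    simp
  have h6 : 2 * ∫ y, S.indicator (fun _ => (1:ℝ)) y * avg f s (c • y) ∂(stdGaussian E)
        - 2 * q * (stdGaussian E).real S
      ≤ ∫ y, |avg f s (c • y) - q| ∂(stdGaussian E) := by
    rw [← h5]; exact h4
  have h7 : q * (35 / 36) ≤ q * (stdGaussian E).real (closedBall (0:E) r) :=
    mul_le_mul_of_nonneg_left h3 hq0.le
  have h8 : q * (stdGaussian E).real S ≤ q * (15 / 16) := mul_le_mul_of_nonneg_left h2 hq0.le
  linarith

end Vale.Agent.P262.H967
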