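import Vale.Agent.P262.H941.Bobkov
import Vale.Agent.P262.H941.Scale

/-!
# A Poincaré inequality for Gaussian averages, and the energy of the averages at dyadic scales
-/

set_option linter.unusedSectionVars false

namespace Vale.Agent.P262.H967

open MeasureTheory ProbabilityTheory Set Filter Topology
open scoped RealInnerProductSpace
open Vale.Agent.P262.H847 Vale.Agent.P262.H912 Vale.Agent.P262.H941

/-! ### Strong concavity of the profile -/

lemma sqrt_two_pi_bounds : 2 ≤ Real.sqrt (2 * Real.pi) ∧ Real.sqrt (2 * Real.pi) ≤ 8 / 3 := by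
  constructor
  · rw [Real.le_sqrt (by norm_num) (by positivity)]
    nlinarith [Real.pi_gt_three]
  · rw [Real.sqrt_le_left (by norm_num)]
    nlinarith [Real.pi_lt_d2]

lemma phi_le_half (x : ℝ) : phi x ≤ 1 / 2 := by
  rw [phi_eq]
  have h1 : (Real.sqrt (2 * Real.pi))⁻¹ ≤ 1 / 2 := by
    rw [one_div]; exact inv_anti₀ (by norm_num) sqrt_two_pi_bounds.1
  have h2 : Real.exp (-(x ^ 2) / 2) ≤ 1 := by
    rw [Real.exp_le_one_iff]; nlinarith [sq_nonneg x]
  have h3 : 0 < Real.exp (-(x ^ 2) / 2) := Real.exp_pos _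
  nlinarith

lemma phi_zero_ge : 3 / 8 ≤ phi 0 := by
  rw [phi_eq]
  have h1 : (3:ℝ) / 8 ≤ (Real.sqrt (2 * Real.pi))⁻¹ := by
    have h0 : (0:ℝ) < Real.sqrt (2 * Real.pi) := by positivity
    rw [le_inv_comm₀ (by norm_num) h0]
    have := sqrt_two_pi_bounds.2
    norm_num at this ⊢
    exact this
  simpa using h1

lemma tangent_sq (a b : ℝ) : phi a + b * (Phi a - Phi b) + (Phi a - Phi b) ^ 2 ≤ phi b := by
  set h : ℝ → ℝ := fun a => phi b - b * (Phi a - Phi b) - (Phi a - Phi b) ^ 2 - phi a with hh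
  have hd : ∀ x, HasDerivAt h (((x - b) - 2 * (Phi x - Phi b)) * phi x) x := by
    intro x
    have h1 := (((hasDerivAt_Phi x).sub_const (Phi b)).const_mul b)
    have h3 := ((hasDerivAt_Phi x).sub_const (Phi b)).pow 2
    have h2 := (((hasDerivAt_const x (phi b)).sub h1).sub h3).sub (hasDerivAt_phi x)
    refine h2.congr_deriv ?_
    push_cast
    ring
  have hb : h b = 0 := by simp [hh]
  have hlip : ∀ x y, x < y → Phi y - Phi x ≤ (y - x) / 2 := by
    intro x y hxy
    obtain ⟨c, hc, hc2⟩ := exists_hasDerivAt_eq_slope Phi phi hxy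
        (fun x _ => (hasDerivAt_Phi x).continuousAt.continuousWithinAt)
        (fun x _ => hasDerivAt_Phi x)
    have h1 := phi_le_half c
    rw [hc2, div_le_iff₀ (by linarith)] at h1
    linarith
  have key : 0 ≤ h a := by
    rcases lt_trichotomy a b with hab | hab | hab
    · obtain ⟨c, hc, hc2⟩ := exists_hasDerivAt_eq_slope h _ hab
        (fun x _ => (hd x).continuousAt.continuousWithinAt) (fun x _ => hd x)
      have h1 := hlip c b hc.2
      have h3 : ((c - b) - 2 * (Phi c - Phi b)) * phi c ≤ 0 :=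
        mul_nonpos_of_nonpos_of_nonneg (by linarith) (phi_pos c).le
      rw [hc2, hb, zero_sub, div_nonpos_iff] at h3
      rcases h3 with h3 | h3
      · linarith [h3.2]
      · linarith [h3.1]
    · rw [hab, hb]
    · obtain ⟨c, hc, hc2⟩ := exists_hasDerivAt_eq_slope h _ hab
        (fun x _ => (hd x).continuousAt.continuousWithinAt) (fun x _ => hd x)
      have h1 := hlip b c hc.1
      have h3 : 0 ≤ ((c - b) - 2 * (Phi c - Phi b)) * phi c :=
        mul_nonneg (by linarith) (phi_pos c).le
      rw [hc2, hb, sub_zero, div_nonneg_iff] at h3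
      rcases h3 with h3 | h3
      · exact h3.1
      · linarith [h3.2]
  simp only [hh] at key
  linarith

lemma Ip_tangent_sq {t : ℝ} (h0 : 0 < t) (h1 : t < 1) (z : ℝ) :
    Ip t ≤ phi z - z * (t - Phi z) - (t - Phi z) ^ 2 := by
  obtain ⟨x, rfl⟩ := exists_Phi_eq h0 h1
  rw [Ip_Phi]
  have := tangent_sq x z
  linarith

lemma Ip_half : Ip (1 / 2) = phi 0 := by
  have : Phi 0 = 1 / 2 := by
    have := Phi_neg 0
    rw [neg_zero] at this
    linarith
  rw [← this, Ip_Phi]

lemma Ip_mid {t : ℝ} (h0 : 1 / 4 ≤ t) (h1 : t ≤ 3 / 4) : 3 / 16 ≤ Ip t := by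
  have key : ∀ u : ℝ, 1 / 4 ≤ u → u ≤ 1 / 2 → 3 / 16 ≤ Ip u := by
    intro u hu0 hu1
    have h2 := Ip_mul_le (l := 2 * u) (b := 1 / 2) (by linarith) (by linarith) (by norm_num)
      (by norm_num)
    rw [Ip_half] at h2
    have e : 2 * u * (1 / 2) = u := by ring
    rw [e] at h2
    have h3 := phi_zero_ge
    nlinarith
  rcases le_total t (1 / 2) with h | h
  · exact key t h0 h
  · rw [← Ip_symm]
    exact key (1 - t) (by linarith) (by linarith)

variable {E : Type*} [NormedAddCommGroup E] [InnerProductSpace ℝ E] [FiniteDimensional ℝ E]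
  [MeasurableSpace E] [BorelSpace E]

/-- Poincaré inequality for functions with values in `[0,1]` which have a one-sided Taylor
bound. -/
theorem poincare {u D : E → ℝ} (hu : UI u) (hDm : Measurable D) {B L : ℝ} (hD0 : ∀ x, 0 ≤ D x)
    (hDB : ∀ x, D x ≤ B) (hL : 0 ≤ L) (hT : ∀ x z, u (x + z) ≤ u x + D x * ‖z‖ + L * ‖z‖ ^ 2) :
    ∫ x, u x ^ 2 ∂(stdGaussian E) ≤ (∫ x, u x ∂(stdGaussian E)) ^ 2
      + 3 * ∫ x, D x ^ 2 ∂(stdGaussian E) := by
  set h : E → ℝ := fun x => 1 / 4 + u x / 2 with hh
  have hhm : Measurable h := measurable_const.add (hu.meas.div_const 2)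
  have hU : UI h := ⟨hhm, fun x => by
    have := hu.nonneg x; simp only [hh]; linarith, fun x => by
    have := hu.le_one x; simp only [hh]; linarith⟩
  have hlo : ∀ x, 1 / 4 ≤ h x := fun x => by have := hu.nonneg x; simp only [hh]; linarith
  have hhi : ∀ x, h x ≤ 3 / 4 := fun x => by have := hu.le_one x; simp only [hh]; linarith
  have hB : 0 ≤ B := (hD0 0).trans (hDB 0)
  have hbob := bobkov (h := h) (D := fun x => D x / 2) (B := B / 2) (L := L / 2) hU
    (hDm.div_const 2) (fun x => by have := hD0 x; positivity) (fun x => by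
      have := hDB x; linarith) (by positivity) (fun x z => by
      have := hT x z
      simp only [hh]
      linarith)
  have hui := hu.integrable (stdGaussian E)
  have hhi' := hU.integrable (stdGaussian E)
  set m := ∫ x, h x ∂(stdGaussian E) with hm
  have hmu : m = 1 / 4 + (∫ x, u x ∂(stdGaussian E)) / 2 := by
    rw [hm]
    simp only [hh]
    rw [integral_add (integrable_const _) (hui.div_const 2)]
    simp only [integral_const, probReal_univ, smul_eq_mul, one_mul]
    congr 1
    exact integral_div 2 u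
  have hm0 : 1 / 4 ≤ m := by
    rw [hmu]; have : 0 ≤ ∫ x, u x ∂(stdGaussian E) := integral_nonneg hu.nonneg
    linarith
  have hm1 : m ≤ 3 / 4 := by
    have : ∫ x, u x ∂(stdGaussian E) ≤ 1 := by
      calc ∫ x, u x ∂(stdGaussian E) ≤ ∫ _x, (1:ℝ) ∂(stdGaussian E) :=
            integral_mono hui (integrable_const _) hu.le_one
        _ = 1 := by simp
    rw [hmu]; linarith
  obtain ⟨z, hz⟩ := exists_Phi_eq (show 0 < m by linarith) (show m < 1 by linarith)
  have hIi : Integrable (fun x => Ip (h x)) (stdGaussian E) := (UI.Ip hU).integrable _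
  have hD2 : Integrable (fun x => D x ^ 2) (stdGaussian E) := by
    refine Integrable.of_bound (hDm.pow_const 2).aestronglyMeasurable (B ^ 2)
      (Eventually.of_forall fun x => ?_)
    rw [Real.norm_eq_abs, abs_of_nonneg (by positivity)]
    exact pow_le_pow_left₀ (hD0 x) (hDB x) 2
  have hh2 : Integrable (fun x => (h x - m) ^ 2) (stdGaussian E) := by
    refine Integrable.of_bound ((hhm.sub_const m).pow_const 2).aestronglyMeasurable 1
      (Eventually.of_forall fun x => ?_)
    rw [Real.norm_eq_abs, abs_of_nonneg (by positivity)]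
    have := hlo x; have := hhi x
    nlinarith
  -- lower bound
  have h1 : ∫ x, Ip (h x) ∂(stdGaussian E) ≤ Ip m - ∫ x, (h x - m) ^ 2 ∂(stdGaussian E) := by
    have e1 : ∫ x, (Ip m - z * (h x - m) - (h x - m) ^ 2) ∂(stdGaussian E)
        = Ip m - ∫ x, (h x - m) ^ 2 ∂(stdGaussian E) := by
      have hi1 : Integrable (fun x => z * (h x - m)) (stdGaussian E) :=
        (hhi'.sub (integrable_const _)).const_mul z
      have hi2 : Integrable (fun x => Ip m - z * (h x - m)) (stdGaussian E) :=
        (integrable_const _).sub hi1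
      rw [integral_sub hi2 hh2, integral_sub (integrable_const _) hi1, integral_const_mul,
        integral_sub hhi' (integrable_const _)]
      simp [← hm]
    rw [← e1]
    refine integral_mono hIi (((integrable_const _).sub ((hhi'.sub
      (integrable_const _)).const_mul z)).sub hh2) (fun x => ?_)
    have := Ip_tangent_sq (t := h x) (by linarith [hlo x]) (by linarith [hhi x]) z
    rw [hz] at this
    rw [← hz, Ip_Phi, hz]
    exact this
  -- upper bound
  have h2 : ∫ x, Real.sqrt ((D x / 2) ^ 2 + Ip (h x) ^ 2) ∂(stdGaussian E)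
      ≤ ∫ x, Ip (h x) ∂(stdGaussian E) + 2 / 3 * ∫ x, D x ^ 2 ∂(stdGaussian E) := by
    rw [← integral_const_mul, ← integral_add hIi (hD2.const_mul _)]
    apply integral_mono_of_nonneg (Eventually.of_forall fun x => Real.sqrt_nonneg _)
      (hIi.add (hD2.const_mul _))
    refine Eventually.of_forall fun x => ?_
    have hI := Ip_mid (hlo x) (hhi x)
    have hD := sq_nonneg (D x)
    show Real.sqrt ((D x / 2) ^ 2 + Ip (h x) ^ 2) ≤ Ip (h x) + 2 / 3 * D x ^ 2
    rw [Real.sqrt_le_left (by positivity)]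
    nlinarith [mul_nonneg hD (sub_nonneg.mpr hI)]
  have h3 : ∫ x, (h x - m) ^ 2 ∂(stdGaussian E) ≤ 2 / 3 * ∫ x, D x ^ 2 ∂(stdGaussian E) := by
    linarith [hbob.trans h2]
  have hu2 : Integrable (fun x => u x ^ 2) (stdGaussian E) := by
    refine Integrable.of_bound (hu.meas.pow_const 2).aestronglyMeasurable 1
      (Eventually.of_forall fun x => ?_)
    rw [Real.norm_eq_abs, abs_of_nonneg (by positivity)]
    exact pow_le_one₀ (hu.nonneg x) (hu.le_one x)
  set M := ∫ x, u x ∂(stdGaussian E) with hM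
  have h4 : ∫ x, (h x - m) ^ 2 ∂(stdGaussian E)
      = 1 / 4 * (∫ x, u x ^ 2 ∂(stdGaussian E) - M ^ 2) := by
    have e1 : ∀ x, (h x - m) ^ 2 = 1 / 4 * (u x ^ 2) - (1 / 2 * M) * u x + 1 / 4 * M ^ 2 := by
      intro x
      rw [hmu]; simp only [hh]; ring
    simp_rw [e1]
    have hi4 : Integrable (fun x => 1 / 4 * (u x ^ 2) - (1 / 2 * M) * u x) (stdGaussian E) :=
      (hu2.const_mul _).sub (hui.const_mul _)
    rw [integral_add hi4 (integrable_const _),
      integral_sub (hu2.const_mul _) (hui.const_mul _), integral_const_mul, integral_const_mul,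
      ← hM]
    simp only [integral_const, probReal_univ, smul_eq_mul, one_mul]
    ring
  rw [h4] at h3
  have h5 : 0 ≤ ∫ x, D x ^ 2 ∂(stdGaussian E) := integral_nonneg fun x => sq_nonneg _
  linarith

end Vale.Agent.P262.H967
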