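import Vale.Agent.P262.H967.Supp2

/-!
# The scale at which a convex body is balanced
-/

set_option linter.unusedSectionVars false

namespace Vale.Agent.P262.H967

open MeasureTheory ProbabilityTheory Set Filter Topology Module
open scoped RealInnerProductSpace
open Vale.Agent.P262.H847 Vale.Agent.P262.H912 Vale.Agent.P262.H941

variable {E : Type*} [NormedAddCommGroup E] [InnerProductSpace ℝ E] [FiniteDimensional ℝ E]
  [MeasurableSpace E] [BorelSpace E]

/-- difference of the first moments of two fields at scale `s` -/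
noncomputable def D2 (f g : E → ℝ) (s : ℝ) : ℝ :=
  ∫ y, ‖mom f s (Real.sqrt (1 - s ^ 2) • y) - mom g s (Real.sqrt (1 - s ^ 2) • y)‖ ^ 2
    ∂(stdGaussian E)

lemma D2_nonneg (f g : E → ℝ) (s : ℝ) : 0 ≤ D2 f g s := integral_nonneg fun _ => sq_nonneg _

lemma sum_D2_shift {f g : E → ℝ} (hf : UI f) (hg : UI g) (m J : ℕ) :
    ∑ j ∈ Finset.range J, D2 f g ((1 / 2 : ℝ) ^ (m + j))
      ≤ 8 / 3 * ∫ x, |f x - g x| ∂(stdGaussian E) := by
  have h1 := sum_diff_le hf hg (m + J)
  have h2 : ∑ j ∈ Finset.range J, D2 f g ((1 / 2 : ℝ) ^ (m + j))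
      ≤ ∑ n ∈ Finset.range (m + J), D2 f g ((1 / 2 : ℝ) ^ n) := by
    rw [Finset.sum_range_add]
    have : 0 ≤ ∑ n ∈ Finset.range m, D2 f g ((1 / 2 : ℝ) ^ n) :=
      Finset.sum_nonneg fun n _ => D2_nonneg _ _ _
    linarith
  exact h2.trans h1

section
variable {f : E → ℝ} {s : ℝ}

lemma A2_upper (hf : UI f) (h0 : 0 ≤ s) (h1 : s ≤ 1) :
    A2 f s ≤ ∫ x, f x ∂(stdGaussian E) - Qf f s / 2 := by
  have hcs := sqrt_scale h0 h1
  have hA := UI.comp (UI.avg hf s) (T := fun y : E => Real.sqrt (1 - s ^ 2) • y) (by fun_prop)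
  have hAi := hA.integrable (stdGaussian E)
  have hQ := (Qf_UI hf s).integrable (stdGaussian E)
  have hA2 := (sq_UI hA).integrable (stdGaussian E)
  rw [← avg_mean hf hcs, A2, Qf, ← integral_div, ← integral_sub hAi (hQ.div_const 2)]
  refine integral_mono hA2 (hAi.sub (hQ.div_const 2)) fun y => ?_
  have h2 := hA.nonneg y
  have h3 := hA.le_one y
  simp only at h2 h3 ⊢
  rcases le_total (avg f s (Real.sqrt (1 - s ^ 2) • y)) (1 / 2) with h4 | h4
  · rw [min_eq_left (by linarith)]; nlinarith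
  · rw [min_eq_right (by linarith)]; nlinarith

lemma A2_lower (hf : UI f) (h0 : 0 ≤ s) (h1 : s ≤ 1) :
    ∫ x, f x ∂(stdGaussian E) - Qf f s ≤ A2 f s := by
  have hcs := sqrt_scale h0 h1
  have hA := UI.comp (UI.avg hf s) (T := fun y : E => Real.sqrt (1 - s ^ 2) • y) (by fun_prop)
  have hAi := hA.integrable (stdGaussian E)
  have hQ := (Qf_UI hf s).integrable (stdGaussian E)
  have hA2 := (sq_UI hA).integrable (stdGaussian E)
  rw [← avg_mean hf hcs, A2, Qf, ← integral_sub hAi hQ]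
  refine integral_mono (hAi.sub hQ) hA2 fun y => ?_
  have h2 := hA.nonneg y
  have h3 := hA.le_one y
  simp only at h2 h3 ⊢
  rcases le_total (avg f s (Real.sqrt (1 - s ^ 2) • y)) (1 / 2) with h4 | h4
  · rw [min_eq_left (by linarith)]; nlinarith
  · rw [min_eq_right (by linarith)]; nlinarith

end

lemma Qf_one {f : E → ℝ} : Qf f 1 = min (∫ x, f x ∂(stdGaussian E))
    (1 - ∫ x, f x ∂(stdGaussian E)) := by
  have h1 : Real.sqrt (1 - (1:ℝ) ^ 2) = 0 := by norm_num
  simp only [Qf, h1, zero_smul, avg, zero_add, one_smul, integral_const, probReal_univ,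
    smul_eq_mul, one_mul]

lemma Qf_le {K : Set E} (hKm : MeasurableSet K) (s : ℝ) :
    Qf (K.indicator (fun _ => (1:ℝ))) s
      ≤ ∫ y, |avg (K.indicator (fun _ => (1:ℝ))) s (Real.sqrt (1 - s ^ 2) • y)
          - K.indicator (fun _ => (1:ℝ)) y| ∂(stdGaussian E) := by
  have hf : UI (K.indicator (fun _ => (1:ℝ))) := UI.indicator hKm
  have hA := UI.comp (UI.avg hf s) (T := fun y : E => Real.sqrt (1 - s ^ 2) • y) (by fun_prop)
  refine integral_mono ((Qf_UI hf s).integrable _) ((hA.integrable _).sub (hf.integrable _)).abs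
    fun y => ?_
  have h2 := hA.nonneg y
  have h3 := hA.le_one y
  simp only at h2 h3 ⊢
  by_cases h : y ∈ K
  · rw [indicator_of_mem h, abs_of_nonpos (by linarith)]
    exact (min_le_right _ _).trans (by linarith)
  · rw [indicator_of_notMem h, sub_zero, abs_of_nonneg h2]
    exact min_le_left _ _

lemma A2_tele {f : E → ℝ} (hf : UI f) (m J : ℕ) :
    A2 f ((1 / 2 : ℝ) ^ (m + J)) ≤ A2 f ((1 / 2 : ℝ) ^ m)
      + 9 * ∑ j ∈ Finset.range J, M2 f ((1 / 2 : ℝ) ^ (m + 1 + j)) := by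
  induction J with
  | zero => simp
  | succ J ih =>
    rw [Finset.sum_range_succ]
    have h := inc_up hf (half_pow_pos (m + J)) (half_pow_le (m + J))
    rw [half_pow_half] at h
    have e1 : m + 1 + J = m + J + 1 := by ring
    rw [e1, ← add_assoc]
    linarith

/-- **Choice of the scale.** -/
theorem scale_select {K : Set E} (hKm : MeasurableSet K) {th : ℝ} (hth0 : 0 < th)
    (hth1 : th ≤ 1) (hq0 : 0 < (stdGaussian E).real K)
    (hq : th * (stdGaussian E).real K ≤ 1 - (stdGaussian E).real K) :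
    ∃ m J : ℕ, Qf (K.indicator (fun _ => (1:ℝ))) ((1 / 2 : ℝ) ^ (m + 1))
        ≤ (stdGaussian E).real K / 2 ∧
      th * (stdGaussian E).real K / 72
        ≤ ∑ j ∈ Finset.range J, M2 (K.indicator (fun _ => (1:ℝ))) ((1 / 2 : ℝ) ^ (m + 1 + j)) := by
  classical
  set f : E → ℝ := K.indicator (fun _ => (1:ℝ)) with hf'
  have hf : UI f := UI.indicator hKm
  set q := (stdGaussian E).real K with hqdef
  have hfq : ∫ x, f x ∂(stdGaussian E) = q := integral_ind hKm _
  have hsmall : ∀ ε : ℝ, 0 < ε → ∃ n0 : ℕ, ∀ n ≥ n0, Qf f ((1 / 2 : ℝ) ^ n) ≤ ε := by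
    intro ε hε
    obtain ⟨n0, hn0⟩ := eventually_atTop.mp (avg_L1 hf hε)
    exact ⟨n0, fun n hn => (Qf_le hKm _).trans (hn0 n hn)⟩
  have hthq : 0 < th * q := mul_pos hth0 hq0
  have hex : ∃ n, Qf f ((1 / 2 : ℝ) ^ n) < th * q / 2 := by
    obtain ⟨n0, hn0⟩ := hsmall (th * q / 4) (by positivity)
    exact ⟨n0, (hn0 n0 le_rfl).trans_lt (by linarith)⟩
  have hn1 := Nat.find_spec hex
  have hn2 : ∀ n < Nat.find hex, th * q / 2 ≤ Qf f ((1 / 2 : ℝ) ^ n) := fun n hn =>
    not_lt.mp (Nat.find_min hex hn)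
  have hne : Nat.find hex ≠ 0 := by
    intro h0
    rw [h0, pow_zero, Qf_one, hfq] at hn1
    have : th * q ≤ min q (1 - q) := le_min (mul_le_of_le_one_left hq0.le hth1) hq
    linarith
  obtain ⟨m, hm⟩ := Nat.exists_eq_succ_of_ne_zero hne
  rw [hm] at hn1 hn2
  have hm1 := hn2 m (Nat.lt_succ_self m)
  obtain ⟨n0, hn0⟩ := hsmall (th * q / 8) (by positivity)
  have hup := A2_upper hf (half_pow_pos m).le (half_pow_le m)
  have hlow := A2_lower hf (half_pow_pos (m + n0)).le (half_pow_le (m + n0))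
  have htel := A2_tele hf m n0
  have h8 := hn0 (m + n0) (by omega)
  rw [hfq] at hup hlow
  refine ⟨m, n0, ?_, ?_⟩
  · have : th * q ≤ q := mul_le_of_le_one_left hq0.le hth1
    have h9 : Qf f ((1 / 2 : ℝ) ^ (m + 1)) < th * q / 2 := hn1
    linarith
  · linarith

/-- direction bounds below the balanced scale -/
theorem dir_scale {K : Set E} (hK : Convex ℝ K) (hKm : MeasurableSet K)
    (hq0 : 0 < (stdGaussian E).real K) (hq1 : (stdGaussian E).real K < 1) {m : ℕ}
    (hQ : Qf (K.indicator (fun _ => (1:ℝ))) ((1 / 2 : ℝ) ^ m) ≤ (stdGaussian E).real K / 2)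
    (j : ℕ) (V : Submodule ℝ E) :
    ∫ y, ‖V.starProjection (mom (K.indicator (fun _ => (1:ℝ))) ((1 / 2 : ℝ) ^ (m + j))
        (Real.sqrt (1 - ((1 / 2 : ℝ) ^ (m + j)) ^ 2) • y))‖ ^ 2 ∂(stdGaussian E)
      ≤ finrank ℝ V * (9 * (stdGaussian E).real K * (1 / 2) ^ j) := by
  have hf : UI (K.indicator (fun _ => (1:ℝ))) := UI.indicator hKm
  apply proj_sq_le hf
  intro b hb
  have h1 := flux_scale hK hKm hq0 hq1 hb (half_pow_pos m) (half_pow_le m) hQ
  have h2 := dir_moment hf h1 (sqrt_scale (half_pow_pos (m + j)).le (half_pow_le (m + j)))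
    (half_pow_pos (m + j))
  refine h2.trans_eq ?_
  rw [pow_add]
  have := (half_pow_pos m).ne'
  field_simp

end Vale.Agent.P262.H967
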