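import Vale.Agent.P262.H967.Level2

/-!
# Gain-cost lemma, unhealthy case
-/

set_option linter.unusedSectionVars false

namespace Vale.Agent.P262.H967

open MeasureTheory ProbabilityTheory Set Filter Topology Module
open scoped RealInnerProductSpace
open Vale.Agent.P262.H847 hiding gn
open Vale.Agent.P262.H912 Vale.Agent.P262.H941 Vale.Agent.P262.H274

/-- number of coarse scales -/
noncomputable def jU (th : ℝ) : ℕ := 2 * Nat.clog 2 ⌈14000 / th⌉₊

/-- the small parameter -/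
noncomputable def dU (th : ℝ) : ℝ := th / (1000 * (jU th + 1))

/-- the constant of the unhealthy gain-cost lemma -/
noncomputable def cU (th : ℝ) : ℝ := dU th ^ 3

lemma dU_pos {th : ℝ} (h : 0 < th) : 0 < dU th := by unfold dU; positivity

lemma cU_pos {th : ℝ} (h : 0 < th) : 0 < cU th := pow_pos (dU_pos h) 3

lemma dU_le {th : ℝ} (h : th ≤ 1) : dU th ≤ 1 / 1000 := by
  unfold dU
  rw [div_le_div_iff₀ (by positivity) (by norm_num)]
  have : (0:ℝ) ≤ jU th := Nat.cast_nonneg _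
  nlinarith

lemma two_mul_add_one_le (i : ℕ) : (2 * i + 1 : ℝ) ≤ 2 * 2 ^ i := by
  induction i with
  | zero => norm_num
  | succ i ih =>
    push_cast
    rw [pow_succ]
    have h1 : (1:ℝ) ≤ 2 ^ i := one_le_pow₀ (by norm_num)
    linarith

lemma jU_pos {th : ℝ} (h0 : 0 < th) (h : th ≤ 1) : 1 ≤ jU th := by
  have h1 : 1 < ⌈14000 / th⌉₊ := by
    have h2 : (1:ℝ) < ⌈14000 / th⌉₊ := by
      refine lt_of_lt_of_le ?_ (Nat.le_ceil _)
      rw [lt_div_iff₀ h0]; linarith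
    exact_mod_cast h2
  have := Nat.clog_pos (b := 2) (by norm_num) h1
  unfold jU
  omega

lemma jU_tail {th : ℝ} (h0 : 0 < th) :
    ((jU th : ℝ) + 1) * (1 / 2) ^ jU th ≤ th / 7000 := by
  unfold jU
  set i := Nat.clog 2 ⌈14000 / th⌉₊ with hi
  have h1 : (14000 / th : ℝ) ≤ 2 ^ i := by
    have h2 := Nat.le_pow_clog (b := 2) (by norm_num) ⌈14000 / th⌉₊
    have h3 : ((⌈14000 / th⌉₊ : ℕ) : ℝ) ≤ ((2 ^ i : ℕ) : ℝ) := by exact_mod_cast h2
    push_cast at h3
    exact (Nat.le_ceil _).trans h3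
  have h4 := two_mul_add_one_le i
  rw [div_le_iff₀ h0] at h1
  have h5 : (1 / 2 : ℝ) ^ (2 * i) = ((1 / 2) ^ i) ^ 2 := by rw [mul_comm, pow_mul]
  have h6 : (2:ℝ) ^ i * (1 / 2) ^ i = 1 := by rw [← mul_pow]; norm_num
  set x : ℝ := (1 / 2) ^ i with hx
  have hx0 : 0 < x := by positivity
  push_cast
  rw [h5]
  have h7 : (2 * (i:ℝ) + 1) * x ^ 2 ≤ 2 * x := by
    calc (2 * (i:ℝ) + 1) * x ^ 2 ≤ (2 * 2 ^ i) * x ^ 2 :=
          mul_le_mul_of_nonneg_right h4 (by positivity)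
      _ = 2 * (2 ^ i * x) * x := by ring
      _ = 2 * x := by rw [h6]; ring
  have h8 : 14000 * x ≤ th := by
    calc 14000 * x ≤ (2 ^ i * th) * x := mul_le_mul_of_nonneg_right h1 hx0.le
      _ = (2 ^ i * x) * th := by ring
      _ = th := by rw [h6, one_mul]
  linarith

/-! ### Numerical sums -/

lemma sum_tail (j1 J : ℕ) :
    ∑ j ∈ Finset.range J, (if j < j1 then (0:ℝ) else j * (1 / 2) ^ j)
      + 2 * ((max J j1 : ℕ) + 1) * (1 / 2 : ℝ) ^ (max J j1) ≤ 2 * (j1 + 1) * (1 / 2) ^ j1 := by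
  induction J with
  | zero => simp
  | succ J ih =>
    rw [Finset.sum_range_succ]
    by_cases h : J < j1
    · rw [if_pos h, max_eq_right (by omega : J + 1 ≤ j1), add_zero]
      rw [max_eq_right (by omega : J ≤ j1)] at ih
      exact ih
    · rw [if_neg h, max_eq_left (by omega : j1 ≤ J + 1)]
      rw [max_eq_left (by omega : j1 ≤ J)] at ih
      refine le_trans (le_of_eq ?_) ih
      push_cast
      rw [pow_succ]
      ring

lemma sum_quarter (j1 J : ℕ) :
    ∑ j ∈ Finset.range J, (if j < j1 then (1 / 4 : ℝ) else (1 / 4) ^ j) ≤ j1 / 4 + 4 / 3 := by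
  have h1 : ∀ J : ℕ, ∑ j ∈ Finset.range J, (if j < j1 then (1:ℝ) else 0) ≤ j1 := by
    intro J
    rw [← Finset.sum_filter, Finset.sum_const, nsmul_eq_mul, mul_one]
    have : ((Finset.range J).filter (fun j => j < j1)) ⊆ Finset.range j1 := by
      intro j hj
      rw [Finset.mem_filter] at hj
      exact Finset.mem_range.mpr hj.2
    have h2 := Finset.card_le_card this
    rw [Finset.card_range] at h2
    exact_mod_cast h2
  have h2 : ∀ J : ℕ, ∑ j ∈ Finset.range J, (1 / 4 : ℝ) ^ j ≤ 4 / 3 := by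
    intro J
    have : ∑ j ∈ Finset.range J, (1 / 4 : ℝ) ^ j = 4 / 3 - 4 / 3 * (1 / 4) ^ J := by
      induction J with
      | zero => simp
      | succ J ih => rw [Finset.sum_range_succ, ih, pow_succ]; ring
    rw [this]
    have : (0:ℝ) ≤ (1 / 4) ^ J := by positivity
    linarith
  calc ∑ j ∈ Finset.range J, (if j < j1 then (1 / 4 : ℝ) else (1 / 4) ^ j)
      ≤ ∑ j ∈ Finset.range J, ((1 / 4) * (if j < j1 then (1:ℝ) else 0) + (1 / 4) ^ j) := by
        apply Finset.sum_le_sum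
        intro j _
        have : (0:ℝ) ≤ (1 / 4) ^ j := by positivity
        split_ifs <;> linarith
    _ = 1 / 4 * ∑ j ∈ Finset.range J, (if j < j1 then (1:ℝ) else 0)
        + ∑ j ∈ Finset.range J, (1 / 4 : ℝ) ^ j := by
        rw [Finset.sum_add_distrib, Finset.mul_sum]
    _ ≤ _ := by have := h1 J; have := h2 J; linarith

lemma exp_half_le : Real.exp (1 / 2) ≤ 2 := by
  have h1 : Real.exp (1 / 2) ^ 2 = Real.exp 1 := by
    rw [← Real.exp_nat_mul]; norm_num
  have h2 := Real.exp_one_lt_d9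
  have h3 := Real.exp_pos (1 / 2 : ℝ)
  nlinarith

variable {E : Type*} [NormedAddCommGroup E] [InnerProductSpace ℝ E] [FiniteDimensional ℝ E]
  [MeasurableSpace E] [BorelSpace E]

/-- level estimate with all constants -/
theorem level_const {v : ℕ → E} {N : ℝ} {k l u : ℕ} {V : Submodule ℝ E} (hN0 : 0 < N)
    (hN1 : N ≤ 1) (hP : PivotAt v N k l u V) {e : ℕ → E → ℝ} (he : ∀ t, UI (e t)) {F : ℕ → ℝ}
    (hF : ∀ t, l ≤ t → t < u → FluxLe (e t) (v t) (F t))
    (hlu : l ≤ u) {δ q : ℝ} (hδ : 0 < δ) (hδ1 : δ ≤ 1) (hq : 0 ≤ q)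
    (hη : Gam (gn e F) l u ≤ 216 * (1 / 216) ^ k * (δ ^ 3 * (N * q)))
    (hD : ∫ x, e u x ∂(stdGaussian E) ≤ 2 * q)
    {c s : ℝ} (hcs : c ^ 2 + s ^ 2 = 1) (hs : 0 < s) (hs1 : s ≤ 1) :
    ∫ y, ‖(ContinuousLinearMap.id ℝ E - V.starProjection) (mom (e u) s (c • y))‖ ^ 2
        ∂(stdGaussian E) ≤ 502 * (1 / 4) ^ k * (δ ^ 2 * q) := by
  have h6 : (0:ℝ) < 6 ^ k := by positivity
  have h61 : (1:ℝ) ≤ 6 ^ k := one_le_pow₀ (by norm_num)
  have h1 := level_end hN0 hP he hF hlu hη hD hcs hs hs1 (ε := δ / 6 ^ k) (by positivity)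
    (by rw [div_le_one h6]; linarith)
  refine h1.trans ?_
  have e1 : (9:ℝ) ^ k * 6 ^ k * (1 / 216) ^ k = (1 / 4) ^ k := by
    rw [← mul_pow, ← mul_pow]; norm_num
  have e2 : (1 / 216 : ℝ) ^ k = 1 / (6 ^ k) ^ 3 := by
    rw [div_pow, one_pow, ← pow_mul, mul_comm k 3, pow_mul]; norm_num
  have e3 : 9 ^ k / (N * (δ / 6 ^ k)) * (Real.exp (1 / 2) * (216 * (1 / 216) ^ k * (δ ^ 3 * (N * q)))
        + Real.exp (1 / 2) * ((δ / 6 ^ k) ^ 3 / 6 * (N ^ 3 * (104 * (2 * q)))))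
      = (9 ^ k * 6 ^ k * (1 / 216) ^ k) * (δ ^ 2 * q) * (Real.exp (1 / 2) * (216 + 104 / 3 * N ^ 2)) := by
    rw [e2]
    field_simp
    ring
  rw [e3, e1]
  have h2 := exp_half_le
  have h3 := Real.exp_pos (1 / 2 : ℝ)
  have h4 : N ^ 2 ≤ 1 := pow_le_one₀ hN0.le hN1
  have h5 : Real.exp (1 / 2) * (216 + 104 / 3 * N ^ 2) ≤ 502 := by nlinarith
  calc (1 / 4 : ℝ) ^ k * (δ ^ 2 * q) * (Real.exp (1 / 2) * (216 + 104 / 3 * N ^ 2))
      ≤ (1 / 4 : ℝ) ^ k * (δ ^ 2 * q) * 502 := mul_le_mul_of_nonneg_left h5 (by positivity)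
    _ = _ := by ring

/-- the estimate at one scale, with all constants -/
theorem level_step {v : ℕ → E} {N : ℝ} {k l u : ℕ} {V : Submodule ℝ E} (hN0 : 0 < N)
    (hN1 : N ≤ 1) (hk : 1 ≤ k) (hP : PivotAt v N k l u V) {f : ℕ → E → ℝ} (hf : ∀ t, UI (f t))
    {F : ℕ → ℝ} (hF0 : ∀ t, 0 ≤ F t) (hF : ∀ t, l ≤ t → t < u → FluxLe (f t) (v t) (F t))
    {ts : ℕ} (hlt : l ≤ ts) (htu : ts ≤ u) {δ qs : ℝ} (hδ0 : 0 < δ) (hδ1 : δ ≤ 1) (hqs0 : 0 < qs)
    (hG : Gam (gn f F) l u ≤ 216 * (1 / 216) ^ k * (δ ^ 3 * (N * qs)))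
    (hmass : ∫ x, f u x ∂(stdGaussian E) ≤ 2 * qs) {g : E → ℝ} (hg : UI g) {s : ℝ} (hs0 : 0 < s)
    (hs1 : s ≤ 1) {β : ℝ} (hdir : ∫ y, ‖V.starProjection (mom g s
        (Real.sqrt (1 - s ^ 2) • y))‖ ^ 2 ∂(stdGaussian E) ≤ β) :
    M2 g s ≤ β + 1520 * (δ ^ 2 * qs) * (1 / 4) ^ k + 3 * D2 g (f ts) s := by
  have hcs := sqrt_scale hs0.le hs1
  have h1 := level_const hN0 hN1 hP hf hF (hlt.trans htu) hδ0 hδ1 hqs0.le hG hmass hcs hs0 hs1
  have h2 : ∫ x, |f ts x - f u x| ∂(stdGaussian E)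
      ≤ 216 * (1 / 216) ^ k * (δ ^ 3 * (N * qs)) := by
    have h3 := l1_le_gam hf hF0 (l := l) (u := u) hlt htu le_rfl
    have h4 : ∫ x, |f ts x - f u x| ∂(stdGaussian E)
        = ∫ x, |f u x - f ts x| ∂(stdGaussian E) := by
      congr 1; funext x; rw [abs_sub_comm]
    rw [h4]; exact h3.trans hG
  have h5 := level_total hg (hf ts) (hf u) V hs0.le hs1 hdir h1 h2
  refine h5.trans ?_
  have h6 : 216 * (1 / 216 : ℝ) ^ k * (δ ^ 3 * (N * qs)) ≤ 4 * (1 / 4) ^ k * (δ ^ 2 * qs) := by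
    obtain ⟨k', rfl⟩ := Nat.exists_eq_succ_of_ne_zero (by omega : k ≠ 0)
    rw [Nat.succ_eq_add_one, pow_succ (1 / 216 : ℝ) k', pow_succ (1 / 4 : ℝ) k']
    have h7 : (1 / 216 : ℝ) ^ k' ≤ (1 / 4) ^ k' := pow_le_pow_left₀ (by norm_num) (by norm_num) _
    have h8 : δ ^ 3 * (N * qs) ≤ δ ^ 2 * qs := by
      have h9 : N * qs ≤ qs := mul_le_of_le_one_left hqs0.le hN1
      calc δ ^ 3 * (N * qs) ≤ δ ^ 3 * qs := mul_le_mul_of_nonneg_left h9 (by positivity)
        _ = δ * (δ ^ 2 * qs) := by ring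
        _ ≤ 1 * (δ ^ 2 * qs) := mul_le_mul_of_nonneg_right hδ1 (by positivity)
        _ = _ := one_mul _
    calc 216 * ((1 / 216 : ℝ) ^ k' * (1 / 216)) * (δ ^ 3 * (N * qs))
        = (1 / 216 : ℝ) ^ k' * (δ ^ 3 * (N * qs)) := by ring
      _ ≤ (1 / 4 : ℝ) ^ k' * (δ ^ 2 * qs) :=
          mul_le_mul h7 h8 (by positivity) (by positivity)
      _ = _ := by ring
  have h10 : 0 ≤ (1 / 4 : ℝ) ^ k * (δ ^ 2 * qs) := by positivity
  linarith

/-- the final numerical contradiction -/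
lemma final_sum {th qs S1 S2 S3 T : ℝ} (hth0 : 0 < th) (hth1 : th ≤ 1) (hqs0 : 0 < qs)
    (h1 : T ≤ 9 * qs * S1 + 1520 * (dU th ^ 2 * qs) * S2 + 3 * S3) (h2 : th * qs / 72 ≤ T)
    (hT1 : S1 ≤ 2 * (th / 7000)) (hT2 : S2 ≤ jU th / 4 + 4 / 3)
    (hT3 : S3 ≤ 8 / 3 * (th / 1000 * qs)) : False := by
  set δ := dU th with hδdef
  have hδ0 : 0 < δ := dU_pos hth0
  set j1 := jU th with hj1
  have hj1r : (1:ℝ) ≤ j1 := by exact_mod_cast jU_pos hth0 hth1
  have hA : 9 * qs * S1 ≤ 9 * qs * (2 * (th / 7000)) :=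
    mul_le_mul_of_nonneg_left hT1 (by positivity)
  have hB : 1520 * (δ ^ 2 * qs) * S2 ≤ 1520 * (δ ^ 2 * qs) * (2 * j1) :=
    mul_le_mul_of_nonneg_left (by linarith) (by positivity)
  have hT5 : δ ^ 2 * (4 * j1) ≤ th / 1000000 := by
    have h1 : δ * (1000 * (j1 + 1)) = th := by
      rw [hδdef, dU, ← hj1]
      field_simp
    have h2 : 4 * (j1:ℝ) ≤ (j1 + 1) ^ 2 := by nlinarith [sq_nonneg ((j1:ℝ) - 1)]
    have h3 : δ ^ 2 * (4 * j1) ≤ δ ^ 2 * (j1 + 1) ^ 2 :=
      mul_le_mul_of_nonneg_left h2 (by positivity)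
    have h4 : δ ^ 2 * ((j1:ℝ) + 1) ^ 2 = th ^ 2 / 1000000 := by
      rw [← h1]; ring
    have h5 : th ^ 2 ≤ th := by rw [sq]; exact mul_le_of_le_one_left hth0.le hth1
    linarith
  have hC : 1520 * (δ ^ 2 * qs) * (2 * j1) ≤ 760 * (th / 1000000) * qs := by
    have h1 := mul_le_mul_of_nonneg_right hT5 hqs0.le
    have e1 : 1520 * (δ ^ 2 * qs) * (2 * j1) = 760 * (δ ^ 2 * (4 * j1) * qs) := by ring
    have e2 : 760 * (th / 1000000) * qs = 760 * (th / 1000000 * qs) := by ring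
    rw [e1, e2]
    linarith
  have hthq : 0 < th * qs := mul_pos hth0 hqs0
  have e3 : 9 * qs * (2 * (th / 7000)) = 18 / 7000 * (th * qs) := by ring
  have e4 : 760 * (th / 1000000) * qs = 760 / 1000000 * (th * qs) := by ring
  have e5 : 8 / 3 * (th / 1000 * qs) = 8 / 3000 * (th * qs) := by ring
  rw [e3] at hA
  rw [e4] at hC
  rw [e5] at hT3
  linarith

/-- **Gain-cost lemma, unhealthy case.** -/
theorem gain_cost_unhealthy {th : ℝ} (hth0 : 0 < th) (hth1 : th ≤ 1) (v : ℕ → E) {N ρ : ℝ}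
    (hN0 : 0 < N) (hN1 : N ≤ 1) (hρ0 : 0 < ρ) (hρ1 : ρ ≤ 1 / 216) {a b : ℕ} (hab : a < b)
    (hS : ¬ Slow v N 1 a b) {f : ℕ → E → ℝ} (hf : ∀ t, UI (f t)) {F : ℕ → ℝ}
    (hF : ∀ t, a ≤ t → t < b → FluxLe (f t) (v t) (F t)) {K : ℕ → Set E}
    (hK : ∀ t, a ≤ t → t < b → Convex ℝ (K t)) (hKm : ∀ t, a ≤ t → t < b → MeasurableSet (K t))
    (hKh : ∀ t, a ≤ t → t < b →
      th * (stdGaussian E).real (K t) ≤ 1 - (stdGaussian E).real (K t))
    {q : ℝ} (hq0 : 0 < q) (hq : ∀ t, a ≤ t → t < b → q ≤ (stdGaussian E).real (K t))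
    (hfK : ∀ t, a ≤ t → t < b → ∫ x, |f t x - (K t).indicator (fun _ => (1:ℝ)) x| ∂(stdGaussian E)
      ≤ th / 1000 * (stdGaussian E).real (K t)) :
    cU th * N * q * Cost (Slow v N) ρ a b ≤ Gam (gn f F) a b := by
  by_contra hcon
  push Not at hcon
  -- non-negative fluxes
  set F' : ℕ → ℝ := fun t => if a ≤ t ∧ t < b then F t else 0 with hF'
  have hF'0 : ∀ t, 0 ≤ F' t := by
    intro t
    simp only [hF']
    split_ifs with h
    · exact (hF t h.1 h.2).nonneg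
    · exact le_rfl
  have hF'e : ∀ t, a ≤ t → t < b → F' t = F t := fun t h1 h2 => if_pos ⟨h1, h2⟩
  have hF'F : ∀ t, a ≤ t → t < b → FluxLe (f t) (v t) (F' t) := fun t h1 h2 => by
    rw [hF'e t h1 h2]; exact hF t h1 h2
  have hGe : Gam (gn f F') a b = Gam (gn f F) a b := by
    unfold Gam gn
    refine Finset.sum_congr rfl fun t ht => ?_
    rw [Finset.mem_Ico] at ht
    rw [hF'e t ht.1 ht.2]
  rw [← hGe] at hcon
  set δ := dU th with hδdef
  have hδ0 : 0 < δ := dU_pos hth0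
  have hδle : δ ≤ 1 / 1000 := dU_le hth1
  have hδ1 : δ ≤ 1 := by linarith
  have hcU : cU th = δ ^ 3 := rfl
  have hcU0 : 0 < cU th := cU_pos hth0
  -- positive dimension
  have hfin : 1 ≤ finrank ℝ E := by
    by_contra h0
    have h1 : finrank ℝ E = 0 := by omega
    have hsub : Subsingleton E := finrank_zero_iff.mp h1
    have h2 := hq a le_rfl hab
    have h3 : (K a).Nonempty := by
      rw [nonempty_iff_ne_empty]
      intro h
      rw [h, measureReal_empty] at h2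
      linarith
    obtain ⟨x, hx⟩ := h3
    have h4 : K a = univ := by
      ext y
      simp only [mem_univ, iff_true]
      rwa [Subsingleton.elim y x]
    have h5 := hKh a le_rfl hab
    rw [h4, probReal_univ] at h5
    linarith
  have hc := hcon.le
  obtain ⟨l, u, hlu, hlev, ts, hts⟩ := deterministic_half_adm v hN0 hN1 hρ0
    (by linarith : ρ ≤ 1) (gn_nonneg (e := f) hF'0) hab hS hc
  have hts0 := hts 0 (by omega)
  have hat : a ≤ ts := (hlu 0).1.trans hts0.1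
  have htb : ts < b := hts0.2.trans_le (hlu 0).2.1
  have hla : ∀ k, a ≤ l k := fun k => (hlu k).1
  have hub : ∀ k, u k ≤ b := fun k => (hlu k).2.1
  -- the body
  set qs := (stdGaussian E).real (K ts) with hqs
  have hqqs : q ≤ qs := hq ts hat htb
  have hqs0 : 0 < qs := hq0.trans_le hqqs
  have hKc := hK ts hat htb
  have hKmm := hKm ts hat htb
  have hKhh := hKh ts hat htb
  rw [← hqs] at hKhh
  have hqs1 : qs < 1 := by nlinarith [mul_pos hth0 hqs0]
  set g : E → ℝ := (K ts).indicator (fun _ => (1:ℝ)) with hgdef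
  have hg : UI g := UI.indicator hKmm
  have hfg := hfK ts hat htb
  rw [← hgdef, ← hqs] at hfg
  have hfg' : ∫ x, |g x - f ts x| ∂(stdGaussian E) ≤ th / 1000 * qs := by
    have : ∫ x, |g x - f ts x| ∂(stdGaussian E) = ∫ x, |f ts x - g x| ∂(stdGaussian E) := by
      congr 1; funext x; rw [abs_sub_comm]
    rw [this]; exact hfg
  have hmass0 : ∫ x, f ts x ∂(stdGaussian E) ≤ qs + th / 1000 * qs := by
    have h1 : ∫ x, f ts x ∂(stdGaussian E) - ∫ x, g x ∂(stdGaussian E)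
        ≤ ∫ x, |f ts x - g x| ∂(stdGaussian E) := by
      rw [← integral_sub ((hf ts).integrable _) (hg.integrable _)]
      exact integral_mono (((hf ts).integrable _).sub (hg.integrable _))
        (((hf ts).integrable _).sub (hg.integrable _)).abs fun x => le_abs_self _
    have h2 : ∫ x, g x ∂(stdGaussian E) = qs := integral_ind hKmm _
    linarith
  -- the total gain
  have hcost : Cost (Slow v N) ρ a b ≤ 1 := by
    have h0 : Slow v N 0 a b := by
      refine ⟨0, le_rfl, fun _ => ⊥, fun _ => finrank_bot ℝ E, ?_⟩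
      refine le_trans (le_of_eq (Finset.sum_eq_zero fun t _ => ?_)) hN0.le
      rw [sub_self, norm_zero, add_zero, norm_eq_zero, Submodule.starProjection_apply_eq_zero_iff]
      simp
    have := cost_le_pow hρ0.le hab h0
    rwa [pow_zero] at this
  have hcost0 : 0 ≤ Cost (Slow v N) ρ a b := cost_nonneg hρ0.le a b
  have hGab : Gam (gn f F') a b ≤ δ ^ 3 * (N * qs) := by
    refine hc.trans ?_
    rw [hcU]
    have h1 : 0 ≤ δ ^ 3 * N * q := by positivity
    calc δ ^ 3 * N * q * Cost (Slow v N) ρ a b ≤ δ ^ 3 * N * q * 1 :=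
          mul_le_mul_of_nonneg_left hcost h1
      _ ≤ δ ^ 3 * N * qs := by
          rw [mul_one]; exact mul_le_mul_of_nonneg_left hqqs (by positivity)
      _ = _ := by ring
  have hδ3 : δ ^ 3 ≤ 1 / 2 := by
    have h1 : δ ^ 3 ≤ 1 ^ 2 * (1 / 1000) := by
      rw [pow_succ]
      exact mul_le_mul (pow_le_pow_left₀ hδ0.le hδ1 2) hδle hδ0.le (by norm_num)
    linarith
  have hGab2 : Gam (gn f F') a b ≤ 1 / 2 * qs := by
    refine hGab.trans ?_
    have h1 : N * qs ≤ qs := mul_le_of_le_one_left hqs0.le hN1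
    have h2 : 0 ≤ N * qs := by positivity
    calc δ ^ 3 * (N * qs) ≤ 1 / 2 * (N * qs) := mul_le_mul_of_nonneg_right hδ3 h2
      _ ≤ 1 / 2 * qs := by linarith
  -- masses at all times
  have hmass : ∀ r, ts ≤ r → r ≤ b → ∫ x, f r x ∂(stdGaussian E) ≤ 2 * qs := by
    intro r hr1 hr2
    have h1 : ∫ x, f r x ∂(stdGaussian E) - ∫ x, f ts x ∂(stdGaussian E)
        ≤ ∫ x, |f r x - f ts x| ∂(stdGaussian E) := by
      rw [← integral_sub ((hf r).integrable _) ((hf ts).integrable _)]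
      exact integral_mono (((hf r).integrable _).sub ((hf ts).integrable _))
        (integrable_sub_abs hf ts r) fun x => le_abs_self _
    have h2 := l1_le_gam hf hF'0 (l := a) (u := b) hat hr1 hr2
    nlinarith
  -- the scale
  obtain ⟨m, J, hQ, hsum⟩ := scale_select hKmm hth0 hth1 hqs0 hKhh
  rw [← hgdef] at hQ hsum
  set j1 := jU th with hj1
  have hj1pos : 1 ≤ j1 := jU_pos hth0 hth1
  -- the bound at each scale
  have hscale : ∀ j, M2 g ((1 / 2 : ℝ) ^ (m + 1 + j))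
      ≤ 9 * qs * (if j < j1 then (0:ℝ) else j * (1 / 2) ^ j)
        + 1520 * (δ ^ 2 * qs) * (if j < j1 then (1 / 4 : ℝ) else (1 / 4) ^ j)
        + 3 * D2 g (f ts) ((1 / 2 : ℝ) ^ (m + 1 + j)) := by
    intro j
    set s := (1 / 2 : ℝ) ^ (m + 1 + j) with hs
    have hs0 : 0 < s := half_pow_pos _
    have hs1 : s ≤ 1 := half_pow_le _
    have hcs := sqrt_scale hs0.le hs1
    have hD0 := D2_nonneg g (f ts) s
    have hdir : ∀ V : Submodule ℝ E, ∫ y, ‖V.starProjection (mom g s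
        (Real.sqrt (1 - s ^ 2) • y))‖ ^ 2 ∂(stdGaussian E)
        ≤ finrank ℝ V * (9 * qs * (1 / 2) ^ j) := fun V =>
      dir_scale hKc hKmm hqs0 hqs1 hQ j V
    -- a generic level
    have hgen : ∀ (k l' u' : ℕ) (V : Submodule ℝ E), 1 ≤ k → PivotAt v N k l' u' V → a ≤ l' →
        l' ≤ ts → ts ≤ u' → u' ≤ b →
        Gam (gn f F') l' u' ≤ 216 * (1 / 216) ^ k * (δ ^ 3 * (N * qs)) →
        M2 g s ≤ finrank ℝ V * (9 * qs * (1 / 2) ^ j) + 1520 * (δ ^ 2 * qs) * (1 / 4) ^ k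
          + 3 * D2 g (f ts) s := fun k l' u' V hk hP hal hlt htu hub' hG =>
      level_step hN0 hN1 hk hP hf hF'0 (fun t ht1 ht2 => hF'F t (hal.trans ht1)
        (ht2.trans_le hub')) hlt htu hδ0 hδ1 hqs0 hG (hmass u' htu hub') hg hs0 hs1 (hdir V)
    by_cases hj : j < j1
    · -- coarse scales
      obtain ⟨V, hV⟩ := pivot_adm v hN0 hN1 (le_refl 1) hab.le
        (fun h => hS ⟨1, le_rfl, h⟩)
      have h1 := hgen 1 a b V le_rfl hV le_rfl hat htb.le le_rfl (by
        refine hGab.trans (le_of_eq ?_)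
        norm_num)
      have h2 : finrank ℝ V = 0 := by have := hV.1; omega
      rw [h2] at h1
      rw [if_pos hj, if_pos hj]
      simpa using h1
    · rw [if_neg hj, if_neg hj]
      have hj' : 1 ≤ j := by omega
      by_cases hjf : j + 1 ≤ finrank ℝ E
      · obtain ⟨hlt, hG, V, hV⟩ := hlev j hj' hjf
        have htj := hts j hjf
        have h1 := hgen j (l j) (u j) V hj' hV (hla j) htj.1 htj.2.le (hub j) (by
          refine hG.trans ?_
          have h3 : ρ ^ j ≤ (1 / 216) ^ j := pow_le_pow_left₀ hρ0.le hρ1 j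
          have h4 : cU th * N * q ≤ δ ^ 3 * (N * qs) := by
            rw [hcU]
            calc δ ^ 3 * N * q ≤ δ ^ 3 * N * qs :=
                  mul_le_mul_of_nonneg_left hqqs (by positivity)
              _ = _ := by ring
          have h5 : 0 ≤ δ ^ 3 * (N * qs) := by positivity
          calc 3 * ρ ^ j * (cU th * N * q) ≤ 3 * (1 / 216) ^ j * (δ ^ 3 * (N * qs)) :=
                mul_le_mul (mul_le_mul_of_nonneg_left h3 (by norm_num)) h4
                  (by positivity) (by positivity)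
            _ ≤ 216 * (1 / 216) ^ j * (δ ^ 3 * (N * qs)) := by
                have h6 : (0:ℝ) ≤ (1 / 216) ^ j := by positivity
                exact mul_le_mul_of_nonneg_right (by linarith) h5)
        have h2 : (finrank ℝ V : ℝ) ≤ j := by
          have := hV.1
          exact_mod_cast this.le
        have h3 : (finrank ℝ V : ℝ) * (9 * qs * (1 / 2) ^ j) ≤ j * (9 * qs * (1 / 2) ^ j) :=
          mul_le_mul_of_nonneg_right h2 (by positivity)
        have h4 : (j:ℝ) * (9 * qs * (1 / 2) ^ j) = 9 * qs * (j * (1 / 2) ^ j) := by ring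
        rw [h4] at h3
        linarith
      · -- beyond the dimension
        have h1 := hdir ⊤
        have h2 : (finrank ℝ (⊤ : Submodule ℝ E) : ℝ) ≤ j := by
          rw [finrank_top]
          have : finrank ℝ E ≤ j := by omega
          exact_mod_cast this
        have h3 : (finrank ℝ (⊤ : Submodule ℝ E) : ℝ) * (9 * qs * (1 / 2) ^ j)
            ≤ j * (9 * qs * (1 / 2) ^ j) := mul_le_mul_of_nonneg_right h2 (by positivity)
        have h4 : (j:ℝ) * (9 * qs * (1 / 2) ^ j) = 9 * qs * (j * (1 / 2) ^ j) := by ring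
        rw [h4] at h3
        have h5 : M2 g s = ∫ y, ‖(⊤ : Submodule ℝ E).starProjection (mom g s
            (Real.sqrt (1 - s ^ 2) • y))‖ ^ 2 ∂(stdGaussian E) := by
          unfold M2
          congr 1; funext y
          rw [Submodule.starProjection_top, ContinuousLinearMap.id_apply]
        rw [← h5] at h1
        have h6 : 0 ≤ 1520 * (δ ^ 2 * qs) * (1 / 4 : ℝ) ^ j := by positivity
        linarith
  -- sum over the scales
  have hS1 := Finset.sum_le_sum fun j (_ : j ∈ Finset.range J) => hscale j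
  rw [Finset.sum_add_distrib, Finset.sum_add_distrib, ← Finset.mul_sum, ← Finset.mul_sum,
    ← Finset.mul_sum] at hS1
  have hS2 := sum_D2_shift hg (hf ts) (m + 1) J
  have hS3 := sum_quarter j1 J
  have hS4 := sum_tail j1 J
  have hS5 : 0 ≤ 2 * (((max J j1 : ℕ) : ℝ) + 1) * (1 / 2 : ℝ) ^ (max J j1) := by positivity
  have hS6 := jU_tail hth0
  rw [← hj1] at hS6
  refine final_sum hth0 hth1 hqs0 hS1 hsum (by linarith) hS3 (by linarith)

end Vale.Agent.P262.H967
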